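import Vale.Agent.P074.PL
import Mathlib.Analysis.Convex.Measure
import Mathlib.Topology.EMetricSpace.BoundedVariation

/-!
# P137: maximal functions, axis-slice variation, and two elementary facts
-/

namespace Vale.Agent.P137

open MeasureTheory Set Metric Filter
open scoped ENNReal NNReal Pointwise Topology

noncomputable section

/-- Euclidean space. -/
abbrev Eu (d : ℕ) := EuclideanSpace ℝ (Fin d)

/-- The centred Hardy–Littlewood maximal function. -/
def centredMax {d : ℕ} (f : Eu d → ℝ) (x : Eu d) : ℝ :=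
  (⨆ (r : ℝ) (_ : 0 < r), (∫⁻ y in ball x r, ‖f y‖ₑ) / volume (ball x r)).toReal

/-- The uncentred Hardy–Littlewood maximal function. -/
def uncentredMax {d : ℕ} (f : Eu d → ℝ) (x : Eu d) : ℝ :=
  (⨆ (c : Eu d) (r : ℝ) (_ : x ∈ ball c r),
    (∫⁻ y in ball c r, ‖f y‖ₑ) / volume (ball c r)).toReal

/-- The point with `i`-th coordinate `t` and other coordinates `y`. -/
def onLine {n : ℕ} (i : Fin (n + 1)) (y : Fin n → ℝ) (t : ℝ) : Eu (n + 1) :=
  WithLp.toLp 2 (i.insertNth t y)

/-- The sum over the axes of the integrated variations along the parallels to that axis. -/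
def axialVariation {n : ℕ} (f : Eu (n + 1) → ℝ) : ℝ≥0∞ :=
  ∑ i, ∫⁻ y, eVariationOn (fun t => f (onLine i y t)) univ

variable {d : ℕ}

theorem volume_mid {A B Z : Set (Eu d)} (hA : NullMeasurableSet A) (hB : NullMeasurableSet B)
    (h : ∀ a ∈ A, ∀ b ∈ B, (2⁻¹ : ℝ) • (a + b) ∈ Z) : volume A * volume B ≤ volume Z ^ 2 := by
  classical
  obtain ⟨A', hA', mA, eA⟩ := hA.exists_measurable_subset_ae_eq
  obtain ⟨B', hB', mB, eB⟩ := hB.exists_measurable_subset_ae_eq
  rw [← measure_congr eA, ← measure_congr eB, ← measure_toMeasurable Z,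
    ← lintegral_indicator_one mA, ← lintegral_indicator_one mB,
    ← lintegral_indicator_one (measurableSet_toMeasurable volume Z)]
  refine P074.pl_euclidean _ _ _ (measurable_one.indicator mA) (measurable_one.indicator mB)
    (measurable_one.indicator (measurableSet_toMeasurable volume Z)) fun x y => ?_
  by_cases hx : x ∈ A'
  · by_cases hy : y ∈ B'
    · rw [indicator_of_mem hx, indicator_of_mem hy,
        indicator_of_mem (subset_toMeasurable volume Z (h x (hA' hx) y (hB' hy)))]
      simp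
    · simp [indicator_of_notMem hy]
  · simp [indicator_of_notMem hx]

/-- Brunn–Minkowski in multiplicative form, dyadic weights. -/
theorem le_volume_dyadic {A B : Set (Eu d)} (hA : Convex ℝ A) (hB : Convex ℝ B) {m : ℝ≥0∞}
    (ha : m ≤ volume A) (hb : m ≤ volume B) : ∀ N k : ℕ, k ≤ 2 ^ N →
      m ≤ volume ((1 - (k : ℝ) / 2 ^ N) • A + ((k : ℝ) / 2 ^ N) • B) := by
  rcases A.eq_empty_or_nonempty with rfl | hAn
  · simp only [measure_empty, nonpos_iff_eq_zero] at ha; simp [ha]
  rcases B.eq_empty_or_nonempty with rfl | hBn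
  · simp only [measure_empty, nonpos_iff_eq_zero] at hb; simp [hb]
  intro N
  induction N with
  | zero =>
    intro k hk
    rcases Nat.le_one_iff_eq_zero_or_eq_one.1 (by simpa using hk) with rfl | rfl
    · simpa [Set.zero_smul_set hBn] using ha
    · simpa [Set.zero_smul_set hAn] using hb
  | succ N ih =>
    intro k hk
    have hj : k / 2 ≤ 2 ^ N := by rw [pow_succ] at hk; omega
    have hj' : (k + 1) / 2 ≤ 2 ^ N := by rw [pow_succ] at hk; omega
    have e : ((k / 2 : ℕ) : ℝ) + ((k + 1) / 2 : ℕ) = k := by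
      exact_mod_cast (by omega : k / 2 + (k + 1) / 2 = k)
    set u : ℝ := ((k / 2 : ℕ) : ℝ) / 2 ^ N with hu
    set v : ℝ := (((k + 1) / 2 : ℕ) : ℝ) / 2 ^ N with hv
    have hu1 : 0 ≤ u ∧ u ≤ 1 := ⟨by positivity, (div_le_one (by positivity)).2 (mod_cast hj)⟩
    have hv1 : 0 ≤ v ∧ v ≤ 1 := ⟨by positivity, (div_le_one (by positivity)).2 (mod_cast hj')⟩
    have es : (k : ℝ) / 2 ^ (N + 1) = (u + v) / 2 := by
      rw [hu, hv, ← add_div, e, pow_succ, div_div]
    have key := volume_mid (Z := (1 - (k : ℝ) / 2 ^ (N + 1)) • A + ((k : ℝ) / 2 ^ (N + 1)) • B)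
      ((((hA.smul (1 - u)).add (hB.smul u)).nullMeasurableSet (μ := volume)))
      ((((hA.smul (1 - v)).add (hB.smul v)).nullMeasurableSet (μ := volume)))
      fun a ha' b hb' => by
        have hm : (2⁻¹ : ℝ) • (a + b) ∈
            (2⁻¹ : ℝ) • (((1 - u) • A + u • B) + ((1 - v) • A + v • B)) :=
          smul_mem_smul_set (add_mem_add ha' hb')
        rw [add_add_add_comm, ← hA.add_smul (by linarith [hu1.2]) (by linarith [hv1.2]),
          ← hB.add_smul hu1.1 hv1.1, smul_add, smul_smul, smul_smul] at hm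
        rw [es]
        convert hm using 3 <;> ring
    refine (ENNReal.pow_le_pow_left_iff two_ne_zero).1 (le_trans ?_ key)
    rw [sq]
    exact mul_le_mul' (ih _ hj) (ih _ hj')

/-- A unimodal function has variation at most twice its supremum. -/
theorem eVariationOn_le_two {f : ℝ → ℝ} {P : ℝ} (h0 : ∀ t, 0 ≤ f t) (hP : ∀ t, f t ≤ P)
    (hq : ∀ a b c, a ≤ b → b ≤ c → min (f a) (f c) ≤ f b) :
    eVariationOn f univ ≤ 2 * ENNReal.ofReal P := by
  refine iSup_le fun ⟨m, u, hu, _⟩ => ?_
  dsimp only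
  simp only [edist_dist, Real.dist_eq]
  rw [← ENNReal.ofReal_sum_of_nonneg fun i _ => abs_nonneg _,
    show (2 : ℝ≥0∞) = ENNReal.ofReal 2 by simp, ← ENNReal.ofReal_mul two_pos.le]
  refine ENNReal.ofReal_le_ofReal ?_
  obtain ⟨j, hj, hmax⟩ := Finset.exists_max_image (Finset.range (m + 1)) (fun k => f (u k))
    ⟨0, by simp⟩
  have hjm : j ≤ m := Nat.lt_succ_iff.1 (Finset.mem_range.1 hj)
  have up : ∀ i, i < j → f (u i) ≤ f (u (i + 1)) := fun i hi => by
    have := hq (u i) (u (i + 1)) (u j) (hu i.le_succ) (hu hi)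
    rwa [min_eq_left (hmax i (Finset.mem_range.2 (by omega)))] at this
  have down : ∀ i, j ≤ i → i < m → f (u (i + 1)) ≤ f (u i) := fun i hi him => by
    have := hq (u j) (u i) (u (i + 1)) (hu hi) (hu i.le_succ)
    rwa [min_eq_right (hmax _ (Finset.mem_range.2 (by omega)))] at this
  rw [← Finset.sum_range_add_sum_Ico _ hjm,
    Finset.sum_congr rfl fun i hi => abs_of_nonneg
      (sub_nonneg.2 (up i (Finset.mem_range.1 hi))),
    Finset.sum_congr rfl fun i hi => abs_of_nonpos
      (sub_nonpos.2 (down i (Finset.mem_Ico.1 hi).1 (Finset.mem_Ico.1 hi).2)),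
    Finset.sum_neg_distrib, Finset.sum_range_sub (fun k => f (u k)),
    Finset.sum_Ico_sub (fun k => f (u k)) hjm]
  linarith [hP (u j), h0 (u 0), h0 (u m)]

end

end Vale.Agent.P137
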