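import Vale.Agent.P137.Slices

/-!
# P137: the maximal function of an open convex set
-/

namespace Vale.Agent.P137

open MeasureTheory Set Metric Filter Bornology
open scoped ENNReal NNReal Pointwise Topology

noncomputable section

variable {n : ℕ}

/-- An admissible family of balls: contains `x`, stable under enlarging and convex combinations. -/
structure Admissible (P : Eu (n + 1) → Eu (n + 1) → ℝ → Prop) : Prop where
  dist_lt : ∀ {x c r}, P x c r → dist x c < r
  mono : ∀ {x c r r'}, P x c r → r ≤ r' → P x c r'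
  comb : ∀ {x c r x' c' r'} {a b : ℝ}, P x c r → P x' c' r' → 0 ≤ a → 0 ≤ b → a + b = 1 →
    P (a • x + b • x') (a • c + b • c') (a * r + b * r')

/-- The maximal averages of a set over admissible balls. -/
def maxO (P : Eu (n + 1) → Eu (n + 1) → ℝ → Prop) (O : Set (Eu (n + 1))) (x : Eu (n + 1)) :
    ℝ≥0∞ :=
  ⨆ (c) (r) (_ : P x c r), volume (O ∩ ball c r) / volume (ball c r)

variable {P : Eu (n + 1) → Eu (n + 1) → ℝ → Prop} {O : Set (Eu (n + 1))}

theorem maxO_le_one (x : Eu (n + 1)) : maxO P O x ≤ 1 :=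
  iSup_le fun _ => iSup_le fun _ => iSup_le fun _ =>
    ENNReal.div_le_of_le_mul (by rw [one_mul]; exact measure_mono inter_subset_right)

/-- Superlevel sets of the maximal averages of a convex set are convex. -/
theorem quasiconcave_maxO (hP : Admissible P) (hc : Convex ℝ O) {x₀ x₁ : Eu (n + 1)} {a b : ℝ}
    (ha : 0 ≤ a) (hb : 0 ≤ b) (hab : a + b = 1) :
    min (maxO P O x₀) (maxO P O x₁) ≤ maxO P O (a • x₀ + b • x₁) := by
  rcases ha.eq_or_lt with rfl | ha'
  · obtain rfl : b = 1 := by linarith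
    simp
  rcases hb.eq_or_lt with rfl | hb'
  · obtain rfl : a = 1 := by linarith
    simp
  refine le_of_forall_lt fun l hl => ?_
  have hl0 : l < maxO P O x₀ := hl.trans_le (min_le_left _ _)
  have hlt : l ≠ ⊤ := hl0.ne_top
  obtain ⟨c₀, r₀, p₀, h₀⟩ : ∃ c r, ∃ _ : P x₀ c r,
      l < volume (O ∩ ball c r) / volume (ball c r) := by
    simpa only [maxO, lt_iSup_iff] using hl0
  obtain ⟨c₁, r₁, p₁, h₁⟩ : ∃ c r, ∃ _ : P x₁ c r,
      l < volume (O ∩ ball c r) / volume (ball c r) := by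
    simpa only [maxO, lt_iSup_iff] using hl.trans_le (min_le_right _ _)
  have r₀p : 0 < r₀ := dist_nonneg.trans_lt (hP.dist_lt p₀)
  have r₁p : 0 < r₁ := dist_nonneg.trans_lt (hP.dist_lt p₁)
  set V : ℝ≥0∞ := volume (ball (0 : Eu (n + 1)) 1) with hV
  have hV0 : V ≠ 0 := (measure_ball_pos volume _ one_pos).ne'
  have hVt : V ≠ ⊤ := measure_ball_lt_top.ne
  have hball : ∀ (c : Eu (n + 1)) {r : ℝ}, 0 < r →
      volume (ball c r) = ENNReal.ofReal (r ^ (n + 1)) * V := fun c r hr => by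
    rw [Measure.addHaar_ball_of_pos volume c hr, finrank_euclideanSpace_fin]
  have hlow : ∀ (c : Eu (n + 1)) {r : ℝ}, 0 < r →
      l < volume (O ∩ ball c r) / volume (ball c r) →
      ENNReal.ofReal (r ^ (n + 1)) * (l * V) < volume (O ∩ ball c r) := fun c r hr h => by
    rw [hball c hr] at h
    have hne : ENNReal.ofReal (r ^ (n + 1)) * V ≠ 0 :=
      mul_ne_zero (by simpa using pow_pos hr _) hV0
    rw [ENNReal.lt_div_iff_mul_lt (Or.inl hne)
      (Or.inl (ENNReal.mul_ne_top ENNReal.ofReal_ne_top hVt))] at h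
    rwa [← mul_assoc, mul_comm _ l, mul_assoc]
  set s₀ := b * r₁ / (a * r₀ + b * r₁) with hs₀
  have hden : 0 < a * r₀ + b * r₁ := by positivity
  have hs₀1 : s₀ < 1 := (div_lt_one hden).2 (by nlinarith)
  have hs₀0 : 0 < s₀ := by positivity
  let φ : ℝ → ℝ := fun s => s * a * r₀ / (b * (1 - s))
  have hφ : φ s₀ = r₁ := by
    simp only [φ, hs₀]
    field_simp
    ring_nf
  have hφc : ContinuousAt φ s₀ := ContinuousAt.div (by fun_prop) (by fun_prop)
    (mul_ne_zero hb'.ne' (by linarith))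
  let sN : ℕ → ℝ := fun N => (⌈s₀ * 2 ^ N⌉₊ : ℝ) / 2 ^ N
  have hsN : ∀ N, s₀ ≤ sN N := fun N => (le_div_iff₀ (by positivity)).2 (Nat.le_ceil _)
  have hlim : Tendsto sN atTop (𝓝 s₀) := by
    refine tendsto_of_tendsto_of_tendsto_of_le_of_le tendsto_const_nhds
      (h := fun N => s₀ + (1 / 2 : ℝ) ^ N) ?_ hsN fun N => ?_
    · simpa using tendsto_const_nhds.add
        (tendsto_pow_atTop_nhds_zero_of_lt_one (by norm_num : (0 : ℝ) ≤ 1 / 2) (by norm_num))
    · refine (div_le_iff₀ (by positivity)).2 ?_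
      rw [add_mul, ← mul_pow, div_mul_cancel₀ _ two_ne_zero, one_pow]
      exact (Nat.ceil_lt_add_one (by positivity)).le
  have e1 : ∀ᶠ N in atTop, sN N < 1 := hlim.eventually (gt_mem_nhds hs₀1)
  have e2 : ∀ᶠ N in atTop,
      ENNReal.ofReal (φ (sN N) ^ (n + 1)) * (l * V) < volume (O ∩ ball c₁ r₁) := by
    have ht : Tendsto (fun N => ENNReal.ofReal (φ (sN N) ^ (n + 1)) * (l * V)) atTop
        (𝓝 (ENNReal.ofReal (r₁ ^ (n + 1)) * (l * V))) := by
      refine ENNReal.Tendsto.mul_const (ENNReal.tendsto_ofReal ?_)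
        (Or.inr (ENNReal.mul_ne_top hlt hVt))
      have := ((hφc.tendsto.comp hlim).pow (n + 1))
      rwa [hφ] at this
    exact ht.eventually (gt_mem_nhds (hlow c₁ r₁p h₁))
  obtain ⟨N, hN1, hN2⟩ := (e1.and e2).exists
  set s := sN N with hs
  set r := φ s with hr
  have hr₁ : r₁ ≤ r := by
    rw [hr, ← hφ]
    refine div_le_div₀ (mul_nonneg (mul_nonneg (hs₀0.le.trans (hsN N)) ha) r₀p.le) ?_
      (mul_pos hb' (by linarith)) ?_
    · exact mul_le_mul_of_nonneg_right (mul_le_mul_of_nonneg_right (hsN N) ha) r₀p.le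
    · exact mul_le_mul_of_nonneg_left (by linarith [hsN N]) hb
  have hrp : 0 < r := r₁p.trans_le hr₁
  set R := a * r₀ + b * r with hR
  have hRp : 0 < R := by positivity
  have hrb : b * r * (1 - s) = s * a * r₀ := by
    simp only [hr, φ]
    field_simp [hb'.ne', (show (1 : ℝ) - s ≠ 0 by linarith)]
  have hsR : R * s = b * r := by rw [hR]; linarith
  have h1 : ENNReal.ofReal (r ^ (n + 1)) * (l * V) < volume (O ∩ ball c₁ r) :=
    hN2.trans_le (measure_mono (inter_subset_inter_right O (ball_subset_ball hr₁)))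
  have hkN : ⌈s₀ * 2 ^ N⌉₊ ≤ 2 ^ N := by
    have h' := (div_lt_one (by positivity : (0 : ℝ) < 2 ^ N)).1 hN1
    exact_mod_cast h'.le
  let A := r₀⁻¹ • (O ∩ ball c₀ r₀)
  let B := r⁻¹ • (O ∩ ball c₁ r)
  have hA : l * V < volume A := by
    rw [Measure.addHaar_smul_of_nonneg volume (inv_nonneg.2 r₀p.le), finrank_euclideanSpace_fin,
      inv_pow, ENNReal.ofReal_inv_of_pos (pow_pos r₀p _), ← ENNReal.div_eq_inv_mul,
      ENNReal.lt_div_iff_mul_lt (Or.inl (by simpa using pow_pos r₀p _))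
        (Or.inl ENNReal.ofReal_ne_top), mul_comm]
    exact hlow c₀ r₀p h₀
  have hB : l * V < volume B := by
    rw [Measure.addHaar_smul_of_nonneg volume (inv_nonneg.2 hrp.le), finrank_euclideanSpace_fin,
      inv_pow, ENNReal.ofReal_inv_of_pos (pow_pos hrp _), ← ENNReal.div_eq_inv_mul,
      ENNReal.lt_div_iff_mul_lt (Or.inl (by simpa using pow_pos hrp _))
        (Or.inl ENNReal.ofReal_ne_top), mul_comm]
    exact h1
  have hAc : Convex ℝ A := (hc.inter (convex_ball _ _)).smul _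
  have hBc : Convex ℝ B := (hc.inter (convex_ball _ _)).smul _
  have hm : min (volume A) (volume B) ≤ volume ((1 - s) • A + s • B) :=
    le_volume_dyadic hAc hBc (min_le_left _ _) (min_le_right _ _) N _ hkN
  have hsub : R • ((1 - s) • A + s • B) ⊆ O ∩ ball (a • c₀ + b • c₁) R := by
    rw [smul_add, smul_smul, smul_smul, smul_smul, smul_smul, hsR,
      mul_assoc b, mul_inv_cancel₀ hrp.ne', mul_one,
      show R * (1 - s) = a * r₀ by rw [mul_sub, mul_one, hsR, hR]; ring,
      mul_assoc a, mul_inv_cancel₀ r₀p.ne', mul_one]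
    rintro _ ⟨_, ⟨u, hu, rfl⟩, _, ⟨v, hv, rfl⟩, rfl⟩
    refine ⟨hc hu.1 hv.1 ha hb hab, mem_ball_iff_norm.2 ?_⟩
    show ‖a • u + b • v - (a • c₀ + b • c₁)‖ < R
    rw [add_sub_add_comm, ← smul_sub, ← smul_sub]
    refine (norm_add_le _ _).trans_lt ?_
    rw [norm_smul, norm_smul, Real.norm_of_nonneg ha, Real.norm_of_nonneg hb]
    exact add_lt_add (mul_lt_mul_of_pos_left (mem_ball_iff_norm.1 hu.2) ha')
      (mul_lt_mul_of_pos_left (mem_ball_iff_norm.1 hv.2) hb')
  refine lt_of_lt_of_le ?_ (le_iSup_of_le _ (le_iSup_of_le R (le_iSup_of_le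
    (hP.comb p₀ (hP.mono p₁ hr₁) ha hb hab) le_rfl)))
  rw [hball _ hRp, ENNReal.lt_div_iff_mul_lt
    (Or.inl (mul_ne_zero (by simpa using pow_pos hRp _) hV0))
    (Or.inl (ENNReal.mul_ne_top ENNReal.ofReal_ne_top hVt))]
  refine lt_of_lt_of_le ?_ (measure_mono hsub)
  rw [Measure.addHaar_smul_of_nonneg volume hRp.le, finrank_euclideanSpace_fin, mul_left_comm]
  exact ENNReal.mul_lt_mul_right (by simpa using pow_pos hRp _) ENNReal.ofReal_ne_top
    ((lt_min hA hB).trans_le hm)

/-- The largest average of `O` over balls of radius `r`. -/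
def bestAvg (O : Set (Eu (n + 1))) (r : ℝ) : ℝ≥0∞ :=
  ⨆ c, volume (O ∩ ball c r) / volume (ball c r)

/-- The packing constant. -/
def packConst (n : ℕ) : ℝ≥0∞ :=
  2 ^ (n + 1) * 8 ^ n / volume (ball (0 : Eu (n + 1)) 1)

/-- Averages at scale `r` times the projection thickened by `2 r`. -/
theorem packing (i : Fin (n + 1)) (hc : Convex ℝ O) (hO : IsOpen O) (hb : IsBounded O) {r : ℝ}
    (hr : 0 < r) :
    bestAvg O r * volume (thickProj i O (2 * r))
      ≤ packConst n * (ENNReal.ofReal r⁻¹ * volume O) := by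
  rw [bestAvg, ENNReal.iSup_mul]
  refine iSup_le fun c => ?_
  set A := O ∩ ball c r with hA
  rcases eq_or_ne (volume A) 0 with h0 | h0
  · simp [h0]
  let S : Eu (n + 1) → Set (Eu (n + 1)) := fun z => ((2⁻¹ : ℝ) • z) +ᵥ ((2⁻¹ : ℝ) • A)
  have hAo : IsOpen A := hO.inter isOpen_ball
  have hSv : ∀ z, volume (S z) = (2 ^ (n + 1))⁻¹ * volume A := fun z => by
    rw [measure_vadd, Measure.addHaar_smul_of_nonneg volume (by norm_num : (0 : ℝ) ≤ 2⁻¹),
      finrank_euclideanSpace_fin, inv_pow, ENNReal.ofReal_inv_of_pos (by positivity),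
      ENNReal.ofReal_pow (by norm_num)]
    norm_num
  have hSm : ∀ z, MeasurableSet (S z) := fun z =>
    ((hAo.smul₀ (by norm_num : (2⁻¹ : ℝ) ≠ 0)).vadd _).measurableSet
  let Pk : ℕ → Prop := fun N => ∃ z : Fin N → Eu (n + 1), (∀ j, z j ∈ O) ∧
    Pairwise fun j k => 2 * r ≤ dist (z j) (z k)
  have hpack : ∀ N, Pk N → (N : ℝ≥0∞) * ((2 ^ (n + 1))⁻¹ * volume A) ≤ volume O := by
    rintro N ⟨z, hzO, hz⟩
    have hd : Pairwise (Function.onFun Disjoint fun j => S (z j)) := fun j k hjk => by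
      refine disjoint_left.2 ?_
      rintro _ ⟨_, ⟨u, hu, rfl⟩, rfl⟩ ⟨_, ⟨v, hv, rfl⟩, he⟩
      have he' : (2⁻¹ : ℝ) • z k + (2⁻¹ : ℝ) • v = (2⁻¹ : ℝ) • z j + (2⁻¹ : ℝ) • u := he
      rw [← smul_add, ← smul_add] at he'
      have he'' := smul_right_injective (Eu (n + 1)) (by norm_num : (2⁻¹ : ℝ) ≠ 0) he'
      have hzz : z j - z k = v - u := by
        rw [sub_eq_sub_iff_add_eq_add, ← he'']; abel
      have : 2 * r ≤ dist (z j) (z k) := hz hjk
      rw [dist_eq_norm, hzz, ← dist_eq_norm] at this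
      have h1 := mem_ball.1 hu.2
      have h2 := mem_ball.1 hv.2
      linarith [dist_triangle_right v u c]
    calc (N : ℝ≥0∞) * ((2 ^ (n + 1))⁻¹ * volume A) = ∑ j, volume (S (z j)) := by simp [hSv]
      _ = volume (⋃ j, S (z j)) := by
          rw [measure_iUnion hd fun j => hSm _, tsum_fintype]
      _ ≤ volume O := measure_mono <| iUnion_subset fun j => by
          rintro _ ⟨_, ⟨u, hu, rfl⟩, rfl⟩
          exact hc (hzO j) hu.1 (by norm_num) (by norm_num) (by norm_num)
  have hne : ({N | Pk N}).Nonempty := ⟨0, finZeroElim, fun j => j.elim0, fun j => j.elim0⟩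
  have hm : (2 ^ (n + 1) : ℝ≥0∞)⁻¹ * volume A ≠ 0 := mul_ne_zero (by simp) h0
  have hbdd : BddAbove {N | Pk N} := by
    obtain ⟨M, hM⟩ := ENNReal.exists_nat_gt
      (ENNReal.div_ne_top hb.measure_lt_top.ne hm : volume O / _ ≠ ⊤)
    refine ⟨M, fun N hN => ?_⟩
    by_contra hlt
    push Not at hlt
    have h1 := (ENNReal.le_div_iff_mul_le (Or.inl hm) (Or.inr hb.measure_lt_top.ne)).2 (hpack N hN)
    exact absurd (h1.trans_lt hM) (not_lt.2 (Nat.cast_le.2 hlt.le))
  set N := sSup {N | Pk N}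
  have hN : Pk N := Nat.sSup_mem hne hbdd
  obtain ⟨z, hzO, hz⟩ := hN
  have hcov : ∀ x ∈ O, ∃ j, dist x (z j) < 2 * r := by
    intro x hx
    by_contra hcon
    push Not at hcon
    have hbig : Pk (N + 1) := by
      refine ⟨Fin.cons x z, Fin.cases hx hzO, fun j k hjk => ?_⟩
      revert hjk
      refine Fin.cases ?_ (fun j' => ?_) j <;> refine Fin.cases ?_ (fun k' => ?_) k <;>
        simp only [Fin.cons_zero, Fin.cons_succ, ne_eq, Fin.succ_inj]
      · exact fun h => (h trivial).elim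
      · exact fun _ => hcon k'
      · exact fun _ => dist_comm (z j') x ▸ hcon j'
      · exact fun h => hz h
    have := le_csSup hbdd hbig
    omega
  have hT : thickProj i O (2 * r) ⊆
      ⋃ j, ball (fun l => z j (i.succAbove l)) (4 * r) := by
    intro y hy
    obtain ⟨t, ht⟩ := mem_iUnion.1 hy
    obtain ⟨x, hx, hd⟩ := mem_thickening_iff.1 ht
    obtain ⟨j, hj⟩ := hcov x hx
    refine mem_iUnion.2 ⟨j, mem_ball.2 ((dist_pi_lt_iff (by positivity)).2 fun l => ?_)⟩
    rw [Real.dist_eq]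
    refine (abs_sub_le_dist i y t (z j) l).trans_lt ?_
    linarith [dist_triangle (onLine i y t) x (z j)]
  have hTv : volume (thickProj i O (2 * r)) ≤ (N : ℝ≥0∞) * ENNReal.ofReal ((8 * r) ^ n) := by
    refine (measure_mono hT).trans ((measure_iUnion_fintype_le _ _).trans (le_of_eq ?_))
    simp [Real.volume_pi_ball _ (show 0 < 4 * r by positivity), ← mul_assoc]
    norm_num
  have hNm := hpack N ⟨z, hzO, hz⟩
  rw [Measure.addHaar_ball_of_pos volume c hr, finrank_euclideanSpace_fin]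
  calc volume A / (ENNReal.ofReal (r ^ (n + 1)) * volume (ball (0 : Eu (n + 1)) 1))
        * volume (thickProj i O (2 * r))
      ≤ volume A / (ENNReal.ofReal (r ^ (n + 1)) * volume (ball (0 : Eu (n + 1)) 1))
        * ((N : ℝ≥0∞) * ENNReal.ofReal ((8 * r) ^ n)) := mul_le_mul_right hTv _
    _ = (2 ^ (n + 1) * ((N : ℝ≥0∞) * ((2 ^ (n + 1))⁻¹ * volume A))) * 8 ^ n
          * (volume (ball (0 : Eu (n + 1)) 1))⁻¹ * ENNReal.ofReal r⁻¹ := by
        rw [show (2 : ℝ≥0∞) ^ (n + 1) * ((N : ℝ≥0∞) * ((2 ^ (n + 1))⁻¹ * volume A))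
            = (2 ^ (n + 1) * (2 ^ (n + 1))⁻¹) * ((N : ℝ≥0∞) * volume A) by ring,
          ENNReal.mul_inv_cancel (by simp) (by simp), one_mul, div_eq_mul_inv,
          ENNReal.mul_inv (Or.inr measure_ball_lt_top.ne) (Or.inl ENNReal.ofReal_ne_top),
          ← ENNReal.ofReal_inv_of_pos (pow_pos hr _), mul_pow,
          ENNReal.ofReal_mul (by positivity), ENNReal.ofReal_pow (by norm_num : (0 : ℝ) ≤ 8),
          ENNReal.ofReal_ofNat]
        have e : ENNReal.ofReal (r ^ (n + 1))⁻¹ * ENNReal.ofReal (r ^ n)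
            = ENNReal.ofReal r⁻¹ := by
          rw [← ENNReal.ofReal_mul (by positivity)]
          congr 1
          rw [pow_succ]
          field_simp
        rw [← e]
        ring
    _ ≤ (2 ^ (n + 1) * volume O) * 8 ^ n
          * (volume (ball (0 : Eu (n + 1)) 1))⁻¹ * ENNReal.ofReal r⁻¹ := by gcongr
    _ = packConst n * (ENNReal.ofReal r⁻¹ * volume O) := by
        rw [packConst, div_eq_mul_inv]; ring

/-- Line suprema are bounded by averages at dyadic scales. -/
theorem maxO_le (hP : Admissible P) {r₀ : ℝ} (hr₀ : 0 < r₀) (i : Fin (n + 1)) (y : Fin n → ℝ)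
    (t : ℝ) : maxO P O (onLine i y t) ≤ (thickProj i O (2 * r₀)).indicator 1 y
      + ∑' k : ℕ, 2 ^ (n + 1) * (bestAvg O (r₀ * 2 ^ (k + 1))
        * (thickProj i O (2 * (r₀ * 2 ^ (k + 1)))).indicator 1 y) := by
  refine iSup_le fun c => iSup_le fun r => iSup_le fun hp => ?_
  have hd := hP.dist_lt hp
  have hr : 0 < r := dist_nonneg.trans_lt hd
  rcases (O ∩ ball c r).eq_empty_or_nonempty with he | ⟨x, hxO, hxc⟩
  · simp [he]
  have hy : y ∈ thickProj i O (2 * r) := mem_iUnion.2 ⟨t, mem_thickening_iff.2 ⟨x, hxO, by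
    linarith [dist_triangle_right (onLine i y t) x c, mem_ball.1 hxc]⟩⟩
  rcases le_total r r₀ with h | h
  · refine le_trans ?_ (le_add_of_nonneg_right zero_le)
    rw [indicator_of_mem (thickProj_mono i O (by linarith) hy)]
    exact ENNReal.div_le_of_le_mul (by rw [Pi.one_apply, one_mul]; exact measure_mono inter_subset_right)
  · obtain ⟨k, hk1, hk2⟩ := exists_nat_pow_near ((one_le_div hr₀).2 h) one_lt_two
    rw [le_div_iff₀ hr₀] at hk1
    rw [div_lt_iff₀ hr₀] at hk2
    refine le_trans ?_ (le_add_of_nonneg_left zero_le)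
    refine le_trans ?_ (ENNReal.le_tsum k)
    have hr' : 0 < r₀ * 2 ^ (k + 1) := by positivity
    rw [indicator_of_mem (thickProj_mono i O (by linarith) hy), Pi.one_apply, mul_one]
    refine le_trans ?_ (mul_le_mul_right (le_iSup (fun c =>
      volume (O ∩ ball c (r₀ * 2 ^ (k + 1))) / volume (ball c (r₀ * 2 ^ (k + 1)))) c) _)
    have hb2 : volume (ball c (r₀ * 2 ^ (k + 1))) ≤ 2 ^ (n + 1) * volume (ball c r) := by
      rw [Measure.addHaar_ball_of_pos volume c hr', Measure.addHaar_ball_of_pos volume c hr,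
        finrank_euclideanSpace_fin, ← mul_assoc,
        show (2 : ℝ≥0∞) ^ (n + 1) = ENNReal.ofReal (2 ^ (n + 1)) by
          rw [ENNReal.ofReal_pow (by norm_num)]; simp,
        ← ENNReal.ofReal_mul (by positivity), ← mul_pow]
      refine mul_le_mul_left (ENNReal.ofReal_le_ofReal (pow_le_pow_left₀ hr'.le ?_ _)) _
      calc r₀ * 2 ^ (k + 1) = 2 * (2 ^ k * r₀) := by ring
        _ ≤ 2 * r := by linarith
    rw [ENNReal.div_le_iff (measure_ball_pos volume c hr).ne' measure_ball_lt_top.ne]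
    calc volume (O ∩ ball c r) ≤ volume (O ∩ ball c (r₀ * 2 ^ (k + 1))) :=
          measure_mono (inter_subset_inter_right O (ball_subset_ball (by linarith)))
      _ = volume (O ∩ ball c (r₀ * 2 ^ (k + 1))) / volume (ball c (r₀ * 2 ^ (k + 1)))
            * volume (ball c (r₀ * 2 ^ (k + 1))) :=
          (ENNReal.div_mul_cancel (measure_ball_pos volume c hr').ne' measure_ball_lt_top.ne).symm
      _ ≤ _ := by
          refine (mul_le_mul_right hb2 _).trans (le_of_eq ?_)
          ring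

/-- The integrated line suprema are bounded by the projections. -/
theorem lintegral_variation_le (hP : Admissible P) (hO : IsOpen O) (hc : Convex ℝ O)
    (hb : IsBounded O) (i : Fin (n + 1)) :
    ∫⁻ y, eVariationOn (fun t => (maxO P O (onLine i y t)).toReal) univ
      ≤ 2 * (1 + 2 ^ (n + 1)) * packConst n * (4 * (n + 1)) * ∑ j, volume (proj j O) := by
  rcases O.eq_empty_or_nonempty with rfl | hne
  · have : ∀ y, eVariationOn (fun t => (maxO P (∅ : Set (Eu (n + 1))) (onLine i y t)).toReal)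
        univ = 0 := fun y => eVariationOn.constant_on (by
      rintro _ ⟨s, -, rfl⟩ _ ⟨t, -, rfl⟩; simp [maxO])
    simp [this]
  obtain ⟨x₀, r₀, hr₀, hsub, hvol⟩ := exists_ball_subset hO hc hb hne
  set G : (Fin n → ℝ) → ℝ≥0∞ := fun y => (thickProj i O (2 * r₀)).indicator 1 y
      + ∑' k : ℕ, 2 ^ (n + 1) * (bestAvg O (r₀ * 2 ^ (k + 1))
        * (thickProj i O (2 * (r₀ * 2 ^ (k + 1)))).indicator 1 y) with hG
  have hmeas : ∀ R, Measurable ((thickProj i O R).indicator (1 : (Fin n → ℝ) → ℝ≥0∞)) :=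
    fun R => measurable_one.indicator (isOpen_thickProj i O R).measurableSet
  have hpt : ∀ y, eVariationOn (fun t => (maxO P O (onLine i y t)).toReal) univ ≤ 2 * G y := by
    intro y
    have hfin : (⨆ t, maxO P O (onLine i y t)) ≠ ⊤ :=
      ne_top_of_le_ne_top ENNReal.one_ne_top (iSup_le fun t => maxO_le_one _)
    refine (eVariationOn_le_two (P := (⨆ t, maxO P O (onLine i y t)).toReal)
      (fun t => ENNReal.toReal_nonneg) (fun t => ENNReal.toReal_mono hfin
        (le_iSup (fun t => maxO P O (onLine i y t)) t)) fun p q s hpq hqs => ?_).trans ?_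
    · obtain ⟨a, b, ha, hb', hab, he⟩ := Convex.mem_Icc (hpq.trans hqs) |>.1 ⟨hpq, hqs⟩
      have h1 := quasiconcave_maxO hP hc (x₀ := onLine i y p) (x₁ := onLine i y s) ha hb' hab
      rw [onLine_affine i y hab, he] at h1
      refine le_trans ?_ (ENNReal.toReal_mono ((maxO_le_one _).trans_lt ENNReal.one_lt_top).ne h1)
      rw [ENNReal.toReal_min ((maxO_le_one _).trans_lt ENNReal.one_lt_top).ne
        ((maxO_le_one _).trans_lt ENNReal.one_lt_top).ne]
    · exact mul_le_mul_right (ENNReal.ofReal_toReal_le.trans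
        (iSup_le fun t => maxO_le hP hr₀ i y t)) _
  refine (lintegral_mono hpt).trans ?_
  have hGm : Measurable G := by
    rw [hG]
    exact (hmeas _).add (Measurable.tsum fun k => ((hmeas _).const_mul _).const_mul _)
  rw [lintegral_const_mul _ hGm]
  simp only [hG]
  rw [lintegral_add_left (hmeas _), lintegral_tsum fun k =>
    (((hmeas _).const_mul _).const_mul _).aemeasurable]
  simp only [lintegral_const_mul _ ((hmeas _).const_mul _), lintegral_const_mul _ (hmeas _),
    lintegral_indicator_one (isOpen_thickProj i O _).measurableSet]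
  set X := packConst n * (ENNReal.ofReal r₀⁻¹ * volume O) with hX
  have h0 : volume (thickProj i O (2 * r₀)) ≤ X := by
    refine le_trans ?_ (packing i hc hO hb hr₀)
    refine le_mul_of_one_le_left zero_le (le_iSup_of_le x₀ (le_of_eq ?_))
    rw [inter_eq_self_of_subset_right hsub,
      ENNReal.div_self (measure_ball_pos volume _ hr₀).ne' measure_ball_lt_top.ne]
  have hk : ∀ k : ℕ, bestAvg O (r₀ * 2 ^ (k + 1))
      * volume (thickProj i O (2 * (r₀ * 2 ^ (k + 1)))) ≤ X * (2⁻¹ * 2⁻¹ ^ k) := by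
    intro k
    refine (packing i hc hO hb (by positivity)).trans (le_of_eq ?_)
    rw [hX, ← pow_succ', mul_inv, ENNReal.ofReal_mul (by positivity),
      ← inv_pow (2 : ℝ), ENNReal.ofReal_pow (by norm_num),
      ENNReal.ofReal_inv_of_pos (two_pos : (0 : ℝ) < 2), ENNReal.ofReal_ofNat]
    ring
  have hsum : ∑' k : ℕ, X * (2⁻¹ * 2⁻¹ ^ k) = X := by
    rw [ENNReal.tsum_mul_left, ENNReal.tsum_mul_left, ENNReal.tsum_geometric,
      ENNReal.one_sub_inv_two, inv_inv, ENNReal.inv_mul_cancel (by norm_num) (by norm_num),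
      mul_one]
  calc 2 * (volume (thickProj i O (2 * r₀)) + ∑' k : ℕ, 2 ^ (n + 1) *
        (bestAvg O (r₀ * 2 ^ (k + 1)) * volume (thickProj i O (2 * (r₀ * 2 ^ (k + 1))))))
      ≤ 2 * (X + ∑' k : ℕ, 2 ^ (n + 1) * (X * (2⁻¹ * 2⁻¹ ^ k))) := by
        exact mul_le_mul_right (add_le_add h0
          (ENNReal.tsum_le_tsum fun k => mul_le_mul_right (hk k) _)) _
    _ = 2 * (1 + 2 ^ (n + 1)) * X := by rw [ENNReal.tsum_mul_left, hsum]; ring
    _ ≤ 2 * (1 + 2 ^ (n + 1)) * (packConst n * ((4 * (n + 1)) * ∑ j, volume (proj j O))) := by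
        rw [hX]
        refine mul_le_mul_right (mul_le_mul_right ?_ _) _
        calc ENNReal.ofReal r₀⁻¹ * volume O
            ≤ ENNReal.ofReal r₀⁻¹ * (ENNReal.ofReal r₀ * (4 * (n + 1) * ∑ j, volume (proj j O))) :=
              mul_le_mul_right hvol _
          _ = 4 * (n + 1) * ∑ j, volume (proj j O) := by
              rw [← mul_assoc, ← ENNReal.ofReal_mul (by positivity), inv_mul_cancel₀ hr₀.ne',
                ENNReal.ofReal_one, one_mul]
    _ = _ := by ring

end

end Vale.Agent.P137
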