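import Vale.Agent.P137.Dens

/-!
# P137: the chord inequality `∫_E 1/s ≤ C Per E`

`s (y)` is a radius at which the density of `E` around `y` is at most `η < 1/2`.
-/

namespace Vale.Agent.P137

open MeasureTheory Set Metric Filter
open scoped ENNReal NNReal Topology

noncomputable section

variable {d : ℕ}

/-- `y` leaves `E` first after `i + 1` forward and `j + 1` backward steps of size `w`. -/
def runSet (E : Set (Eu d)) (w : Eu d) (i j : ℕ) : Set (Eu d) :=
  {y | (∀ q, q ≤ i → y + (q : ℝ) • w ∈ E) ∧ y + ((i + 1 : ℕ) : ℝ) • w ∉ E ∧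
    (∀ q, q ≤ j → y - (q : ℝ) • w ∈ E) ∧ y - ((j + 1 : ℕ) : ℝ) • w ∉ E}

theorem measurableSet_runSet {E : Set (Eu d)} (hE : MeasurableSet E) (w : Eu d) (i j : ℕ) :
    MeasurableSet (runSet E w i j) := by
  have hp : ∀ c : ℝ, MeasurableSet {y : Eu d | y + c • w ∈ E} := fun c =>
    (continuous_id.add continuous_const).measurable hE
  have hm : ∀ c : ℝ, MeasurableSet {y : Eu d | y - c • w ∈ E} := fun c =>
    (continuous_id.sub continuous_const).measurable hE
  simp only [runSet, Set.ofPred_and, Set.ofPred_forall]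
  exact (MeasurableSet.iInter fun q => MeasurableSet.iInter fun _ => hp _).inter
    ((hp _).compl.inter
      ((MeasurableSet.iInter fun q => MeasurableSet.iInter fun _ => hm _).inter (hm _).compl))

theorem runSet_translate (E : Set (Eu d)) (w : Eu d) (i j : ℕ) :
    runSet E w i j = (fun y => y + (i : ℝ) • w) ⁻¹' runSet E w 0 (i + j) := by
  ext y
  simp only [runSet, mem_preimage, mem_ofPred_eq, Nat.le_zero, forall_eq, Nat.cast_zero, zero_smul,
    add_zero, zero_add, Nat.cast_one, one_smul]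
  have e1 : ∀ q : ℕ, q ≤ i → y + (i : ℝ) • w - (q : ℝ) • w = y + ((i - q : ℕ) : ℝ) • w := by
    intro q hq
    rw [Nat.cast_sub hq, sub_smul]
    abel
  have e2 : ∀ q : ℕ, i ≤ q → y + (i : ℝ) • w - (q : ℝ) • w = y - ((q - i : ℕ) : ℝ) • w := by
    intro q hq
    rw [Nat.cast_sub hq, sub_smul]
    abel
  have e3 : y + ((i + 1 : ℕ) : ℝ) • w = y + (i : ℝ) • w + w := by
    rw [Nat.cast_succ, add_smul, one_smul, add_assoc]
  rw [e3]
  constructor
  · rintro ⟨a, b, c, e⟩
    refine ⟨a i le_rfl, b, fun q hq => ?_, ?_⟩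
    · rcases le_total q i with h | h
      · rw [e1 q h]; exact a _ (Nat.sub_le _ _)
      · rw [e2 q h]; exact c _ (by omega)
    · rw [e2 _ (by omega), show i + j + 1 - i = j + 1 by omega]; exact e
  · rintro ⟨-, b, c, e⟩
    refine ⟨fun q hq => ?_, b, fun q hq => ?_, ?_⟩
    · have := c (i - q) (by omega)
      rwa [e1 _ (Nat.sub_le _ _), show i - (i - q) = q by omega] at this
    · have := c (i + q) (by omega)
      rwa [e2 _ (Nat.le_add_right _ _), Nat.add_sub_cancel_left] at this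
    · rwa [e2 _ (by omega), show i + j + 1 - i = j + 1 by omega] at e

/-- The inverse chord weight in the direction `w`. -/
def runWeight (E : Set (Eu d)) (w : Eu d) (y : Eu d) : ℝ≥0∞ :=
  ∑' p : ℕ × ℕ, (runSet E w p.1 p.2).indicator (fun _ => ((p.1 + p.2 + 1 : ℕ) : ℝ≥0∞)⁻¹) y

theorem measurable_runWeight {E : Set (Eu d)} (hE : MeasurableSet E) (w : Eu d) :
    Measurable (runWeight E w) :=
  Measurable.ennreal_tsum fun p => measurable_const.indicator (measurableSet_runSet hE w _ _)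

theorem runWeight_ge {E : Set (Eu d)} {w y : Eu d} (hy : y ∈ E) {n : ℕ}
    (h1 : y + (n : ℝ) • w ∉ E) (h2 : y - (n : ℝ) • w ∉ E) :
    ((2 * n : ℕ) : ℝ≥0∞)⁻¹ ≤ runWeight E w y := by
  classical
  have x1 : ∃ q : ℕ, y + ((q + 1 : ℕ) : ℝ) • w ∉ E := by
    rcases n with _ | q
    · simp at h1; exact absurd hy h1
    · exact ⟨q, h1⟩
  have x2 : ∃ q : ℕ, y - ((q + 1 : ℕ) : ℝ) • w ∉ E := by
    rcases n with _ | q
    · simp at h2; exact absurd hy h2
    · exact ⟨q, h2⟩
  have hn : 1 ≤ n := by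
    rcases n with _ | q
    · simp at h1; exact absurd hy h1
    · omega
  have hmem : y ∈ runSet E w (Nat.find x1) (Nat.find x2) := by
    refine ⟨fun q hq => ?_, Nat.find_spec x1, fun q hq => ?_, Nat.find_spec x2⟩
    · rcases q with _ | q
      · simpa using hy
      · exact not_not.1 (Nat.find_min x1 (show q < Nat.find x1 by omega))
    · rcases q with _ | q
      · simpa using hy
      · exact not_not.1 (Nat.find_min x2 (show q < Nat.find x2 by omega))
  have a1 : Nat.find x1 ≤ n - 1 :=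
    Nat.find_min' x1 (by rwa [show n - 1 + 1 = n by omega])
  have a2 : Nat.find x2 ≤ n - 1 :=
    Nat.find_min' x2 (by rwa [show n - 1 + 1 = n by omega])
  refine le_trans ?_ (ENNReal.le_tsum (Nat.find x1, Nat.find x2))
  rw [indicator_of_mem hmem]
  exact ENNReal.inv_le_inv.2 (Nat.cast_le.2 (by simp only; omega))

/-- Each run of length `L` is counted with total weight one. -/
theorem lintegral_runWeight {E : Set (Eu d)} (hE : MeasurableSet E) (w : Eu d) :
    ∫⁻ y, runWeight E w y ≤ volume (E \ (fun y => y + w) ⁻¹' E) := by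
  classical
  simp only [runWeight]
  rw [lintegral_tsum fun p => (measurable_const.indicator (measurableSet_runSet hE w _ _)).aemeasurable]
  have e : ∀ p : ℕ × ℕ,
      ∫⁻ y, (runSet E w p.1 p.2).indicator (fun _ => ((p.1 + p.2 + 1 : ℕ) : ℝ≥0∞)⁻¹) y
        = ((p.1 + p.2 + 1 : ℕ) : ℝ≥0∞)⁻¹ * volume (runSet E w 0 (p.1 + p.2)) := fun p => by
    rw [lintegral_indicator_const (measurableSet_runSet hE w _ _), runSet_translate,
      measure_preimage_add_right]
  simp only [e]
  rw [← Finset.HasAntidiagonal.sigmaAntidiagonalEquivProd.tsum_eq, ENNReal.tsum_sigma' (β := fun L => {x // x ∈ Finset.antidiagonal L})]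
  have e2 : ∀ L : ℕ, ∑' q : {x // x ∈ Finset.antidiagonal L},
      (((Finset.HasAntidiagonal.sigmaAntidiagonalEquivProd ⟨L, q⟩).1 + (Finset.HasAntidiagonal.sigmaAntidiagonalEquivProd ⟨L, q⟩).2
          + 1 : ℕ) : ℝ≥0∞)⁻¹ * volume (runSet E w 0 ((Finset.HasAntidiagonal.sigmaAntidiagonalEquivProd ⟨L, q⟩).1
          + (Finset.HasAntidiagonal.sigmaAntidiagonalEquivProd ⟨L, q⟩).2))
      = volume (runSet E w 0 L) := by
    intro L
    have hq : ∀ q : {x // x ∈ Finset.antidiagonal L},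
        (Finset.HasAntidiagonal.sigmaAntidiagonalEquivProd ⟨L, q⟩).1 + (Finset.HasAntidiagonal.sigmaAntidiagonalEquivProd ⟨L, q⟩).2
          = L := fun q => Finset.mem_antidiagonal.1 q.2
    simp only [hq, tsum_fintype, Finset.sum_const, Finset.card_univ, Fintype.card_coe,
      Finset.Nat.card_antidiagonal, nsmul_eq_mul, ← mul_assoc]
    rw [ENNReal.mul_inv_cancel (by simp) (ENNReal.natCast_ne_top _), one_mul]
  simp only [e2]
  rw [← measure_iUnion ?_ (fun L => measurableSet_runSet hE w 0 L)]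
  · refine measure_mono (iUnion_subset fun L y hy => ⟨?_, ?_⟩)
    · simpa using hy.1 0 le_rfl
    · simpa using hy.2.1
  · intro L L' hne
    refine Set.disjoint_left.2 fun y h h' => hne ?_
    rcases lt_trichotomy L L' with hlt | heq | hlt
    · exact absurd (h'.2.2.1 (L + 1) hlt) h.2.2.2
    · exact heq
    · exact absurd (h.2.2.1 (L' + 1) hlt) h'.2.2.2

/-- The dyadic step of level `N`. -/
def step (N : ℕ) : ℝ := (2 ^ N : ℝ)⁻¹

theorem step_pos (N : ℕ) : 0 < step N := by rw [step]; positivity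

/-- `sup` of `1/q` over multiples `q` of `2^(-N)` at which `E` has density at most `η`. -/
def invScaleAt (E : Set (Eu d)) (η : ℝ) (N : ℕ) (y : Eu d) : ℝ≥0∞ :=
  ⨆ n : ℕ, {z | dens E z ((n + 1 : ℕ) * step N) ≤ η}.indicator
    (fun _ => (ENNReal.ofReal ((n + 1 : ℕ) * step N))⁻¹) y

/-- `sup` of `1/q` over dyadic rationals `q > 0` at which `E` has density at most `η`. -/
def invScale (E : Set (Eu d)) (η : ℝ) (y : Eu d) : ℝ≥0∞ := ⨆ N : ℕ, invScaleAt E η N y

theorem measurable_invScaleAt {E : Set (Eu d)} (hE : MeasurableSet E) (η : ℝ) (N : ℕ) :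
    Measurable (invScaleAt E η N) :=
  Measurable.iSup fun n => measurable_const.indicator
    (measurable_dens E hE (mul_pos (by positivity) (step_pos N)) measurableSet_Iic)

theorem measurable_invScale {E : Set (Eu d)} (hE : MeasurableSet E) (η : ℝ) :
    Measurable (invScale E η) :=
  Measurable.iSup fun N => measurable_invScaleAt hE η N

theorem invScaleAt_mono (E : Set (Eu d)) (η : ℝ) : Monotone (invScaleAt E η) := by
  refine monotone_nat_of_le_succ fun N y => iSup_le fun n => ?_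
  refine le_iSup_of_le (2 * n + 1) (le_of_eq ?_)
  rw [show ((2 * n + 1 + 1 : ℕ) : ℝ) * step (N + 1) = ((n + 1 : ℕ) : ℝ) * step N by
    rw [step, step, pow_succ]; push_cast; field_simp; ring]

theorem le_invScale {E : Set (Eu d)} {η : ℝ} {y : Eu d} (N n : ℕ) (hn : 1 ≤ n)
    (h : dens E y (n * step N) ≤ η) :
    (ENNReal.ofReal (n * step N))⁻¹ ≤ invScale E η y := by
  obtain ⟨m, rfl⟩ := Nat.exists_eq_succ_of_ne_zero (by omega : n ≠ 0)
  refine le_iSup_of_le N (le_iSup_of_le m (le_of_eq ?_))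
  rw [indicator_of_mem]
  exact h

theorem exists_dyadic {a b : ℝ} (ha : 0 < a) (hab : a < b) :
    ∃ N n : ℕ, 1 ≤ n ∧ a ≤ n * step N ∧ (n : ℝ) * step N ≤ b := by
  obtain ⟨N, hN⟩ := exists_pow_lt_of_lt_one (sub_pos.2 hab) (show (2⁻¹ : ℝ) < 1 by norm_num)
  rw [inv_pow] at hN
  refine ⟨N, ⌈a / step N⌉₊, Nat.one_le_iff_ne_zero.2 ?_, ?_, ?_⟩
  · exact (Nat.ceil_pos.2 (div_pos ha (step_pos N))).ne'
  · exact (div_le_iff₀ (step_pos N)).1 (Nat.le_ceil _)
  · have := mul_lt_mul_of_pos_right (Nat.ceil_lt_add_one (div_pos ha (step_pos N)).le) (step_pos N)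
    rw [add_mul, div_mul_cancel₀ _ (step_pos N).ne', one_mul] at this
    linarith [show step N < b - a from hN]

/-- A quantitative bound on the perimeter, by translations. -/
def TranslationBound (E : Set (Eu d)) (P : ℝ≥0∞) : Prop :=
  ∀ h : Eu d, ∫⁻ x, ‖E.indicator (1 : Eu d → ℝ) (x + h) - E.indicator (1 : Eu d → ℝ) x‖ₑ
    ≤ P * ‖h‖ₑ

theorem volume_exit_le {E : Set (Eu d)} (hE : MeasurableSet E) {P : ℝ≥0∞}
    (hP : TranslationBound E P) (w : Eu d) :
    volume (E \ (fun y => y + w) ⁻¹' E) ≤ P * ‖w‖ₑ := by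
  refine le_trans ?_ (hP w)
  rw [← lintegral_indicator_one (hE.diff ((measurable_add_const w) hE))]
  refine lintegral_mono fun y => ?_
  by_cases hy : y ∈ E \ (fun y => y + w) ⁻¹' E
  · rw [indicator_of_mem hy, indicator_of_notMem (show y + w ∉ E from hy.2),
      indicator_of_mem hy.1]
    simp
  · rw [indicator_of_notMem hy]
    exact zero_le

/-- Averaging over directions turns low density into two-sided exits. -/
theorem exits_measure {E : Set (Eu d)} {η : ℝ} (hη : η < 1 / 2) {y : Eu d}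
    {q : ℝ} (hq : 0 < q) (h : dens E y q ≤ η) :
    ENNReal.ofReal (1 - 2 * η) * volume (ball (0 : Eu d) 1)
      ≤ volume {v ∈ ball (0 : Eu d) 1 | y + q • v ∉ E ∧ y - q • v ∉ E} := by
  have hm : ∀ c : ℝ, c ≠ 0 → |c| = q →
      volume.real (ball (0 : Eu d) 1 ∩ {v | y + c • v ∈ E})
        = dens E y q * volume.real (ball (0 : Eu d) 1) := by
    intro c hc hcq
    have e : ball (0 : Eu d) 1 ∩ {v | y + c • v ∈ E}
        = (fun v => c • v) ⁻¹' ((fun z => y + z) ⁻¹' (E ∩ ball y q)) := by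
      ext v
      simp only [mem_inter_iff, mem_ofPred_eq, mem_preimage, mem_ball,
        dist_eq_norm, sub_zero, add_sub_cancel_left, norm_smul, Real.norm_eq_abs, hcq]
      constructor
      · exact fun ⟨a, b⟩ => ⟨b, by nlinarith [norm_nonneg v]⟩
      · exact fun ⟨a, b⟩ => ⟨by nlinarith [norm_nonneg v], a⟩
    rw [measureReal_def, e, Measure.addHaar_preimage_smul volume hc, measure_preimage_add,
      ENNReal.toReal_mul, finrank_euclideanSpace_fin, abs_inv, abs_pow, hcq,
      ENNReal.toReal_ofReal (by positivity), dens, ball_real y hq, measureReal_def]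
    field_simp [(unit_ball_pos d).ne']
  set B := ball (0 : Eu d) 1
  set S1 := B ∩ {v | y + q • v ∈ E}
  set S2 := B ∩ {v | y + (-q) • v ∈ E}
  set T := {v ∈ B | y + q • v ∉ E ∧ y - q • v ∉ E}
  have hfin : ∀ S, S ⊆ B → volume S ≠ ⊤ := fun S hS =>
    ne_top_of_le_ne_top measure_ball_lt_top.ne (measure_mono hS)
  have hcov : B ⊆ T ∪ (S1 ∪ S2) := by
    intro v hv
    by_cases h1 : y + q • v ∈ E
    · exact Or.inr (Or.inl ⟨hv, h1⟩)
    by_cases h2 : y + (-q) • v ∈ E
    · exact Or.inr (Or.inr ⟨hv, h2⟩)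
    exact Or.inl ⟨hv, h1, by simpa [sub_eq_add_neg] using h2⟩
  have hTs : T ∪ (S1 ∪ S2) ⊆ B :=
    union_subset (fun v hv => hv.1) (union_subset inter_subset_left inter_subset_left)
  have := (measureReal_mono hcov (hfin _ hTs)).trans
    ((measureReal_union_le T (S1 ∪ S2)).trans
      (add_le_add le_rfl (measureReal_union_le S1 S2)))
  rw [hm q hq.ne' (abs_of_pos hq), hm (-q) (neg_ne_zero.2 hq.ne') (by rw [abs_neg, abs_of_pos hq])]
    at this
  rw [← ENNReal.ofReal_toReal (hfin B subset_rfl), ← ENNReal.ofReal_toReal (hfin T fun v hv => hv.1),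
    ← ENNReal.ofReal_mul (by linarith), ← measureReal_def, ← measureReal_def]
  refine ENNReal.ofReal_le_ofReal ?_
  nlinarith [mul_le_mul_of_nonneg_right h (unit_ball_pos d).le]

theorem measurable_chordKernel {E : Set (Eu d)} (hE : MeasurableSet E) (τ : ℝ) :
    Measurable fun p : Eu d × Eu d => runWeight E (τ • p.2) p.1 := by
  have hp : ∀ a : ℝ, MeasurableSet {p : Eu d × Eu d | p.1 + a • τ • p.2 ∈ E} := fun a =>
    (continuous_fst.add ((continuous_snd.const_smul τ).const_smul a)).measurable hE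
  have hm : ∀ a : ℝ, MeasurableSet {p : Eu d × Eu d | p.1 - a • τ • p.2 ∈ E} := fun a =>
    (continuous_fst.sub ((continuous_snd.const_smul τ).const_smul a)).measurable hE
  refine Measurable.ennreal_tsum fun q => ?_
  show Measurable ({p : Eu d × Eu d | p.1 ∈ runSet E (τ • p.2) q.1 q.2}.indicator
    fun _ => ((q.1 + q.2 + 1 : ℕ) : ℝ≥0∞)⁻¹)
  refine measurable_const.indicator ?_
  show MeasurableSet {p : Eu d × Eu d |
    (∀ r : ℕ, r ≤ q.1 → p.1 + (r : ℝ) • τ • p.2 ∈ E) ∧
      p.1 + ((q.1 + 1 : ℕ) : ℝ) • τ • p.2 ∉ E ∧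
      (∀ r : ℕ, r ≤ q.2 → p.1 - (r : ℝ) • τ • p.2 ∈ E) ∧
      p.1 - ((q.2 + 1 : ℕ) : ℝ) • τ • p.2 ∉ E}
  simp only [Set.ofPred_and, Set.ofPred_forall]
  exact (MeasurableSet.iInter fun (r : ℕ) => MeasurableSet.iInter fun _ => hp _).inter
    ((hp _).compl.inter
      ((MeasurableSet.iInter fun (r : ℕ) => MeasurableSet.iInter fun _ => hm _).inter
        (hm _).compl))

theorem two_step_algebra (c V : ℝ≥0∞) (n : ℕ) {τ : ℝ} (_hτ : 0 < τ) :
    c * V * (ENNReal.ofReal (((n + 1 : ℕ) : ℝ) * τ))⁻¹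
      = 2 * (ENNReal.ofReal τ)⁻¹ * (((2 * (n + 1) : ℕ) : ℝ≥0∞)⁻¹ * (c * V)) := by
  have h2 : (2 : ℝ≥0∞) * (2 : ℝ≥0∞)⁻¹ = 1 := ENNReal.mul_inv_cancel (by simp) (by simp)
  rw [ENNReal.ofReal_mul (by positivity), ENNReal.ofReal_natCast, Nat.cast_mul, Nat.cast_ofNat,
    ENNReal.mul_inv (Or.inl (by simp)) (Or.inl (by simp)),
    ENNReal.mul_inv (Or.inl (by simp)) (Or.inl (by simp))]
  calc c * V * (((n + 1 : ℕ) : ℝ≥0∞)⁻¹ * (ENNReal.ofReal τ)⁻¹)
      = 1 * ((ENNReal.ofReal τ)⁻¹ * (((n + 1 : ℕ) : ℝ≥0∞)⁻¹ * (c * V))) := by ring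
    _ = ((2 : ℝ≥0∞) * (2 : ℝ≥0∞)⁻¹)
        * ((ENNReal.ofReal τ)⁻¹ * (((n + 1 : ℕ) : ℝ≥0∞)⁻¹ * (c * V))) := by rw [h2]
    _ = _ := by ring

theorem chord_pointwise {E : Set (Eu d)} (hE : MeasurableSet E) {η : ℝ} (hη : η < 1 / 2) (N : ℕ)
    {y : Eu d} (hy : y ∈ E) :
    ENNReal.ofReal (1 - 2 * η) * volume (ball (0 : Eu d) 1) * invScaleAt E η N y
      ≤ 2 * (ENNReal.ofReal (step N))⁻¹
        * ∫⁻ v in ball (0 : Eu d) 1, runWeight E (step N • v) y := by
  rw [invScaleAt, ENNReal.mul_iSup]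
  refine iSup_le fun n => ?_
  by_cases hn : y ∈ {z | dens E z ((n + 1 : ℕ) * step N) ≤ η}
  swap
  · rw [indicator_of_notMem hn, mul_zero]; exact zero_le
  rw [indicator_of_mem hn, two_step_algebra _ _ _ (step_pos N)]
  refine mul_le_mul' le_rfl ?_
  set q : ℝ := ((n + 1 : ℕ) : ℝ) * step N with hq
  set T := {v ∈ ball (0 : Eu d) 1 | y + q • v ∉ E ∧ y - q • v ∉ E} with hT
  have hTm : MeasurableSet T :=
    measurableSet_ball.inter
      (((continuous_const.add (continuous_id.const_smul q)).measurable hE).compl.inter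
        ((continuous_const.sub (continuous_id.const_smul q)).measurable hE).compl)
  refine le_trans (mul_le_mul' le_rfl
    (exits_measure hη (mul_pos (by positivity) (step_pos N)) hn)) ?_
  have h1 : ∫⁻ v in ball (0 : Eu d) 1,
      T.indicator (fun _ => ((2 * (n + 1) : ℕ) : ℝ≥0∞)⁻¹) v
      ≤ ∫⁻ v in ball (0 : Eu d) 1, runWeight E (step N • v) y := by
    refine lintegral_mono fun v => ?_
    by_cases hv : v ∈ T
    · rw [indicator_of_mem hv]
      refine runWeight_ge hy ?_ ?_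
      · rw [smul_smul]; exact hv.2.1
      · rw [smul_smul]; exact hv.2.2
    · rw [indicator_of_notMem hv]; exact zero_le
  rw [lintegral_indicator_const hTm, Measure.restrict_apply hTm,
    inter_eq_left.2 (fun v hv => hv.1)] at h1
  exact h1

/-- The chord inequality at level `N`. -/
theorem invScaleAt_integral {E : Set (Eu d)} (hE : MeasurableSet E) {P : ℝ≥0∞}
    (hP : TranslationBound E P) {η : ℝ} (hη : η < 1 / 2) (N : ℕ) :
    ENNReal.ofReal (1 - 2 * η) * ∫⁻ y in E, invScaleAt E η N y ≤ 2 * P := by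
  have hτ : 0 < step N := step_pos N
  have hRm := measurable_chordKernel hE (step N)
  have hB0 : volume (ball (0 : Eu d) 1) ≠ 0 := (measure_ball_pos volume 0 one_pos).ne'
  have hBt : volume (ball (0 : Eu d) 1) ≠ ⊤ := measure_ball_lt_top.ne
  have h1 := setLIntegral_mono' (μ := volume) hE fun y hy => chord_pointwise hE hη N hy
  rw [lintegral_const_mul _ (measurable_invScaleAt hE η N),
    lintegral_const_mul _ hRm.lintegral_prod_right'] at h1
  have h2 : ∫⁻ y in E, ∫⁻ v in ball (0 : Eu d) 1, runWeight E (step N • v) y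
      ≤ P * ENNReal.ofReal (step N) * volume (ball (0 : Eu d) 1) := by
    refine (setLIntegral_le_lintegral _ _).trans ?_
    rw [lintegral_lintegral_swap (f := fun y v => runWeight E (step N • v) y) hRm.aemeasurable]
    refine le_trans (setLIntegral_mono' measurableSet_ball fun v hv => ?_)
      (setLIntegral_const _ _).le
    refine (lintegral_runWeight hE _).trans ((volume_exit_le hE hP _).trans
      (mul_le_mul' le_rfl ?_))
    rw [← ofReal_norm, norm_smul, Real.norm_eq_abs, abs_of_pos hτ]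
    exact ENNReal.ofReal_le_ofReal
      (mul_le_of_le_one_right hτ.le (mem_ball_zero_iff.1 hv).le)
  have h3 := h1.trans (mul_le_mul' le_rfl h2)
  rw [show 2 * (ENNReal.ofReal (step N))⁻¹
      * (P * ENNReal.ofReal (step N) * volume (ball (0 : Eu d) 1))
      = ((ENNReal.ofReal (step N))⁻¹ * ENNReal.ofReal (step N))
        * (volume (ball (0 : Eu d) 1) * (2 * P)) by ring,
    ENNReal.inv_mul_cancel (by simpa using hτ) ENNReal.ofReal_ne_top, one_mul,
    mul_comm (ENNReal.ofReal (1 - 2 * η)), mul_assoc] at h3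
  exact (ENNReal.mul_le_mul_iff_right hB0 hBt).1 h3

/-- The chord inequality. -/
theorem invScale_integral {E : Set (Eu d)} (hE : MeasurableSet E) {P : ℝ≥0∞}
    (hP : TranslationBound E P) {η : ℝ} (hη : η < 1 / 2) :
    ∫⁻ y in E, invScale E η y ≤ ENNReal.ofReal (2 / (1 - 2 * η)) * P := by
  simp only [invScale]
  rw [lintegral_iSup (fun N => measurable_invScaleAt hE η N) (invScaleAt_mono E η)]
  refine iSup_le fun N => ?_
  have h := invScaleAt_integral hE hP hη N
  have hp : 0 < 1 - 2 * η := by linarith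
  rw [ENNReal.ofReal_div_of_pos hp, ENNReal.ofReal_ofNat, div_eq_mul_inv, mul_right_comm,
    ← div_eq_mul_inv, ENNReal.le_div_iff_mul_le (Or.inl (by simpa using hp))
      (Or.inl ENNReal.ofReal_ne_top), mul_comm]
  exact h

end

end Vale.Agent.P137
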