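import Vale.Agent.P137.Kernel

/-!
# P137: increments of the maximal function of an indicator away from the level one half
-/

namespace Vale.Agent.P137

open MeasureTheory Set Metric Filter
open scoped ENNReal NNReal Topology

noncomputable section

variable {d : ℕ}

/-- The centred maximal function of an indicator. -/
abbrev maxInd (E : Set (Eu d)) (x : Eu d) : ℝ := centredMax (E.indicator (1 : Eu d → ℝ)) x

theorem le_of_eps {a : ℝ} {B : ℝ≥0∞}
    (h : ∀ ε : ℝ, 0 < ε → ENNReal.ofReal (a - ε) ≤ B) : ENNReal.ofReal a ≤ B := by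
  refine ENNReal.le_of_forall_pos_le_add fun ε hε _ => ?_
  calc ENNReal.ofReal a = ENNReal.ofReal ((a - ε) + ε) := by rw [sub_add_cancel]
    _ ≤ ENNReal.ofReal (a - ε) + ENNReal.ofReal (ε : ℝ) := ENNReal.ofReal_add_le
    _ ≤ B + ε := by
        rw [ENNReal.ofReal_coe_nnreal]
        exact add_le_add (h ε (by exact_mod_cast hε)) le_rfl

theorem pow_one_sub_le (d : ℕ) {r h : ℝ} (hr : 0 < r) (hh : 0 ≤ h) :
    1 - (r / (r + h)) ^ d ≤ d * h / r := by
  have h0 : 0 ≤ h / (r + h) := by positivity
  have h1 : h / (r + h) ≤ 1 := (div_le_one (by linarith)).2 (by linarith)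
  have hb := one_add_mul_le_pow (a := -(h / (r + h))) (by linarith) d
  have e : 1 + -(h / (r + h)) = r / (r + h) := by field_simp; ring
  rw [e] at hb
  have h2 : (d : ℝ) * (h / (r + h)) ≤ d * h / r := by
    rw [mul_div_assoc]
    exact mul_le_mul_of_nonneg_left (div_le_div_of_nonneg_left hh hr (by linarith)) (Nat.cast_nonneg d)
  linarith

theorem pow_one_add_le (d : ℕ) {t : ℝ} (ht : 0 ≤ t) (ht1 : t ≤ 1) :
    (1 + t) ^ d ≤ 1 + 2 ^ d * t := by
  have key : (1 + t) ^ d ≤ 1 + (2 ^ d - 1) * t := by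
    induction d with
    | zero => simp
    | succ d ih =>
      have h2 : (1 : ℝ) ≤ 2 ^ d := one_le_pow₀ one_le_two
      rw [pow_succ, pow_succ]
      nlinarith [mul_le_mul_of_nonneg_right ih (show 0 ≤ 1 + t by linarith),
        mul_nonneg (mul_nonneg ht (sub_nonneg.2 ht1)) (sub_nonneg.2 h2)]
  linarith

/-- A parameter making the scaled threshold stay below one half. -/
theorem exists_theta (d : ℕ) {a η : ℝ} (haη : a < η) :
    ∃ θ : ℝ, 1 / 2 ≤ θ ∧ θ < 1 ∧ a ≤ η * θ ^ d := by
  have hc : Tendsto (fun θ : ℝ => η * θ ^ d) (𝓝[<] 1) (𝓝 η) := by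
    have := ((by fun_prop : Continuous fun θ : ℝ => η * θ ^ d)).tendsto (1 : ℝ)
    simpa using this.mono_left nhdsWithin_le_nhds
  obtain ⟨θ, h1, h2, h3⟩ := ((hc.eventually (Ioi_mem_nhds haη)).and
    ((eventually_nhdsWithin_of_eventually_nhds (Ioi_mem_nhds (show (1 : ℝ) / 2 < 1 by norm_num))).and
      (self_mem_nhdsWithin (s := Iio (1 : ℝ))))).exists
  exact ⟨θ, le_of_lt h2, h3, le_of_lt h1⟩

theorem low_increment {E : Set (Eu d)} (hE : MeasurableSet E) {a η θ : ℝ} (ha0 : 0 ≤ a)
    (hθ : 1 / 2 ≤ θ) (hθ1 : θ < 1) (haθ : a ≤ η * θ ^ d) (x x' : Eu d) :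
    ENNReal.ofReal (min (maxInd E x') a - min (maxInd E x) a)
      ≤ ENNReal.ofReal (d * ‖x' - x‖ * ((θ / (1 - θ) + 2) ^ (d + 1)
          / volume.real (ball (0 : Eu d) 1))) * pot E η x' := by
  refine le_of_eps fun ε hε => ?_
  set h := ‖x' - x‖ with hh
  by_cases hpos : min (maxInd E x') a - min (maxInd E x) a - ε ≤ 0
  · rw [ENNReal.ofReal_of_nonpos hpos]; exact zero_le
  push Not at hpos
  have hm0 : 0 ≤ maxInd E x := ENNReal.toReal_nonneg
  have hsub : ∀ r, ball x' r ⊆ ball x (r + h) := fun r =>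
    ball_subset_ball' (by rw [dist_eq_norm])
  have step1 : ∀ r, 0 < r → dens E x' r * (r / (r + h)) ^ d ≤ maxInd E x := fun r hr =>
    (dens_scale E hr (add_pos_of_pos_of_nonneg hr (norm_nonneg _)) (hsub r)).trans
      (dens_le_max E hE x (add_pos_of_pos_of_nonneg hr (norm_nonneg _)))
  obtain ⟨r, hr, hlow, hup⟩ : ∃ r, 0 < r ∧ min (maxInd E x') a - ε < min (dens E x' r) a ∧
      ∀ R, 2 * r ≤ R → dens E x' R ≤ a := by
    rcases le_or_gt (maxInd E x') a with hM | hM
    · obtain ⟨r, hr, hd⟩ := exists_dens_gt E hE x'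
        (show min (maxInd E x') a - ε < maxInd E x' by linarith [min_le_left (maxInd E x') a])
      exact ⟨r, hr, lt_min hd (by linarith [min_le_right (maxInd E x') a]),
        fun R hR => (dens_le_max E hE x' (by linarith)).trans hM⟩
    · set S := {r : ℝ | 0 < r ∧ a ≤ dens E x' r} with hS
      have hne : S.Nonempty := by
        obtain ⟨r, hr, hd⟩ := exists_dens_gt E hE x' hM
        exact ⟨r, hr, hd.le⟩
      by_cases hbd : BddAbove S
      · obtain ⟨r0, hr0⟩ := id hne
        have hsup : 0 < sSup S := lt_of_lt_of_le hr0.1 (le_csSup hbd hr0)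
        obtain ⟨r, hrS, hr2⟩ := exists_lt_of_lt_csSup hne (show sSup S / 2 < sSup S by linarith)
        refine ⟨r, hrS.1, lt_of_lt_of_le (by linarith [min_le_right (maxInd E x') a]) (le_min hrS.2 le_rfl),
          fun R hR => ?_⟩
        by_contra hcon
        push Not at hcon
        linarith [le_csSup hbd (show R ∈ S from ⟨by linarith [hrS.1], hcon.le⟩)]
      · exfalso
        rw [not_bddAbove_iff] at hbd
        have hge : a - ε ≤ maxInd E x := by
          obtain ⟨R, ⟨hR, hRd⟩, hRb⟩ := hbd ((d : ℝ) * h * a / ε)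
          refine le_trans ?_ (step1 R hR)
          have e1 := pow_one_sub_le d hR (norm_nonneg (x' - x))
          have e3 : a * ((d : ℝ) * h / R) ≤ ε := by
            rw [div_lt_iff₀ hε] at hRb
            rw [mul_div_assoc', div_le_iff₀ hR]
            linarith
          have e2 := mul_le_mul_of_nonneg_left e1 ha0
          have e4 := mul_le_mul_of_nonneg_right hRd
            (show 0 ≤ (R / (R + h)) ^ d by positivity)
          rw [← hh] at e2
          linarith
        have : a - ε ≤ min (maxInd E x) a := le_min hge (by linarith)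
        linarith [min_le_right (maxInd E x') a]
  have hf0 : 0 ≤ (r / (r + h)) ^ d := by positivity
  have hf1 : (r / (r + h)) ^ d ≤ 1 :=
    pow_le_one₀ (by positivity) ((div_le_one (by positivity)).2 (by linarith [norm_nonneg (x' - x)]))
  have hmin : min (dens E x' r) a * (r / (r + h)) ^ d ≤ min (maxInd E x) a :=
    le_min (le_trans (mul_le_mul_of_nonneg_right (min_le_left _ _) hf0) (step1 r hr))
      ((mul_le_of_le_one_right (le_min (dens_nonneg E x' r) ha0) hf1).trans (min_le_right _ _))
  have hdiff : min (maxInd E x') a - min (maxInd E x) a - ε ≤ dens E x' r * (d * h / r) := by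
    have e1 := pow_one_sub_le d hr (norm_nonneg (x' - x))
    have e2 : min (dens E x' r) a * (1 - (r / (r + h)) ^ d) ≤ dens E x' r * (d * h / r) :=
      mul_le_mul (min_le_left _ _) e1 (by linarith) (dens_nonneg E x' r)
    linarith
  have hK : 1 ≤ θ / (1 - θ) := (one_le_div (by linarith)).2 (by linarith)
  set K := θ / (1 - θ) with hKdef
  have hmass := mass_le_pot (E := E) (η := η) (c := K + 2) (x := x') (r := r) (ρ := r) hE hr
    (by linarith) fun y hy => by
      obtain ⟨N, n, hn, h1, h2⟩ := exists_dyadic (mul_pos (by linarith : 0 < K) hr)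
        (show K * r < (K + 1) * r by nlinarith)
      set q := (n : ℝ) * step N with hq
      have hq0 : 0 < q := lt_of_lt_of_le (by positivity) h1
      have hr1 : r ≤ q := le_trans (by nlinarith) h1
      refine ⟨N, n, hn, ?_, ?_⟩
      · have e := dens_scale E hq0 (by linarith : 0 < q + r)
          (ball_subset_ball' (x := y) (y := x') (ε₁ := q) (by linarith [mem_ball.1 hy]))
        have e2 := e.trans (hup (q + r) (by linarith))
        have hθq : θ ≤ q / (q + r) := by
          rw [le_div_iff₀ (by linarith)]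
          have : θ * r ≤ q * (1 - θ) := by
            have := mul_le_mul_of_nonneg_right h1 (show 0 ≤ 1 - θ by linarith)
            rw [mul_right_comm, hKdef, div_mul_cancel₀ θ (by linarith : (1 - θ) ≠ 0)] at this
            linarith
          linarith
        have hθp : θ ^ d ≤ (q / (q + r)) ^ d := pow_le_pow_left₀ (by linarith) hθq d
        have hθpos : 0 < θ ^ d := pow_pos (by linarith) d
        by_contra hcon
        push Not at hcon
        nlinarith [mul_le_mul_of_nonneg_left hθp (dens_nonneg E y q), mul_lt_mul_of_pos_right hcon hθpos]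
      · have : ‖x' - y‖ ≤ r := by rw [← dist_eq_norm, dist_comm]; exact (mem_ball.1 hy).le
        linarith
  refine le_trans (ENNReal.ofReal_le_ofReal hdiff) ?_
  refine le_trans (le_of_eq ?_) (mul_le_mul' le_rfl hmass)
  have hω := unit_ball_pos d
  rw [← ENNReal.ofReal_mul (by positivity), dens, ball_real x' hr, mul_pow (K + 2) r]
  congr 1
  have : (K + 2) ^ (d + 1) ≠ 0 := pow_ne_zero _ (by linarith)
  field_simp
  ring

theorem high_increment {E : Set (Eu d)} (hE : MeasurableSet E) {a η θ : ℝ}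
    (hθ : 1 / 2 ≤ θ) (hθ1 : θ < 1) (haθ : a ≤ η * θ ^ d) (x x' : Eu d) :
    ENNReal.ofReal (max (maxInd E x') (1 - a) - max (maxInd E x) (1 - a))
      ≤ ENNReal.ofReal (2 * ‖x' - x‖) * invScale Eᶜ η x'
        + ENNReal.ofReal (2 ^ d * (2 * ‖x' - x‖) * ((2 / (1 - θ)) ^ d
            / volume.real (ball (0 : Eu d) 1))) * pot Eᶜ η x' := by
  refine le_of_eps fun ε' hε' => ?_
  set h := ‖x' - x‖ with hh
  by_cases hpos : max (maxInd E x') (1 - a) - max (maxInd E x) (1 - a) - ε' ≤ 0
  · rw [ENNReal.ofReal_of_nonpos hpos]; exact zero_le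
  push Not at hpos
  have hb : 1 - a < maxInd E x' := by
    by_contra hc
    push Not at hc
    rw [max_eq_right hc] at hpos
    linarith [le_max_right (maxInd E x) (1 - a)]
  rw [max_eq_left hb.le] at hpos ⊢
  have hle : maxInd E x' - max (maxInd E x) (1 - a) ≤ maxInd E x' - maxInd E x := by
    linarith [le_max_left (maxInd E x) (1 - a)]
  have hf : (0 : ℝ) < 2 ^ d := by positivity
  set ε := min (ε' / 2 ^ d) (maxInd E x' - (1 - a)) with hεdef
  have hε : 0 < ε := lt_min (by positivity) (by linarith)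
  have hεf : 2 ^ d * ε ≤ ε' := by
    have := min_le_left (ε' / 2 ^ d) (maxInd E x' - (1 - a))
    rw [le_div_iff₀ hf] at this
    linarith
  obtain ⟨r, hr, hd⟩ := exists_dens_gt E hE x' (show maxInd E x' - ε < maxInd E x' by linarith)
  have hμ : dens Eᶜ x' r < a := by
    rw [dens_compl E hE x' hr]
    linarith [min_le_right (ε' / 2 ^ d) (maxInd E x' - (1 - a))]
  have hθp : 0 < θ ^ d := pow_pos (by linarith) d
  have hlow : ∀ y q, θ * r ≤ q → ball y q ⊆ ball x' r → dens Eᶜ y q ≤ η := by
    intro y q hq hsub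
    have hq0 : 0 < q := lt_of_lt_of_le (by positivity) hq
    have e := dens_scale Eᶜ hq0 hr hsub
    have h1 : θ ^ d ≤ (q / r) ^ d := pow_le_pow_left₀ (by linarith) ((le_div_iff₀ hr).2 hq) d
    by_contra hcon
    push Not at hcon
    nlinarith [mul_le_mul_of_nonneg_left h1 (dens_nonneg Eᶜ y q), mul_lt_mul_of_pos_right hcon hθp]
  rcases lt_or_ge r (2 * h) with hsmall | hbig
  · obtain ⟨N, n, hn, h1, h2⟩ := exists_dyadic (show 0 < θ * r by nlinarith)
      (show θ * r < r by nlinarith)
    refine le_trans ?_ le_self_add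
    refine le_trans ?_ (mul_le_mul' le_rfl
      (le_invScale (E := Eᶜ) N n hn (hlow x' _ h1 (ball_subset_ball h2))))
    have hq0 : 0 < (n : ℝ) * step N := lt_of_lt_of_le (by nlinarith) h1
    rw [← ENNReal.ofReal_inv_of_pos hq0, ← ENNReal.ofReal_mul (by positivity)]
    refine ENNReal.ofReal_le_ofReal ?_
    rw [← div_eq_mul_inv, le_div_iff₀ hq0]
    have hM : maxInd E x' - max (maxInd E x) (1 - a) - ε' ≤ 1 := by
      have h0 : 0 ≤ maxInd E x := ENNReal.toReal_nonneg
      linarith [max_le_one E hE x']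
    nlinarith
  refine le_trans ?_ le_add_self
  have hh0 : 0 ≤ h := norm_nonneg _
  have hr' : 0 < r - h := by linarith
  have hs := dens_scale Eᶜ hr' hr (ball_subset_ball' (x := x) (y := x') (ε₁ := r - h)
    (by rw [dist_comm, dist_eq_norm, ← hh]; linarith))
  rw [dens_compl E hE x hr', dens_compl E hE x' hr] at hs
  set ν := 1 - maxInd E x' with hν
  have hν0 : 0 ≤ ν := by linarith [max_le_one E hE x']
  have hM1 : 1 - maxInd E x ≤ 1 - dens E x (r - h) := by linarith [dens_le_max E hE x hr']
  have ht : (r / (r - h)) ^ d ≤ 1 + 2 ^ d * (2 * h / r) := by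
    refine le_trans (pow_le_pow_left₀ (by positivity) ?_ d)
      (pow_one_add_le d (by positivity) ((div_le_one hr).2 hbig))
    rw [div_le_iff₀ hr', add_mul, one_mul, div_mul_eq_mul_div, ← sub_le_iff_le_add',
      le_div_iff₀ hr]
    nlinarith
  have ht2 : (r / (r - h)) ^ d ≤ 2 ^ d :=
    pow_le_pow_left₀ (by positivity) (by rw [div_le_iff₀ hr']; linarith) d
  have hM2 : 1 - maxInd E x ≤ (r / (r - h)) ^ d * (ν + ε) := by
    refine hM1.trans ?_
    have e1 : (r / (r - h)) ^ d * ((r - h) / r) ^ d = 1 := by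
      rw [← mul_pow, div_mul_div_comm, mul_comm r, div_self (by positivity), one_pow]
    have e2 := mul_le_mul_of_nonneg_left hs (show 0 ≤ (r / (r - h)) ^ d by positivity)
    rw [mul_left_comm, e1, mul_one] at e2
    exact e2.trans (mul_le_mul_of_nonneg_left (by linarith) (by positivity))
  have hdiff : maxInd E x' - max (maxInd E x) (1 - a) - ε' ≤ 2 ^ d * (2 * h / r) * ν := by
    nlinarith [mul_le_mul_of_nonneg_right ht hν0, mul_le_mul_of_nonneg_right ht2 hε.le]
  set δ := (θ + 1) / 2 with hδ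
  have hinner := mass_le_pot (E := Eᶜ) (η := η) (c := 1) (x := x') (r := r) (ρ := (1 - δ) * r)
    hE.compl hr one_pos fun y hy => by
      obtain ⟨N, n, hn, h1, h2⟩ := exists_dyadic (show 0 < θ * r by nlinarith)
        (show θ * r < δ * r by nlinarith)
      have hdy : dist y x' < (1 - δ) * r := mem_ball.1 hy
      refine ⟨N, n, hn, hlow y _ h1 (ball_subset_ball' (by linarith)), ?_⟩
      rw [← dist_eq_norm, dist_comm]
      linarith
  have hir : 0 < (1 - δ) * r := mul_pos (by linarith) hr
  have hν1 : ν ≤ dens Eᶜ x' ((1 - δ) * r) := by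
    rw [dens_compl E hE x' hir]
    linarith [dens_le_max E hE x' hir]
  refine le_trans (ENNReal.ofReal_le_ofReal
    (hdiff.trans (mul_le_mul_of_nonneg_left hν1 (by positivity)))) ?_
  refine le_trans (le_of_eq ?_) (mul_le_mul' le_rfl hinner)
  have hω := unit_ball_pos d
  have h1θ : 0 < 1 - θ := by linarith
  have h1δ : 0 < 1 - δ := by linarith
  rw [← ENNReal.ofReal_mul (by positivity), dens, ball_real x' hir]
  congr 1
  rw [one_mul, hδ, show 1 - (θ + 1) / 2 = (1 - θ) / 2 by ring, mul_pow, div_pow, div_pow]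
  field_simp
  ring

end

end Vale.Agent.P137
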