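import Mathlib
import Vale.Agent.P137.Bound

/-!
# P137: reflections and maximal functions of block-decreasing functions
-/

namespace Vale.Agent.P137

open MeasureTheory Set Metric Filter
open scoped ENNReal NNReal Topology

noncomputable section

variable {n : ℕ}

/-- Invariant under sign changes of coordinates and nonincreasing in each positive coordinate. -/
def BlockDec {d : ℕ} (f : Eu d → ℝ) : Prop :=
  ∀ x z : Eu d, (∀ j, |x j| ≤ |z j|) → f z ≤ f x

/-- The sign change of one coordinate. -/
def coordRefl (i : Fin (n + 1)) : Eu (n + 1) ≃ₗᵢ[ℝ] Eu (n + 1) :=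
  LinearIsometryEquiv.piLpCongrRight 2
    fun j => if j = i then LinearIsometryEquiv.neg ℝ else LinearIsometryEquiv.refl ℝ ℝ

/-- The reflection in the hyperplane where the `i`-th coordinate is `m`. -/
def mirror (i : Fin (n + 1)) (m : ℝ) (z : Eu (n + 1)) : Eu (n + 1) :=
  coordRefl i z + EuclideanSpace.single i (2 * m)

theorem mirror_self_apply (i : Fin (n + 1)) (m : ℝ) (z : Eu (n + 1)) :
    mirror i m z i = 2 * m - z i := by
  simp [mirror, coordRefl, LinearIsometryEquiv.piLpCongrRight_apply]
  ring

theorem mirror_succAbove (i : Fin (n + 1)) (m : ℝ) (z : Eu (n + 1)) (l : Fin n) :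
    mirror i m z (i.succAbove l) = z (i.succAbove l) := by
  simp [mirror, coordRefl, LinearIsometryEquiv.piLpCongrRight_apply, Fin.succAbove_ne]

theorem mirror_mirror (i : Fin (n + 1)) (m : ℝ) (z : Eu (n + 1)) :
    mirror i m (mirror i m z) = z := by
  ext j
  refine Fin.succAboveCases i ?_ (fun l => ?_) j
  · rw [mirror_self_apply, mirror_self_apply]; ring
  · rw [mirror_succAbove, mirror_succAbove]

theorem dist_mirror (i : Fin (n + 1)) (m : ℝ) (z w : Eu (n + 1)) :
    dist (mirror i m z) (mirror i m w) = dist z w := by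
  simp [mirror]

theorem measurePreserving_mirror (i : Fin (n + 1)) (m : ℝ) :
    MeasurePreserving (mirror i m) volume volume :=
  (measurePreserving_add_right volume _).comp (coordRefl i).measurePreserving

theorem measurableEmbedding_mirror (i : Fin (n + 1)) (m : ℝ) :
    MeasurableEmbedding (mirror i m) :=
  (Homeomorph.addRight _).measurableEmbedding.comp (coordRefl i).toHomeomorph.measurableEmbedding

theorem mirror_preimage_ball (i : Fin (n + 1)) (m : ℝ) (c : Eu (n + 1)) (r : ℝ) :
    mirror i m ⁻¹' ball c r = ball (mirror i m c) r := by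
  ext z
  rw [mem_preimage, mem_ball, mem_ball, ← dist_mirror i m, mirror_mirror]

/-- Squared distances differ from the hyperplane part by the `i`-th coordinates. -/
theorem dist_sq_succAbove (i : Fin (n + 1)) (z c : Eu (n + 1)) :
    dist z c ^ 2 = (z i - c i) ^ 2 + ∑ l, (z (i.succAbove l) - c (i.succAbove l)) ^ 2 := by
  rw [dist_eq_norm, EuclideanSpace.norm_sq_eq, Fin.sum_univ_succAbove _ i]
  simp [Real.norm_eq_abs, sq_abs]

/-- Mirroring a centre towards the origin increases integrals of block-decreasing functions. -/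
theorem setLIntegral_le_mirror {f : Eu (n + 1) → ℝ} (hf : BlockDec f) (h0 : ∀ x, 0 ≤ f x)
    (i : Fin (n + 1)) (m : ℝ) (c : Eu (n + 1)) (r : ℝ) (hm : |mirror i m c i| ≤ |c i|) :
    ∫⁻ z in ball c r, ‖f z‖ₑ ≤ ∫⁻ z in ball (mirror i m c) r, ‖f z‖ₑ := by
  set c' := mirror i m c with hc'
  rw [← lintegral_inter_add_sdiff (fun z => ‖f z‖ₑ) (ball c r) measurableSet_ball (B := ball c' r),
    ← lintegral_inter_add_sdiff (fun z => ‖f z‖ₑ) (ball c' r) measurableSet_ball (B := ball c r),
    inter_comm (ball c' r)]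
  refine add_le_add le_rfl ?_
  have hpre : mirror i m ⁻¹' (ball c' r \ ball c r) = ball c r \ ball c' r := by
    rw [preimage_sdiff, mirror_preimage_ball, mirror_preimage_ball, hc', mirror_mirror]
  rw [← (measurePreserving_mirror i m).setLIntegral_comp_preimage_emb
    (measurableEmbedding_mirror i m) (fun z => ‖f z‖ₑ) (ball c' r \ ball c r), hpre]
  refine setLIntegral_mono' (measurableSet_ball.diff measurableSet_ball) fun z hz => ?_
  rw [Real.enorm_eq_ofReal (h0 _), Real.enorm_eq_ofReal (h0 _)]
  refine ENNReal.ofReal_le_ofReal (hf _ _ fun j => ?_)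
  refine Fin.succAboveCases i ?_ (fun l => by rw [mirror_succAbove]) j
  have h1 : dist z c < r := mem_ball.1 hz.1
  have h2 : r ≤ dist z c' := not_lt.1 fun h => hz.2 (mem_ball.2 h)
  have h3 : dist z c ^ 2 < dist z c' ^ 2 := pow_lt_pow_left₀ (h1.trans_le h2) dist_nonneg two_ne_zero
  rw [dist_sq_succAbove i, dist_sq_succAbove i] at h3
  simp only [hc', mirror_succAbove, mirror_self_apply] at h3 hm
  have h4 := sq_le_sq.2 hm
  rw [mirror_self_apply]
  refine sq_le_sq.1 ?_
  have k1 : (m - c i) * m ≤ 0 := by nlinarith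
  have k2 : (m - c i) * (z i - m) < 0 := by nlinarith
  by_contra hcon
  rw [not_le] at hcon
  have k3 : m * (z i - m) < 0 := by nlinarith
  have hne : m - c i ≠ 0 := fun e => by rw [e, zero_mul] at k2; exact lt_irrefl _ k2
  have := mul_neg_of_pos_of_neg (lt_of_le_of_ne (sq_nonneg (m - c i)) (pow_ne_zero 2 hne).symm) k3
  have := mul_nonneg (neg_nonneg.2 k1) (neg_nonneg.2 k2.le)
  linarith [show -((m - c i) * m) * -((m - c i) * (z i - m)) = (m - c i) ^ 2 * (m * (z i - m)) by
    ring]

/-- The maximal averages of a function over balls allowed by `P`. -/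
def maxF (P : Eu (n + 1) → Eu (n + 1) → ℝ → Prop) (f : Eu (n + 1) → ℝ) (x : Eu (n + 1)) :
    ℝ≥0∞ :=
  ⨆ (c) (r) (_ : P x c r), (∫⁻ y in ball c r, ‖f y‖ₑ) / volume (ball c r)

/-- Allowed balls can follow a point moving along a line towards the origin. -/
def LineMono (P : Eu (n + 1) → Eu (n + 1) → ℝ → Prop) : Prop :=
  ∀ (i : Fin (n + 1)) (y : Fin n → ℝ) (s t : ℝ) (c : Eu (n + 1)) (r : ℝ), |s| ≤ |t| →
    P (onLine i y t) c r → ∃ m, P (onLine i y s) (mirror i m c) r ∧ |mirror i m c i| ≤ |c i|

theorem lineMono_centred :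
    LineMono fun (x c : Eu (n + 1)) (r : ℝ) => 0 < r ∧ c = x := by
  rintro i y s t c r hst ⟨hr, rfl⟩
  have e : mirror i ((s + t) / 2) (onLine i y t) = onLine i y s := by
    ext j
    refine Fin.succAboveCases i ?_ (fun l => ?_) j
    · rw [mirror_self_apply]; simp [onLine]; ring
    · rw [mirror_succAbove]; simp [onLine]
  refine ⟨(s + t) / 2, ⟨hr, e⟩, ?_⟩
  rw [e]
  simpa [onLine] using hst

theorem lineMono_uncentred :
    LineMono fun (x c : Eu (n + 1)) (r : ℝ) => x ∈ ball c r := by
  intro i y s t c r hst hx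
  set b := max (-|c i|) (min s |c i|) with hb
  refine ⟨(b + c i) / 2, ?_, ?_⟩
  · have hd : dist (onLine i y s) (mirror i ((b + c i) / 2) c) ^ 2
        ≤ dist (onLine i y t) c ^ 2 := by
      rw [dist_sq_succAbove i, dist_sq_succAbove i]
      simp only [mirror_self_apply, mirror_succAbove]
      simp only [onLine, Fin.insertNth_apply_same, Fin.insertNth_apply_succAbove]
      refine add_le_add (sq_le_sq.2 ?_) le_rfl
      rw [show s - (2 * ((b + c i) / 2) - c i) = s - b by ring]
      have h1 := abs_sub_abs_le_abs_sub t (c i)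
      rw [hb]
      have hA := abs_nonneg (c i)
      rcases le_total |c i| s with h | h
      · rw [min_eq_right h, max_eq_right (by linarith), abs_of_nonneg (by linarith)]
        linarith [le_abs_self s]
      rw [min_eq_left h]
      rcases le_total (-|c i|) s with h' | h'
      · rw [max_eq_right h', sub_self, abs_zero]; exact abs_nonneg _
      · rw [max_eq_left h', abs_of_nonpos (by linarith)]
        linarith [neg_le_abs s]
    show onLine i y s ∈ ball _ r
    rw [mem_ball] at hx ⊢
    exact ((pow_le_pow_iff_left₀ dist_nonneg dist_nonneg two_ne_zero).1 hd).trans_lt hx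
  · rw [mirror_self_apply, show 2 * ((b + c i) / 2) - c i = b by ring, abs_le, hb]
    exact ⟨le_max_left _ _, max_le (by linarith [abs_nonneg (c i)]) (min_le_right _ _)⟩

variable {P : Eu (n + 1) → Eu (n + 1) → ℝ → Prop} {f : Eu (n + 1) → ℝ}

theorem maxF_line_mono (hP : LineMono P) (hf : BlockDec f) (h0 : ∀ x, 0 ≤ f x) (i : Fin (n + 1))
    (y : Fin n → ℝ) {s t : ℝ} (hst : |s| ≤ |t|) :
    maxF P f (onLine i y t) ≤ maxF P f (onLine i y s) := by
  refine iSup_le fun c => iSup_le fun r => iSup_le fun hp => ?_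
  obtain ⟨m, hm, hc⟩ := hP i y s t c r hst hp
  refine le_iSup_of_le (mirror i m c) (le_iSup_of_le r (le_iSup_of_le hm ?_))
  refine (ENNReal.div_le_div_right (setLIntegral_le_mirror hf h0 i m c r hc) _).trans (le_of_eq ?_)
  rw [Measure.addHaar_ball_center volume c, Measure.addHaar_ball_center volume (mirror i m c)]

/-- Where it is finite at the origin of a line, the maximal function varies at most twice that
value. -/
theorem variation_maxF_le (hP : LineMono P) (hf : BlockDec f) (h0 : ∀ x, 0 ≤ f x)
    (i : Fin (n + 1)) (y : Fin n → ℝ) (hfin : maxF P f (onLine i y 0) ≠ ⊤) :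
    eVariationOn (fun t => (maxF P f (onLine i y t)).toReal) univ
      ≤ 2 * maxF P f (onLine i y 0) := by
  have hle : ∀ t, maxF P f (onLine i y t) ≤ maxF P f (onLine i y 0) := fun t =>
    maxF_line_mono hP hf h0 i y (by simp)
  have hne : ∀ t, maxF P f (onLine i y t) ≠ ⊤ := fun t => ne_top_of_le_ne_top hfin (hle t)
  refine (eVariationOn_le_two (P := (maxF P f (onLine i y 0)).toReal)
    (fun t => ENNReal.toReal_nonneg) (fun t => ENNReal.toReal_mono hfin (hle t))
    fun a b c hab hbc => ?_).trans (mul_le_mul_right ENNReal.ofReal_toReal_le 2)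
  rcases le_total 0 b with hb | hb
  · exact (min_le_right _ _).trans (ENNReal.toReal_mono (hne b) (maxF_line_mono hP hf h0 i y
      (by rw [abs_of_nonneg hb, abs_of_nonneg (hb.trans hbc)]; exact hbc)))
  · exact (min_le_left _ _).trans (ENNReal.toReal_mono (hne b) (maxF_line_mono hP hf h0 i y
      (by rw [abs_of_nonpos hb, abs_of_nonpos (hab.trans hb)]; linarith)))

end

end Vale.Agent.P137
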