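import Mathlib
import Vale.Agent.P137.Mirror

/-!
# P137: dyadic boxes under a block-decreasing superlevel set
-/

namespace Vale.Agent.P137

open MeasureTheory Set Metric Filter Bornology
open scoped ENNReal NNReal Topology

noncomputable section

variable {n : ℕ} {P : Eu (n + 1) → Eu (n + 1) → ℝ → Prop}

/-- The constant in the bound on integrated line suprema. -/
def lineConst (n : ℕ) : ℝ≥0∞ :=
  (1 + 2 ^ (n + 1)) * packConst n * (4 * (n + 1))

theorem lineConst_ne_top (n : ℕ) : lineConst n ≠ ⊤ := by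
  have hpk : packConst n ≠ ⊤ := ENNReal.div_ne_top
    (ENNReal.mul_ne_top (ENNReal.pow_ne_top ENNReal.ofNat_ne_top)
      (ENNReal.pow_ne_top ENNReal.ofNat_ne_top)) (measure_ball_pos volume _ one_pos).ne'
  exact ENNReal.mul_ne_top (ENNReal.mul_ne_top (by simp) hpk)
    (ENNReal.mul_ne_top ENNReal.ofNat_ne_top (by simp))

/-- A measurable bound for the suprema of the maximal averages of a convex set along lines. -/
theorem exists_line_bound (hP : Admissible P) {O : Set (Eu (n + 1))} (hO : IsOpen O)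
    (hc : Convex ℝ O) (hb : IsBounded O) (hne : O.Nonempty) (i : Fin (n + 1)) :
    ∃ G : (Fin n → ℝ) → ℝ≥0∞, Measurable G ∧ (∀ y t, maxO P O (onLine i y t) ≤ G y) ∧
      ∫⁻ y, G y ≤ lineConst n * ∑ j, volume (proj j O) := by
  obtain ⟨x₀, r₀, hr₀, hsub, hvol⟩ := exists_ball_subset hO hc hb hne
  set G : (Fin n → ℝ) → ℝ≥0∞ := fun y => (thickProj i O (2 * r₀)).indicator 1 y
      + ∑' k : ℕ, 2 ^ (n + 1) * (bestAvg O (r₀ * 2 ^ (k + 1))
        * (thickProj i O (2 * (r₀ * 2 ^ (k + 1)))).indicator 1 y) with hG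
  have hmeas : ∀ R, Measurable ((thickProj i O R).indicator (1 : (Fin n → ℝ) → ℝ≥0∞)) :=
    fun R => measurable_one.indicator (isOpen_thickProj i O R).measurableSet
  have hGm : Measurable G := by
    rw [hG]
    exact (hmeas _).add (Measurable.tsum fun k => ((hmeas _).const_mul _).const_mul _)
  refine ⟨G, hGm, fun y t => maxO_le hP hr₀ i y t, ?_⟩
  simp only [hG]
  rw [lintegral_add_left (hmeas _), lintegral_tsum fun k =>
    (((hmeas _).const_mul _).const_mul _).aemeasurable]
  simp only [lintegral_const_mul _ ((hmeas _).const_mul _), lintegral_const_mul _ (hmeas _),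
    lintegral_indicator_one (isOpen_thickProj i O _).measurableSet]
  set X := packConst n * (ENNReal.ofReal r₀⁻¹ * volume O) with hX
  have h0 : volume (thickProj i O (2 * r₀)) ≤ X := by
    refine le_trans ?_ (packing i hc hO hb hr₀)
    refine le_mul_of_one_le_left zero_le (le_iSup_of_le x₀ (le_of_eq ?_))
    rw [inter_eq_self_of_subset_right hsub,
      ENNReal.div_self (measure_ball_pos volume _ hr₀).ne' measure_ball_lt_top.ne]
  have hk : ∀ k : ℕ, bestAvg O (r₀ * 2 ^ (k + 1))
      * volume (thickProj i O (2 * (r₀ * 2 ^ (k + 1)))) ≤ X * (2⁻¹ * 2⁻¹ ^ k) := by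
    intro k
    refine (packing i hc hO hb (by positivity)).trans (le_of_eq ?_)
    rw [hX, ← pow_succ', mul_inv, ENNReal.ofReal_mul (by positivity),
      ← inv_pow (2 : ℝ), ENNReal.ofReal_pow (by norm_num),
      ENNReal.ofReal_inv_of_pos (two_pos : (0 : ℝ) < 2), ENNReal.ofReal_ofNat]
    ring
  have hsum : ∑' k : ℕ, X * (2⁻¹ * 2⁻¹ ^ k) = X := by
    rw [ENNReal.tsum_mul_left, ENNReal.tsum_mul_left, ENNReal.tsum_geometric,
      ENNReal.one_sub_inv_two, inv_inv, ENNReal.inv_mul_cancel (by norm_num) (by norm_num),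
      mul_one]
  calc volume (thickProj i O (2 * r₀)) + ∑' k : ℕ, 2 ^ (n + 1) *
        (bestAvg O (r₀ * 2 ^ (k + 1)) * volume (thickProj i O (2 * (r₀ * 2 ^ (k + 1)))))
      ≤ X + ∑' k : ℕ, 2 ^ (n + 1) * (X * (2⁻¹ * 2⁻¹ ^ k)) :=
        add_le_add h0 (ENNReal.tsum_le_tsum fun k => mul_le_mul_right (hk k) _)
    _ = (1 + 2 ^ (n + 1)) * X := by rw [ENNReal.tsum_mul_left, hsum]; ring
    _ ≤ (1 + 2 ^ (n + 1)) * (packConst n * ((4 * (n + 1)) * ∑ j, volume (proj j O))) := by
        rw [hX]
        refine mul_le_mul_right (mul_le_mul_right ?_ _) _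
        calc ENNReal.ofReal r₀⁻¹ * volume O
            ≤ ENNReal.ofReal r₀⁻¹ * (ENNReal.ofReal r₀ * (4 * (n + 1) * ∑ j, volume (proj j O))) :=
              mul_le_mul_right hvol _
          _ = 4 * (n + 1) * ∑ j, volume (proj j O) := by
              rw [← mul_assoc, ← ENNReal.ofReal_mul (by positivity), inv_mul_cancel₀ hr₀.ne',
                ENNReal.ofReal_one, one_mul]
    _ = _ := by rw [lineConst]; ring

/-- The centred box with dyadic half-sides. -/
def box (k : Fin (n + 1) → ℤ) : Set (Eu (n + 1)) :=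
  {x | ∀ j, |x j| < (2 : ℝ) ^ k j}

theorem box_eq (k : Fin (n + 1) → ℤ) :
    box k = WithLp.ofLp ⁻¹' Set.pi univ fun j => Ioo (-(2 : ℝ) ^ k j) (2 ^ k j) := by
  ext x
  simp [box, abs_lt]

theorem isOpen_box (k : Fin (n + 1) → ℤ) : IsOpen (box k) := by
  rw [box_eq]
  exact (isOpen_set_pi finite_univ fun _ _ => isOpen_Ioo).preimage (PiLp.continuous_ofLp 2 _)

theorem convex_box (k : Fin (n + 1) → ℤ) : Convex ℝ (box k) := by
  rw [box_eq]
  exact (convex_pi fun _ _ => convex_Ioo _ _).linear_preimage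
    (WithLp.linearEquiv 2 ℝ (Fin (n + 1) → ℝ)).toLinearMap

theorem isBounded_box (k : Fin (n + 1) → ℤ) : IsBounded (box k) := by
  rw [isBounded_iff_forall_norm_le]
  refine ⟨∑ j, (2 : ℝ) ^ k j, fun x hx => ?_⟩
  refine le_trans ?_ (Finset.sum_le_sum (s := Finset.univ) fun j _ => (hx j).le)
  conv_lhs => rw [← (EuclideanSpace.basisFun (Fin (n + 1)) ℝ).sum_repr x]
  refine (norm_sum_le _ _).trans (le_of_eq ?_)
  simp [norm_smul, Real.norm_eq_abs]

theorem box_nonempty (k : Fin (n + 1) → ℤ) : (box k).Nonempty :=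
  ⟨0, fun j => by simpa using zpow_pos (two_pos : (0 : ℝ) < 2) (k j)⟩

theorem box_mono {k k' : Fin (n + 1) → ℤ} (h : k ≤ k') : box k ⊆ box k' := fun _ hx j =>
  (hx j).trans_le (zpow_le_zpow_right₀ one_le_two (h j))

/-- The outer corner of the inner half-box. -/
def pt (k : Fin (n + 1) → ℤ) : Eu (n + 1) :=
  WithLp.toLp 2 fun j => (2 : ℝ) ^ (k j - 1)

/-- The open dyadic block inside the inner half-box, away from the hyperplanes. -/
def core (k : Fin (n + 1) → ℤ) : Set (Eu (n + 1)) :=
  WithLp.ofLp ⁻¹' Set.pi univ fun j => Ioo ((2 : ℝ) ^ (k j - 2)) (2 ^ (k j - 1))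

/-- The projection of `core k` along the `i`-th axis. -/
def coreProj (i : Fin (n + 1)) (k : Fin (n + 1) → ℤ) : Set (Fin n → ℝ) :=
  Set.pi univ fun l => Ioo ((2 : ℝ) ^ (k (i.succAbove l) - 2)) (2 ^ (k (i.succAbove l) - 1))

theorem disjoint_block {a b : ℤ} (h : a ≠ b) :
    Disjoint (Ioo ((2 : ℝ) ^ (a - 2)) (2 ^ (a - 1))) (Ioo ((2 : ℝ) ^ (b - 2)) (2 ^ (b - 1))) := by
  wlog hab : a < b generalizing a b
  · exact (this h.symm (lt_of_le_of_ne (not_lt.1 hab) h.symm)).symm
  refine disjoint_left.2 fun x hx hx' => ?_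
  have := zpow_le_zpow_right₀ (one_le_two (α := ℝ)) (show a - 1 ≤ b - 2 by omega)
  linarith [hx.2, hx'.1]

theorem volume_core (k : Fin (n + 1) → ℤ) :
    volume (core k) = ∏ j, ENNReal.ofReal ((2 : ℝ) ^ (k j - 2)) := by
  rw [core, (PiLp.volume_preserving_ofLp (Fin (n + 1))).measure_preimage
    (MeasurableSet.univ_pi fun _ => measurableSet_Ioo).nullMeasurableSet, Real.volume_pi_Ioo]
  refine Finset.prod_congr rfl fun j _ => congrArg _ ?_
  rw [show k j - 1 = k j - 2 + 1 by ring, zpow_add_one₀ two_ne_zero]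
  ring

theorem measurableSet_core (k : Fin (n + 1) → ℤ) : MeasurableSet (core k) :=
  (MeasurableSet.univ_pi fun _ => measurableSet_Ioo).preimage
    (PiLp.volume_preserving_ofLp (Fin (n + 1))).measurable

theorem measurableSet_coreProj (i : Fin (n + 1)) (k : Fin (n + 1) → ℤ) :
    MeasurableSet (coreProj i k) :=
  MeasurableSet.univ_pi fun _ => measurableSet_Ioo

theorem volume_proj_box_le (i : Fin (n + 1)) (k : Fin (n + 1) → ℤ) :
    volume (proj i (box k)) ≤ 8 ^ n * volume (coreProj i k) := by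
  have hsub : proj i (box k) ⊆ Set.pi univ
      fun l => Ioo (-(2 : ℝ) ^ k (i.succAbove l)) (2 ^ k (i.succAbove l)) := by
    intro y hy l _
    obtain ⟨t, ht⟩ := mem_iUnion.1 hy
    have := ht (i.succAbove l)
    simpa [onLine, abs_lt] using this
  refine (measure_mono hsub).trans (le_of_eq ?_)
  rw [coreProj, Real.volume_pi_Ioo, Real.volume_pi_Ioo,
    show (8 : ℝ≥0∞) ^ n = ∏ _l : Fin n, (8 : ℝ≥0∞) by simp, ← Finset.prod_mul_distrib]
  refine Finset.prod_congr rfl fun l _ => ?_
  rw [show (8 : ℝ≥0∞) = ENNReal.ofReal 8 by simp, ← ENNReal.ofReal_mul (by norm_num)]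
  congr 1
  set a := k (i.succAbove l)
  rw [show a - 1 = a - 2 + 1 by ring, zpow_add_one₀ two_ne_zero,
    show (2 : ℝ) ^ a = 2 ^ (a - 2) * 4 by
      rw [show (4 : ℝ) = 2 ^ (2 : ℤ) by norm_num, ← zpow_add₀ two_ne_zero, sub_add_cancel]]
  ring

/-- Membership in a set invariant under shrinking the coordinates. -/
def BlockSet {d : ℕ} (U : Set (Eu d)) : Prop :=
  ∀ x z : Eu d, (∀ j, |x j| ≤ |z j|) → z ∈ U → x ∈ U

/-- A block-decreasing set of finite volume is covered by dyadic boxes with small projections. -/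
theorem exists_boxes {U : Set (Eu (n + 1))} (hU : BlockSet U)
    (hfin : volume U ≠ ⊤) :
    ∃ D : Set (Fin (n + 1) → ℤ), volume (U \ ⋃ k : D, box (k : Fin (n + 1) → ℤ)) = 0 ∧
      ∀ i, ∑' k : D, volume (proj i (box (k : Fin (n + 1) → ℤ)))
        ≤ 8 ^ n * volume {y | onLine i y 0 ∈ U} := by
  set S : Set (Fin (n + 1) → ℤ) := {k | pt k ∈ U} with hS
  have hcore : ∀ k ∈ S, core k ⊆ U := fun k hk x hx => hU x (pt k) (fun j => by
    have hxj := hx j (mem_univ j)
    have h0 := zpow_pos (two_pos : (0 : ℝ) < 2) (k j - 2)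
    simp only [pt]
    rw [abs_of_pos (h0.trans hxj.1), abs_of_pos (zpow_pos two_pos _)]
    exact hxj.2.le) hk
  have hfinite : ∀ k, {m | m ∈ S ∧ k ≤ m}.Finite := by
    intro k
    have hε : 0 < ∏ j, ENNReal.ofReal ((2 : ℝ) ^ (k j - 2)) :=
      CanonicallyOrderedAdd.prod_pos.2 fun j _ => ENNReal.ofReal_pos.2 (zpow_pos two_pos _)
    refine ((Measure.finite_const_le_meas_of_disjoint_iUnion volume hε
      (As := fun m : S => core m.1) (fun m => measurableSet_core _) ?_ ?_).image
        Subtype.val).subset ?_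
    · intro m m' hne
      obtain ⟨j, hj⟩ := Function.ne_iff.1 fun e => hne (Subtype.ext e)
      exact disjoint_left.2 fun x hx hx' =>
        disjoint_left.1 (disjoint_block hj) (hx j (mem_univ j)) (hx' j (mem_univ j))
    · exact ne_top_of_le_ne_top hfin (measure_mono (iUnion_subset fun m => hcore _ m.2))
    · rintro m ⟨hm', hkm⟩
      refine ⟨⟨m, hm'⟩, ?_, rfl⟩
      show _ ≤ volume (core m)
      rw [volume_core]
      exact Finset.prod_le_prod' fun j _ => ENNReal.ofReal_le_ofReal
        (zpow_le_zpow_right₀ one_le_two (sub_le_sub_right (hkm j) 2))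
  refine ⟨{k | Maximal (· ∈ S) k}, ?_, fun i => ?_⟩
  · have hnull : volume (⋃ j : Fin (n + 1), {x : Eu (n + 1) | x j = 0}) = 0 := by
      refine measure_iUnion_null fun j => ?_
      rw [volume_eq_lintegral j
        (measurableSet_eq_fun (by fun_prop) measurable_const)]
      simp [onLine]
    refine measure_mono_null (fun x hx => ?_) hnull
    by_contra hx0
    simp only [mem_iUnion, not_exists, mem_ofPred_eq] at hx0
    refine hx.2 ?_
    let k : Fin (n + 1) → ℤ := fun j => Int.log 2 |x j| + 1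
    have hk : k ∈ S := hU (pt k) x (fun j => by
      simp only [pt, k, add_sub_cancel_right]
      rw [abs_of_pos (zpow_pos two_pos _)]
      exact_mod_cast Int.zpow_log_le_self one_lt_two (abs_pos.2 (hx0 j))) hx.1
    obtain ⟨b, hkb, hb⟩ := (hfinite k).exists_le_maximal (a := k) ⟨hk, le_rfl⟩
    refine mem_iUnion.2 ⟨⟨b, hb.prop.1, fun m hmS hbm => hb.2 ⟨hmS, hkb.trans hbm⟩ hbm⟩,
      box_mono hkb fun j => ?_⟩
    exact_mod_cast Int.lt_zpow_succ_log_self one_lt_two |x j|
  · refine (ENNReal.tsum_le_tsum fun k => volume_proj_box_le i _).trans ?_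
    rw [ENNReal.tsum_mul_left]
    refine mul_le_mul_right ?_ _
    rw [← measure_iUnion ?_ fun k => measurableSet_coreProj i _]
    · refine measure_mono (iUnion_subset fun k y hy => hU _ (pt k.1) (fun j => ?_) k.2.prop)
      refine Fin.succAboveCases i ?_ (fun l => ?_) j
      · simp [onLine]
      · have hy' := hy l (mem_univ l)
        have h0 := zpow_pos (two_pos : (0 : ℝ) < 2) (k.1 (i.succAbove l) - 2)
        simp only [pt, onLine, Fin.insertNth_apply_succAbove]
        rw [abs_of_pos (h0.trans hy'.1), abs_of_pos (zpow_pos two_pos _)]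
        exact hy'.2.le
    · intro a b hne
      by_cases hall : ∀ l, a.1 (i.succAbove l) = b.1 (i.succAbove l)
      · exfalso
        have hext : ∀ u v : Fin (n + 1) → ℤ, (∀ l, u (i.succAbove l) = v (i.succAbove l)) →
            u i ≤ v i → u ≤ v := fun u v he hi j => Fin.succAboveCases i hi (fun l => (he l).le) j
        rcases le_total (a.1 i) (b.1 i) with h | h
        · exact hne (Subtype.ext (a.2.eq_of_le b.2.prop (hext _ _ hall h)))
        · exact hne (Subtype.ext (b.2.eq_of_le a.2.prop (hext _ _ (fun l => (hall l).symm) h)).symm)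
      · push Not at hall
        obtain ⟨l, hl⟩ := hall
        exact disjoint_left.2 fun y hy hy' =>
          disjoint_left.1 (disjoint_block hl) (hy l (mem_univ l)) (hy' l (mem_univ l))

/-- Line suprema for the maximal averages of a block-decreasing set. -/
theorem exists_line_bound_block (hP : Admissible P) {U : Set (Eu (n + 1))} (hU : BlockSet U)
    (hfin : volume U ≠ ⊤) (i : Fin (n + 1)) :
    ∃ G : (Fin n → ℝ) → ℝ≥0∞, Measurable G ∧ (∀ y t, maxO P U (onLine i y t) ≤ G y) ∧
      ∫⁻ y, G y ≤ lineConst n * (8 ^ n * ∑ l, volume {y | onLine l y 0 ∈ U}) := by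
  obtain ⟨D, h0, hD⟩ := exists_boxes hU hfin
  choose G hGm hGle hGint using fun k : D => exists_line_bound hP (isOpen_box k.1)
    (convex_box k.1) (isBounded_box k.1) (box_nonempty k.1) i
  refine ⟨fun y => ∑' k, G k y, Measurable.tsum hGm, fun y t => ?_, ?_⟩
  · refine iSup_le fun c => iSup_le fun r => iSup_le fun hp => ?_
    have hv : volume (U ∩ ball c r) ≤ ∑' k : D, volume (box k.1 ∩ ball c r) := by
      refine le_trans (le_trans (measure_mono (t := (⋃ k : D, box k.1 ∩ ball c r)
        ∪ (U \ ⋃ k : D, box k.1)) fun x hx => ?_) (measure_union_le _ _)) ?_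
      · rw [← iUnion_inter]
        exact (em (x ∈ ⋃ k : D, box k.1)).imp (fun h => ⟨h, hx.2⟩) fun h => ⟨hx.1, h⟩
      · rw [h0, add_zero]
        exact measure_iUnion_le _
    refine (ENNReal.div_le_div_right hv _).trans ?_
    rw [div_eq_mul_inv, ← ENNReal.tsum_mul_right]
    refine ENNReal.tsum_le_tsum fun k => le_trans ?_ (hGle k y t)
    exact le_iSup_of_le c (le_iSup_of_le r (le_iSup_of_le hp (le_of_eq (div_eq_mul_inv _ _).symm)))
  · rw [lintegral_tsum fun k => (hGm k).aemeasurable]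
    refine (ENNReal.tsum_le_tsum hGint).trans ?_
    rw [ENNReal.tsum_mul_left, Finset.mul_sum,
      Summable.tsum_finsetSum fun _ _ => ENNReal.summable]
    exact mul_le_mul_right (Finset.sum_le_sum fun l _ => hD l) _

/-- Dyadic levels below a value sum to at most four times that value. -/
theorem tsum_levels_le (v : ℝ) :
    ∑' j : ℤ, (if (2 : ℝ) ^ j < v then ENNReal.ofReal (2 ^ (j + 1)) else 0)
      ≤ ENNReal.ofReal (4 * v) := by
  rcases le_or_gt v 0 with hv | hv
  · have : ∀ j : ℤ, ¬ (2 : ℝ) ^ j < v := fun j h => by linarith [zpow_pos (two_pos (α := ℝ)) j]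
    simp [this]
  obtain ⟨J, hJ, hJ'⟩ := exists_mem_Ioc_zpow hv (one_lt_two : (1 : ℝ) < 2)
  have hg : Function.Injective fun m : ℕ => J - (m : ℤ) := fun a b h => by simpa using h
  rw [← hg.tsum_eq (f := fun j : ℤ => if (2 : ℝ) ^ j < v then ENNReal.ofReal (2 ^ (j + 1)) else 0)
    fun j hj => ?_]
  · have hle : ∀ m : ℕ, (if (2 : ℝ) ^ (J - (m : ℤ)) < v then
        ENNReal.ofReal (2 ^ (J - (m : ℤ) + 1)) else 0)
        ≤ ENNReal.ofReal (2 ^ (J + 1)) * 2⁻¹ ^ m := by
      intro m
      refine le_trans (show _ ≤ ENNReal.ofReal (2 ^ (J - (m : ℤ) + 1)) by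
        split_ifs <;> simp) (le_of_eq ?_)
      rw [show J - (m : ℤ) + 1 = J + 1 - m by ring, zpow_sub₀ two_ne_zero, zpow_natCast,
        ENNReal.ofReal_div_of_pos (by positivity), ENNReal.div_eq_inv_mul, mul_comm,
        ENNReal.ofReal_pow (by norm_num), ENNReal.inv_pow, ENNReal.ofReal_ofNat]
    refine (ENNReal.tsum_le_tsum hle).trans ?_
    rw [ENNReal.tsum_mul_left, ENNReal.tsum_geometric, ENNReal.one_sub_inv_two, inv_inv,
      show (2 : ℝ≥0∞) = ENNReal.ofReal 2 by simp, ← ENNReal.ofReal_mul (by positivity)]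
    refine ENNReal.ofReal_le_ofReal ?_
    rw [zpow_add_one₀ two_ne_zero]
    linarith
  · simp only [Function.mem_support, ne_eq, ite_eq_right_iff, not_forall] at hj
    obtain ⟨hlt, -⟩ := hj
    have : j < J + 1 := (zpow_lt_zpow_iff_right₀ one_lt_two).1 (hlt.trans_le hJ')
    exact ⟨(J - j).toNat, by simp only; omega⟩

/-- The layer-cake bound for the maximal averages. -/
theorem maxF_le_levels {f : Eu (n + 1) → ℝ} (hf : Measurable f) (h0 : ∀ x, 0 ≤ f x)
    (x : Eu (n + 1)) :
    maxF P f x ≤ ∑' j : ℤ, ENNReal.ofReal (2 ^ (j + 1)) * maxO P {z | (2 : ℝ) ^ j < f z} x := by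
  set U : ℤ → Set (Eu (n + 1)) := fun j => {z | (2 : ℝ) ^ j < f z}
  have hUm : ∀ j, MeasurableSet (U j) := fun j => measurableSet_lt measurable_const hf
  refine iSup_le fun c => iSup_le fun r => iSup_le fun hp => ?_
  have hpt : ∀ z, ‖f z‖ₑ
      ≤ ∑' j : ℤ, ENNReal.ofReal (2 ^ (j + 1)) * (U j).indicator 1 z := fun z => by
    rw [Real.enorm_eq_ofReal (h0 z)]
    rcases (h0 z).eq_or_lt with h | h
    · simp [← h]
    obtain ⟨J, hJ, hJ'⟩ := exists_mem_Ioc_zpow h (one_lt_two : (1 : ℝ) < 2)
    refine le_trans ?_ (ENNReal.le_tsum J)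
    rw [indicator_of_mem (show z ∈ U J from hJ), Pi.one_apply, mul_one]
    exact ENNReal.ofReal_le_ofReal hJ'
  refine (ENNReal.div_le_div_right (lintegral_mono (μ := volume.restrict (ball c r)) hpt) _).trans ?_
  rw [lintegral_tsum fun j => ((measurable_one.indicator (hUm j)).const_mul _).aemeasurable,
    div_eq_mul_inv, ← ENNReal.tsum_mul_right]
  refine ENNReal.tsum_le_tsum fun j => ?_
  rw [lintegral_const_mul _ (measurable_one.indicator (hUm j)), lintegral_indicator_one (hUm j),
    Measure.restrict_apply (hUm j), mul_assoc, ← div_eq_mul_inv]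
  refine mul_le_mul_right ?_ _
  refine le_iSup_of_le c ?_
  refine le_iSup_of_le r ?_
  exact le_iSup_of_le hp (le_refl (volume (U j ∩ ball c r) / volume (ball c r)))

/-- Almost every line carries a variation of at least twice the central value. -/
theorem ae_two_le_variation {f : Eu (n + 1) → ℝ} (hf : Measurable f) (hbd : BlockDec f)
    (hfin : ∀ ε : ℝ, 0 < ε → volume {x | ε < f x} ≠ ⊤) (i : Fin (n + 1)) :
    ∀ᵐ y : Fin n → ℝ, 2 * ENNReal.ofReal (f (onLine i y 0))
      ≤ eVariationOn (fun t => f (onLine i y t)) univ := by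
  have hline : ∀ (y : Fin n → ℝ) (s t : ℝ), |s| ≤ |t| → f (onLine i y t) ≤ f (onLine i y s) :=
    fun y s t h => hbd _ _ fun j => Fin.succAboveCases i (by simpa [onLine] using h)
      (fun l => by simp [onLine]) j
  have hnull : ∀ m : ℕ, volume {y | ∀ T : ℕ, 1 / ((m : ℝ) + 1) < f (onLine i y T)} = 0 := by
    intro m
    set B := {y | ∀ T : ℕ, 1 / ((m : ℝ) + 1) < f (onLine i y T)} with hB
    have hBm : MeasurableSet B := by
      rw [hB, ofPred_forall]
      exact MeasurableSet.iInter fun T => measurableSet_lt measurable_const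
        (hf.comp (continuous_onLine_left i _).measurable)
    by_contra hne
    refine hfin (1 / ((m : ℝ) + 1)) (by positivity) (top_le_iff.1 ?_)
    calc (⊤ : ℝ≥0∞) = ⊤ * volume B := (ENNReal.top_mul hne).symm
      _ = ∫⁻ y, B.indicator (fun _ => ⊤) y := by rw [lintegral_indicator_const hBm]
      _ ≤ ∫⁻ y, volume {t | onLine i y t ∈ {x | 1 / ((m : ℝ) + 1) < f x}} := by
          refine lintegral_mono fun y => ?_
          by_cases hy : y ∈ B
          · rw [indicator_of_mem hy]
            refine le_of_eq ?_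
            rw [show {t | onLine i y t ∈ {x | 1 / ((m : ℝ) + 1) < f x}} = univ from
              eq_univ_of_forall fun t => (hy ⌈|t|⌉₊).trans_le (hline y _ _ (by
                rw [abs_of_nonneg (Nat.cast_nonneg' (α := ℝ) ⌈|t|⌉₊)]; exact Nat.le_ceil _))]
            simp
          · simp [indicator_of_notMem hy]
      _ = _ := (volume_eq_lintegral i (measurableSet_lt measurable_const hf)).symm
  filter_upwards [ae_all_iff.2 fun m => measure_eq_zero_iff_ae_notMem.1 (hnull m)] with y hy
  refine ENNReal.le_of_forall_pos_le_add fun ε hε _ => ?_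
  obtain ⟨m, hm⟩ := exists_nat_one_div_lt (show (0 : ℝ) < ε / 2 by positivity)
  obtain ⟨T, hT⟩ : ∃ T : ℕ, f (onLine i y T) ≤ 1 / ((m : ℝ) + 1) := by
    simpa [mem_ofPred_eq, not_forall, not_lt] using hy m
  let u : ℕ → ℝ := fun k => if k = 0 then -(T : ℝ) else if k = 1 then 0 else T
  have hu : Monotone u := monotone_nat_of_le_succ fun k => by
    rcases k with _ | _ | k <;> simp [u]
  have hs := eVariationOn.sum_le (f := fun t => f (onLine i y t)) (s := univ) (n := 2) hu
    (fun _ => mem_univ _)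
  simp only [Finset.sum_range_succ, Finset.sum_range_zero, zero_add, u, if_true,
    one_ne_zero, OfNat.ofNat_ne_zero, OfNat.ofNat_ne_one, if_false, Nat.reduceAdd,
    edist_dist, Real.dist_eq] at hs
  have hsym : f (onLine i y (-(T : ℝ))) = f (onLine i y T) :=
    le_antisymm (hline y _ _ (by simp)) (hline y _ _ (by simp))
  rw [hsym, abs_sub_comm (f (onLine i y T)) (f (onLine i y 0)), ← two_mul] at hs
  refine le_trans ?_ (add_le_add hs le_rfl)
  rw [show (2 : ℝ≥0∞) = ENNReal.ofReal 2 by simp, ← ENNReal.ofReal_mul two_pos.le,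
    ← ENNReal.ofReal_mul two_pos.le, ← ENNReal.ofReal_coe_nnreal,
    ← ENNReal.ofReal_add (mul_nonneg two_pos.le (abs_nonneg _)) ε.coe_nonneg]
  refine ENNReal.ofReal_le_ofReal ?_
  linarith [le_abs_self (f (onLine i y 0) - f (onLine i y T))]

/-- A measurable bound for the maximal averages at the centres of the lines along one axis. -/
theorem exists_centre_bound (hP : Admissible P) {f : Eu (n + 1) → ℝ}
    (hf : Measurable f) (h0 : ∀ x, 0 ≤ f x) (hbd : BlockDec f)
    (hfin : ∀ ε : ℝ, 0 < ε → volume {x | ε < f x} ≠ ⊤) (i : Fin (n + 1)) :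
    ∃ H : (Fin n → ℝ) → ℝ≥0∞, Measurable H ∧ (∀ y, maxF P f (onLine i y 0) ≤ H y) ∧
      ∫⁻ y, H y ≤ 2 * lineConst n * 8 ^ n * axialVariation f := by
  set V := axialVariation f with hV
  set U : ℤ → Set (Eu (n + 1)) := fun j => {z | (2 : ℝ) ^ j < f z} with hUdef
  have hUm : ∀ j, MeasurableSet (U j) := fun j => measurableSet_lt measurable_const hf
  have hUb : ∀ j, BlockSet (U j) := fun j x z h (hz : (2 : ℝ) ^ j < f z) =>
    hz.trans_le (hbd x z h)
  have hUf : ∀ j, volume (U j) ≠ ⊤ := fun j => hfin _ (zpow_pos two_pos j)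
  have hslice : ∀ (l : Fin (n + 1)) (j : ℤ), MeasurableSet {y | onLine l y 0 ∈ U j} := fun l j =>
    (hUm j).preimage (continuous_onLine_left l 0).measurable
  have hlev : ∀ l, ∑' j : ℤ, ENNReal.ofReal (2 ^ (j + 1)) * volume {y | onLine l y 0 ∈ U j}
      ≤ 2 * ∫⁻ y, eVariationOn (fun t => f (onLine l y t)) univ := by
    intro l
    rw [← lintegral_const_mul' _ _ ENNReal.ofNat_ne_top]
    calc ∑' j : ℤ, ENNReal.ofReal (2 ^ (j + 1)) * volume {y | onLine l y 0 ∈ U j}
        = ∫⁻ y, ∑' j : ℤ, ENNReal.ofReal (2 ^ (j + 1))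
            * {y | onLine l y 0 ∈ U j}.indicator 1 y := by
          rw [lintegral_tsum fun j =>
            ((measurable_one.indicator (hslice l j)).const_mul _).aemeasurable]
          exact tsum_congr fun j => by
            rw [lintegral_const_mul _ (measurable_one.indicator (hslice l j)),
              lintegral_indicator_one (hslice l j)]
      _ ≤ _ := by
          refine lintegral_mono_ae ?_
          filter_upwards [ae_two_le_variation hf hbd hfin l] with y hy
          refine le_trans (le_trans (le_of_eq ?_) (tsum_levels_le (f (onLine l y 0)))) ?_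
          · refine tsum_congr fun j => ?_
            simp only [indicator_apply, mem_ofPred_eq, U, Pi.one_apply, mul_ite, mul_one, mul_zero]
          · rw [ENNReal.ofReal_mul (by norm_num), ENNReal.ofReal_ofNat]
            calc (4 : ℝ≥0∞) * ENNReal.ofReal (f (onLine l y 0))
                = 2 * (2 * ENNReal.ofReal (f (onLine l y 0))) := by ring
              _ ≤ _ := mul_le_mul_right hy _
  choose G hGm hGle hGint using fun j => exists_line_bound_block hP (hUb j) (hUf j) i
  set H : (Fin n → ℝ) → ℝ≥0∞ := fun y => ∑' j : ℤ, ENNReal.ofReal (2 ^ (j + 1)) * G j y with hH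
  have hHm : Measurable H := Measurable.tsum fun j => (hGm j).const_mul _
  have hint : ∫⁻ y, H y ≤ 2 * lineConst n * 8 ^ n * V := by
    rw [hH, lintegral_tsum fun j => ((hGm j).const_mul _).aemeasurable]
    simp only [lintegral_const_mul _ (hGm _)]
    calc ∑' j : ℤ, ENNReal.ofReal (2 ^ (j + 1)) * ∫⁻ y, G j y
        ≤ ∑' j : ℤ, lineConst n * 8 ^ n
            * ∑ l, ENNReal.ofReal (2 ^ (j + 1)) * volume {y | onLine l y 0 ∈ U j} := by
          refine ENNReal.tsum_le_tsum fun j => (mul_le_mul_right (hGint j) _).trans (le_of_eq ?_)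
          rw [← Finset.mul_sum]; ring
      _ ≤ lineConst n * 8 ^ n
            * ∑ l, 2 * ∫⁻ y, eVariationOn (fun t => f (onLine l y t)) univ := by
          rw [ENNReal.tsum_mul_left, Summable.tsum_finsetSum fun _ _ => ENNReal.summable]
          exact mul_le_mul_right (Finset.sum_le_sum fun l _ => hlev l) _
      _ = _ := by rw [← Finset.mul_sum, hV, axialVariation]; ring
  exact ⟨H, hHm, fun y => (maxF_le_levels hf h0 _).trans
    (ENNReal.tsum_le_tsum fun j => mul_le_mul_right (hGle j y 0) _), hint⟩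

/-- The main estimate for one admissible family of balls. -/
theorem axialVariation_maxF_le (hP : Admissible P) (hP' : LineMono P) {f : Eu (n + 1) → ℝ}
    (hf : Measurable f) (h0 : ∀ x, 0 ≤ f x) (hbd : BlockDec f)
    (hfin : ∀ ε : ℝ, 0 < ε → volume {x | ε < f x} ≠ ⊤) :
    axialVariation (fun x => (maxF P f x).toReal)
      ≤ ((n + 1) * (4 * lineConst n * 8 ^ n) + 1) * axialVariation f := by
  set V := axialVariation f with hV
  rcases eq_or_ne V ⊤ with hT | hT
  · rw [hT, ENNReal.mul_top (by simp)]; exact le_top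
  have hline : ∀ i, ∫⁻ y, eVariationOn (fun t => (maxF P f (onLine i y t)).toReal) univ
      ≤ 4 * lineConst n * 8 ^ n * V := by
    intro i
    obtain ⟨H, hHm, hHle, hint⟩ := exists_centre_bound hP hf h0 hbd hfin i
    have hfinH : ∫⁻ y, H y ≠ ⊤ := ne_top_of_le_ne_top (ENNReal.mul_ne_top (ENNReal.mul_ne_top
      (ENNReal.mul_ne_top ENNReal.ofNat_ne_top (lineConst_ne_top n))
      (ENNReal.pow_ne_top ENNReal.ofNat_ne_top)) hT) hint
    calc ∫⁻ y, eVariationOn (fun t => (maxF P f (onLine i y t)).toReal) univ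
        ≤ ∫⁻ y, 2 * H y := by
          refine lintegral_mono_ae ?_
          filter_upwards [ae_lt_top hHm hfinH] with y hy
          have hle : maxF P f (onLine i y 0) ≤ H y := hHle y
          exact (variation_maxF_le hP' hbd h0 i y (ne_top_of_le_ne_top hy.ne hle)).trans
            (mul_le_mul_right hle _)
      _ = 2 * ∫⁻ y, H y := lintegral_const_mul _ hHm
      _ ≤ 2 * (2 * lineConst n * 8 ^ n * V) := mul_le_mul_right hint _
      _ = _ := by ring
  refine (Finset.sum_le_sum fun i _ => hline i).trans ?_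
  rw [Finset.sum_const, Finset.card_univ, Fintype.card_fin, nsmul_eq_mul, Nat.cast_succ]
  exact le_of_le_of_eq (le_self_add (b := V)) (by ring)

end

end Vale.Agent.P137
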