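import Mathlib
import Vale.Agent.P137.Dyadic

/-!
# P137: block-decreasing functions are continuous along almost every line
-/

namespace Vale.Agent.P137

open MeasureTheory Set Metric Filter
open scoped ENNReal NNReal Topology Pointwise

noncomputable section

variable {n : ℕ}

/-- Frontiers of sets invariant under shrinking coordinates are null. -/
theorem null_frontier_block {W : Set (Fin n → ℝ)}
    (hW : ∀ x z : Fin n → ℝ, (∀ l, |x l| ≤ |z l|) → z ∈ W → x ∈ W) :
    volume (frontier W) = 0 := by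
  set F := frontier W ∩ {y | ∀ l, y l ≠ 0} with hF
  have key : ∀ y ∈ F, ∀ a : ℝ, 0 ≤ a → a < 1 → a • y ∈ interior W := by
    intro y hy a ha0 ha1
    have hy' : ∀ l, y l ≠ 0 := hy.2
    refine mem_interior.2 ⟨{z | ∀ l, |z l| < |y l|}, fun z hz => ?_, ?_, fun l => ?_⟩
    · have hopen : IsOpen {u : Fin n → ℝ | ∀ l, |z l| < |u l|} := by
        rw [ofPred_forall]
        exact isOpen_iInter_of_finite fun l =>
          isOpen_lt continuous_const (continuous_apply l).abs
      obtain ⟨u, hu, huW⟩ := mem_closure_iff.1 (frontier_subset_closure hy.1) _ hopen hz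
      exact hW z u (fun l => (hu l).le) huW
    · rw [ofPred_forall]
      exact isOpen_iInter_of_finite fun l => isOpen_lt (continuous_apply l).abs continuous_const
    · have := abs_pos.2 (hy' l)
      rw [Pi.smul_apply, smul_eq_mul, abs_mul, abs_of_nonneg ha0]
      nlinarith
  have hFm : MeasurableSet F := isClosed_frontier.measurableSet.inter (by
    rw [ofPred_forall]
    exact (isOpen_iInter_of_finite fun l => isOpen_ne_fun (continuous_apply l)
      continuous_const).measurableSet)
  have hball : ∀ R : ℕ, volume (F ∩ closedBall 0 R) = 0 := by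
    intro R
    set G := F ∩ closedBall (0 : Fin n → ℝ) R with hG
    have hGm : MeasurableSet G := hFm.inter isClosed_closedBall.measurableSet
    by_contra hne
    let s : ℕ → ℝ := fun m => 1 + 1 / ((m : ℝ) + 1)
    have hs1 : ∀ m, 1 ≤ s m := fun m => le_add_of_nonneg_right (by positivity)
    have hs2 : ∀ m, s m ≤ 2 := fun m => by
      have : 1 / ((m : ℝ) + 1) ≤ 1 := by
        rw [div_le_one (by positivity)]; linarith [Nat.cast_nonneg (α := ℝ) m]
      simp only [s]; linarith
    have hsinj : Function.Injective s := fun a b h => by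
      simp only [s, add_right_inj, one_div, inv_inj, add_left_inj, Nat.cast_inj] at h
      exact h
    have hsub : ∀ m, s m • G ⊆ closedBall (0 : Fin n → ℝ) (2 * R) := fun m => by
      rintro _ ⟨y, hy, rfl⟩
      rw [mem_closedBall_zero_iff, norm_smul, Real.norm_of_nonneg (by linarith [hs1 m])]
      exact mul_le_mul (hs2 m) (mem_closedBall_zero_iff.1 hy.2) (norm_nonneg _) (by norm_num)
    have hdisj : ∀ a b : ℕ, s a < s b → Disjoint (s a • G) (s b • G) := by
      intro a b hab
      refine disjoint_left.2 ?_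
      rintro _ ⟨u, hu, rfl⟩ ⟨v, hv, he⟩
      have ha := hs1 a
      have hb := hs1 b
      have hv' : v = (s a / s b) • u := by
        rw [div_eq_inv_mul, mul_smul, ← show s b • v = s a • u from he, inv_smul_smul₀ (by linarith)]
      refine disjoint_interior_frontier.le_bot ⟨?_, hv.1.1⟩
      rw [hv']
      exact key u hu.1 _ (div_nonneg (by linarith) (by linarith))
        ((div_lt_one (by linarith)).2 hab)
    have hfin : {m | volume G ≤ volume (s m • G)}.Finite := by
      refine Measure.finite_const_le_meas_of_disjoint_iUnion volume (pos_iff_ne_zero.2 hne)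
        (fun m => hGm.const_smul₀ (s m)) (fun a b hab => ?_)
        (ne_top_of_le_ne_top (isCompact_closedBall (0 : Fin n → ℝ) (2 * R)).measure_lt_top.ne
          (measure_mono (iUnion_subset hsub)))
      rcases lt_or_gt_of_ne (hsinj.ne hab) with h | h
      exacts [hdisj a b h, (hdisj b a h).symm]
    refine infinite_univ (hfin.subset fun m _ => ?_)
    show volume G ≤ volume (s m • G)
    rw [Measure.addHaar_smul_of_nonneg volume (by linarith [hs1 m]) G]
    exact le_mul_of_one_le_left zero_le (ENNReal.one_le_ofReal.2 (one_le_pow₀ (hs1 m)))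
  refine measure_mono_null (t := (⋃ R : ℕ, F ∩ closedBall 0 R) ∪ ⋃ l, {y | y l = 0})
    (fun y hy => ?_) (measure_union_null (measure_iUnion_null hball)
      (measure_iUnion_null fun l => by rw [volume_pi]; exact Measure.pi_hyperplane (fun _ => (volume : Measure ℝ)) l (0 : ℝ)))
  by_cases h : ∃ l, y l = 0
  · exact Or.inr (mem_iUnion.2 h)
  · push Not at h
    obtain ⟨R, hR⟩ := exists_nat_ge ‖y‖
    exact Or.inl (mem_iUnion.2 ⟨R, ⟨hy, h⟩, mem_closedBall_zero_iff.2 hR⟩)

/-- A block-decreasing function that is continuous along almost every line is continuous at every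
point of almost every line. -/
theorem ae_continuousAt_line {f : Eu (n + 1) → ℝ} (hbd : BlockDec f) (i : Fin (n + 1))
    (hc : ∀ᵐ y : Fin n → ℝ, Continuous fun t => f (onLine i y t)) :
    ∀ᵐ y : Fin n → ℝ, ∀ t, ContinuousAt f (onLine i y t) := by
  let W : ℚ → ℚ → Set (Fin n → ℝ) := fun q c => {z | (c : ℝ) < f (onLine i z q)}
  have hW : ∀ q c, volume (frontier (W q c)) = 0 := fun q c =>
    null_frontier_block fun x z h (hz : (c : ℝ) < f (onLine i z q)) =>
      hz.trans_le (hbd _ _ fun j => Fin.succAboveCases i (by simp [onLine])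
        (fun l => by simp [onLine, h l]) j)
  filter_upwards [hc, ae_all_iff.2 fun q : ℚ => ae_all_iff.2 fun c : ℚ =>
    measure_eq_zero_iff_ae_notMem.1 (hW q c)] with y hy hfr
  intro t
  have hmono : ∀ (z : Fin n → ℝ) (s s' : ℝ), |s| ≤ |s'| → f (onLine i z s') ≤ f (onLine i z s) :=
    fun z s s' h => hbd _ _ fun j => Fin.succAboveCases i (by simpa [onLine] using h)
      (fun l => by simp [onLine]) j
  have hT : f (onLine i y |t|) = f (onLine i y t) :=
    le_antisymm (hmono y _ _ (by rw [abs_abs])) (hmono y _ _ (by rw [abs_abs]))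
  set π : Eu (n + 1) → Fin n → ℝ := fun z l => z (i.succAbove l) with hπ
  have hπc : Continuous π := continuous_pi fun l =>
    (continuous_apply _).comp (PiLp.continuous_ofLp 2 _)
  have hic : Continuous fun z : Eu (n + 1) => |z i| :=
    ((continuous_apply i).comp (PiLp.continuous_ofLp 2 _)).abs
  have hπ0 : π (onLine i y t) = y := by ext l; simp [π, onLine]
  have hi0 : (onLine i y t) i = t := by simp [onLine]
  have hrep : ∀ z : Eu (n + 1), onLine i (π z) (z i) = z := fun z => by
    ext j
    exact Fin.succAboveCases i (by simp [onLine]) (fun l => by simp [onLine, π]) j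
  rw [ContinuousAt, Metric.tendsto_nhds]
  intro η hη
  obtain ⟨δ, hδ, hδc⟩ := Metric.continuousAt_iff.1 (hy.continuousAt (x := |t|)) (η / 2) (by positivity)
  obtain ⟨q₂, hq₂, hq₂'⟩ := exists_rat_btwn (lt_add_of_pos_right |t| hδ)
  obtain ⟨q₁, hq₁0, hq₁, hq₁'⟩ : ∃ q : ℚ, 0 ≤ (q : ℝ) ∧ |(q : ℝ) - (|t|)| < δ ∧
      ((q : ℝ) = 0 ∨ (q : ℝ) < |t|) := by
    rcases (abs_nonneg t).eq_or_lt with h | h
    · exact ⟨0, by simp, by simp [← h, hδ], Or.inl (by simp)⟩
    · obtain ⟨q, hq, hq'⟩ := exists_rat_btwn (max_lt h (sub_lt_self |t| hδ))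
      have hq0 : (0 : ℝ) < q := (le_max_left _ _).trans_lt hq
      refine ⟨q, hq0.le, ?_, Or.inr hq'⟩
      rw [abs_of_nonpos (by linarith)]
      linarith [(le_max_right _ _).trans_lt hq]
  have hv₁ : f (onLine i y q₁) < f (onLine i y t) + η / 2 := by
    have := hδc (show dist (q₁ : ℝ) |t| < δ by rwa [Real.dist_eq])
    rw [Real.dist_eq, hT] at this
    linarith [le_abs_self (f (onLine i y q₁) - f (onLine i y t))]
  have hv₂ : f (onLine i y t) - η / 2 < f (onLine i y q₂) := by
    have := hδc (show dist (q₂ : ℝ) |t| < δ by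
      rw [Real.dist_eq, abs_of_nonneg (by linarith)]; linarith)
    rw [Real.dist_eq, hT] at this
    linarith [neg_abs_le (f (onLine i y q₂) - f (onLine i y t))]
  obtain ⟨c₁, hc₁, hc₁'⟩ := exists_rat_btwn hv₁
  obtain ⟨c₂, hc₂, hc₂'⟩ := exists_rat_btwn hv₂
  have e1 : ∀ᶠ z in 𝓝 (onLine i y t), π z ∉ W q₁ c₁ := by
    have h1 : y ∉ closure (W q₁ c₁) := by
      rw [closure_eq_interior_union_frontier]
      rintro (h | h)
      · have hm : y ∈ W q₁ c₁ := interior_subset h
        have hm' : (c₁ : ℝ) < f (onLine i y q₁) := hm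
        linarith
      · exact hfr q₁ c₁ h
    filter_upwards [hπc.continuousAt.preimage_mem_nhds
      (isClosed_closure.isOpen_compl.mem_nhds (by rw [hπ0]; exact h1))] with z hz
    exact fun h => hz (subset_closure h)
  have e2 : ∀ᶠ z in 𝓝 (onLine i y t), π z ∈ W q₂ c₂ := by
    have h2 : y ∈ interior (W q₂ c₂) := by
      by_contra h
      exact hfr q₂ c₂ ⟨subset_closure hc₂', h⟩
    filter_upwards [hπc.continuousAt.preimage_mem_nhds
      (isOpen_interior.mem_nhds (by rw [hπ0]; exact h2))] with z hz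
    exact interior_subset hz
  have e3 : ∀ᶠ z in 𝓝 (onLine i y t), |z i| < (q₂ : ℝ) :=
    hic.continuousAt.preimage_mem_nhds (Iio_mem_nhds (by rw [hi0]; exact hq₂))
  have e4 : ∀ᶠ z in 𝓝 (onLine i y t), (q₁ : ℝ) ≤ |z i| := by
    rcases hq₁' with h | h
    · exact Eventually.of_forall fun z => h ▸ abs_nonneg _
    · filter_upwards [hic.continuousAt.preimage_mem_nhds
        (Ioi_mem_nhds (show (q₁ : ℝ) < |onLine i y t i| by rw [hi0]; exact h))] with z hz
      exact le_of_lt hz
  filter_upwards [e1, e2, e3, e4] with z h1 h2 h3 h4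
  rw [Real.dist_eq, abs_lt]
  have u1 : f z ≤ f (onLine i (π z) q₁) := by
    conv_lhs => rw [← hrep z]
    exact hmono _ _ _ (by rwa [abs_of_nonneg hq₁0])
  have u2 : f (onLine i (π z) q₂) ≤ f z := by
    conv_rhs => rw [← hrep z]
    exact hmono _ _ _ (h3.le.trans (le_abs_self _))
  have h1' : f (onLine i (π z) q₁) ≤ c₁ := not_lt.1 h1
  have h2' : (c₂ : ℝ) < f (onLine i (π z) q₂) := h2
  constructor <;> linarith

/-- An average over a ball, moved to a nearby centre. -/
theorem setLIntegral_le_maxF {f : Eu (n + 1) → ℝ} (x x' : Eu (n + 1)) {r δ : ℝ} (hr : 0 < r)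
    (hd : dist x x' ≤ δ) :
    (∫⁻ z in ball x r, ‖f z‖ₑ) / volume (ball x r)
      ≤ ENNReal.ofReal ((1 + δ / r) ^ (n + 1)) * maxF (fun x c r => 0 < r ∧ c = x) f x' := by
  have hδ : 0 ≤ δ := dist_nonneg.trans hd
  have hrδ : 0 < r + δ := by positivity
  have hvol : volume (ball x' (r + δ)) = ENNReal.ofReal ((1 + δ / r) ^ (n + 1)) * volume (ball x r) := by
    rw [Measure.addHaar_ball_of_pos volume x' hrδ, Measure.addHaar_ball_of_pos volume x hr,
      finrank_euclideanSpace_fin, ← mul_assoc, ← ENNReal.ofReal_mul (by positivity), ← mul_pow]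
    congr 3
    field_simp
  refine ENNReal.div_le_of_le_mul ?_
  calc ∫⁻ z in ball x r, ‖f z‖ₑ ≤ ∫⁻ z in ball x' (r + δ), ‖f z‖ₑ :=
        lintegral_mono_set (ball_subset_ball' (by linarith))
    _ = (∫⁻ z in ball x' (r + δ), ‖f z‖ₑ) / volume (ball x' (r + δ))
          * volume (ball x' (r + δ)) :=
        (ENNReal.div_mul_cancel (measure_ball_pos volume _ hrδ).ne' measure_ball_lt_top.ne).symm
    _ ≤ maxF (fun x c r => 0 < r ∧ c = x) f x' * volume (ball x' (r + δ)) := by
        refine mul_le_mul_left ?_ _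
        refine le_iSup_of_le x' ?_
        refine le_iSup_of_le (r + δ) ?_
        exact le_iSup_of_le ⟨hrδ, rfl⟩ le_rfl
    _ = _ := by rw [hvol]; ring

/-- Where the function is continuous, the centred maximal averages dominate it. -/
theorem ofReal_le_maxF {f : Eu (n + 1) → ℝ} {x : Eu (n + 1)} (hc : ContinuousAt f x) :
    ENNReal.ofReal (f x) ≤ maxF (fun x c r => 0 < r ∧ c = x) f x := by
  refine ENNReal.le_of_forall_pos_le_add fun ε hε _ => ?_
  obtain ⟨r, hr, hrf⟩ := Metric.continuousAt_iff.1 hc ε (NNReal.coe_pos.2 hε)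
  have hlow : ∀ z ∈ ball x r, ENNReal.ofReal (f x) ≤ ‖f z‖ₑ + ε := fun z hz => by
    rw [Real.enorm_eq_ofReal_abs, ← ENNReal.ofReal_coe_nnreal,
      ← ENNReal.ofReal_add (abs_nonneg _) ε.coe_nonneg]
    refine ENNReal.ofReal_le_ofReal ?_
    have := hrf (mem_ball.1 hz)
    rw [Real.dist_eq] at this
    linarith [neg_abs_le (f z - f x), le_abs_self (f z)]
  have h1 : ENNReal.ofReal (f x) * volume (ball x r)
      ≤ (maxF (fun x c r => 0 < r ∧ c = x) f x + ε) * volume (ball x r) := by
    calc ENNReal.ofReal (f x) * volume (ball x r)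
        = ∫⁻ _ in ball x r, ENNReal.ofReal (f x) := (setLIntegral_const _ _).symm
      _ ≤ ∫⁻ z in ball x r, (‖f z‖ₑ + ε) := setLIntegral_mono' measurableSet_ball hlow
      _ = (∫⁻ z in ball x r, ‖f z‖ₑ) + ε * volume (ball x r) := by
          rw [lintegral_add_right _ measurable_const, setLIntegral_const]
      _ ≤ _ := by
          rw [add_mul]
          refine add_le_add ?_ le_rfl
          rw [← ENNReal.div_le_iff (measure_ball_pos volume _ hr).ne' measure_ball_lt_top.ne]
          exact le_iSup_of_le x (le_iSup_of_le r (le_iSup_of_le ⟨hr, rfl⟩ le_rfl))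
  exact (ENNReal.mul_le_mul_iff_left (measure_ball_pos volume _ hr).ne' measure_ball_lt_top.ne).1 h1

theorem one_add_pow_le (k : ℕ) {u : ℝ} (h0 : 0 ≤ u) (h1 : u ≤ 1) :
    (1 + u) ^ k ≤ 1 + 3 ^ k * u := by
  induction k with
  | zero => simpa using h0
  | succ k ih =>
    rw [pow_succ, pow_succ]
    have h3 : (1 : ℝ) ≤ 3 ^ k := one_le_pow₀ (by norm_num)
    have := mul_le_mul_of_nonneg_right ih (by linarith : (0 : ℝ) ≤ 1 + u)
    nlinarith [mul_le_mul_of_nonneg_left h1 (mul_nonneg (zero_le_one.trans h3) h0)]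

/-- Away from the contact set the centred maximal function is Lipschitz along a line. -/
theorem lipschitz_off_contact {f : Eu (n + 1) → ℝ} (h0 : ∀ x, 0 ≤ f x) (i : Fin (n + 1))
    (y : Fin n → ℝ) (hc : ∀ t, ContinuousAt f (onLine i y t)) {G : ℝ}
    (hG : ∀ t, maxF (fun x c r => 0 < r ∧ c = x) f (onLine i y t) ≤ ENNReal.ofReal G) (hG0 : 0 ≤ G)
    (a b : ℝ) {η : ℝ} (hη : 0 < η) :
    ∃ L, 0 ≤ L ∧ ∀ t ∈ Icc a b, ∀ t' ∈ Icc a b,
      f (onLine i y t) + η ≤ (maxF (fun x c r => 0 < r ∧ c = x) f (onLine i y t)).toReal →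
      (maxF (fun x c r => 0 < r ∧ c = x) f (onLine i y t)).toReal
        - (maxF (fun x c r => 0 < r ∧ c = x) f (onLine i y t')).toReal ≤ L * |t - t'| := by
  set P : Eu (n + 1) → Eu (n + 1) → ℝ → Prop := fun x c r => 0 < r ∧ c = x
  have hcont : Continuous fun t => onLine i y t :=
    (PiLp.continuous_toLp 2 _).comp ((continuous_id (X := ℝ)).finInsertNth i (continuous_const (y := y)))
  have hK : IsCompact ((fun t => onLine i y t) '' Icc a b) := isCompact_Icc.image hcont
  obtain ⟨r₀, hr₀, hr₀f⟩ := Metric.mem_uniformity_dist.1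
    (hK.uniformContinuousAt_of_continuousAt f (by rintro _ ⟨t, -, rfl⟩; exact hc t)
      (Metric.dist_mem_uniformity (half_pos hη)))
  refine ⟨3 ^ (n + 1) * G / r₀, by positivity, fun t ht t' _ he => ?_⟩
  set gt := (maxF P f (onLine i y t)).toReal
  set gt' := (maxF P f (onLine i y t')).toReal
  have hfin : ∀ s, maxF P f (onLine i y s) ≠ ⊤ := fun s =>
    ne_top_of_le_ne_top ENNReal.ofReal_ne_top (hG s)
  have hgt : gt ≤ G := ENNReal.toReal_le_of_le_ofReal hG0 (hG t)
  have hgt' : gt' ≤ G := ENNReal.toReal_le_of_le_ofReal hG0 (hG t')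
  have hdist : dist (onLine i y t) (onLine i y t') = |t - t'| := by
    refine (pow_left_inj₀ dist_nonneg (abs_nonneg _) two_ne_zero).1 ?_
    rw [dist_sq_succAbove i]
    simp [onLine, sq_abs]
  set d := |t - t'| with hd
  have hd0 : 0 ≤ d := abs_nonneg _
  set M := max (f (onLine i y t) + η / 2) ((1 + d / r₀) ^ (n + 1) * gt') with hM
  have hle : maxF P f (onLine i y t) ≤ ENNReal.ofReal M := by
    refine iSup_le fun c => iSup_le fun r => iSup_le fun ⟨hr, hcx⟩ => ?_
    subst hcx
    rcases lt_or_ge r r₀ with h | h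
    · refine ENNReal.div_le_of_le_mul ?_
      rw [← setLIntegral_const]
      refine setLIntegral_mono' measurableSet_ball fun z hz => ?_
      rw [Real.enorm_eq_ofReal (h0 z)]
      refine ENNReal.ofReal_le_ofReal (le_trans ?_ (le_max_left _ _))
      have hzd : dist (onLine i y t) z < r₀ := by rw [dist_comm]; exact (mem_ball.1 hz).trans h
      have := hr₀f hzd (mem_image_of_mem _ ht)
      change dist _ _ < η / 2 at this
      rw [Real.dist_eq] at this
      linarith [neg_abs_le (f (onLine i y t) - f z)]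
    · refine (setLIntegral_le_maxF _ _ hr hdist.le).trans ?_
      rw [← ENNReal.ofReal_toReal (hfin t'), ← ENNReal.ofReal_mul (by positivity)]
      refine ENNReal.ofReal_le_ofReal (le_trans ?_ (le_max_right _ _))
      gcongr
  have hgM : gt ≤ M := ENNReal.toReal_le_of_le_ofReal
    ((by positivity : (0 : ℝ) ≤ (1 + d / r₀) ^ (n + 1) * gt').trans (le_max_right _ _)) hle
  have hgM' : gt ≤ (1 + d / r₀) ^ (n + 1) * gt' := by
    rcases max_choice (f (onLine i y t) + η / 2) ((1 + d / r₀) ^ (n + 1) * gt') with h | h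
    · rw [hM, h] at hgM; linarith
    · rwa [hM, h] at hgM
  rcases le_total d r₀ with h | h
  · have hpow := one_add_pow_le (n + 1) (div_nonneg hd0 hr₀.le) ((div_le_one hr₀).2 h)
    have h1 := mul_le_mul_of_nonneg_right hpow (ENNReal.toReal_nonneg : 0 ≤ gt')
    have h2 : 3 ^ (n + 1) * (d / r₀) * gt' ≤ 3 ^ (n + 1) * (d / r₀) * G :=
      mul_le_mul_of_nonneg_left hgt' (by positivity)
    calc gt - gt' ≤ 3 ^ (n + 1) * (d / r₀) * G := by linarith
      _ = _ := by ring
  · have h3 : (1 : ℝ) ≤ 3 ^ (n + 1) := one_le_pow₀ (by norm_num)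
    calc gt - gt' ≤ 1 * G * 1 := by
          linarith [(ENNReal.toReal_nonneg : 0 ≤ gt')]
      _ ≤ 3 ^ (n + 1) * G * (d / r₀) :=
          mul_le_mul (mul_le_mul_of_nonneg_right h3 hG0) ((one_le_div hr₀).2 h) zero_le_one
            (by positivity)
      _ = _ := by ring

end

end Vale.Agent.P137
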