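import Vale.Agent.P137.Basic
import Mathlib.MeasureTheory.Covering.Besicovitch
import Mathlib.MeasureTheory.Covering.BesicovitchVectorSpace
import Mathlib.MeasureTheory.Covering.DensityTheorem

/-!
# P137: densities of a set in balls, and the centred maximal function of its indicator
-/

namespace Vale.Agent.P137

open MeasureTheory Set Metric Filter
open scoped ENNReal NNReal Topology

noncomputable section

variable {d : ℕ}

/-- The density of `E` in `B(x, r)`. -/
def dens (E : Set (Eu d)) (x : Eu d) (r : ℝ) : ℝ :=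
  volume.real (E ∩ ball x r) / volume.real (ball x r)

theorem ball_real (x : Eu d) {r : ℝ} (hr : 0 < r) :
    volume.real (ball x r) = r ^ d * volume.real (ball (0 : Eu d) 1) := by
  rw [measureReal_def, measureReal_def, Measure.addHaar_ball_of_pos volume x hr, ENNReal.toReal_mul,
    ENNReal.toReal_ofReal (by positivity), finrank_euclideanSpace_fin]

theorem unit_ball_pos (d : ℕ) : 0 < volume.real (ball (0 : Eu d) 1) :=
  ENNReal.toReal_pos (measure_ball_pos volume 0 one_pos).ne' measure_ball_lt_top.ne

theorem ball_real_pos (x : Eu d) {r : ℝ} (hr : 0 < r) : 0 < volume.real (ball x r) := by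
  rw [ball_real x hr]
  exact mul_pos (pow_pos hr d) (unit_ball_pos d)

theorem inter_real_le (E : Set (Eu d)) {x y : Eu d} {r s : ℝ} (h : ball x r ⊆ ball y s) :
    volume.real (E ∩ ball x r) ≤ volume.real (E ∩ ball y s) :=
  measureReal_mono (inter_subset_inter_right _ h)
    (ne_top_of_le_ne_top measure_ball_lt_top.ne (measure_mono inter_subset_right))

theorem dens_nonneg (E : Set (Eu d)) (x : Eu d) (r : ℝ) : 0 ≤ dens E x r :=
  div_nonneg measureReal_nonneg measureReal_nonneg

theorem dens_le_one (E : Set (Eu d)) (x : Eu d) (r : ℝ) : dens E x r ≤ 1 :=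
  div_le_one_of_le₀ (measureReal_mono inter_subset_right measure_ball_lt_top.ne) measureReal_nonneg

/-- A larger ball sees at least the scaled density. -/
theorem dens_scale (E : Set (Eu d)) {x y : Eu d} {r s : ℝ} (hr : 0 < r) (hs : 0 < s)
    (h : ball x r ⊆ ball y s) : dens E x r * (r / s) ^ d ≤ dens E y s := by
  have hp := unit_ball_pos d
  rw [dens, dens, ball_real x hr, ball_real y hs, div_pow]
  rw [show volume.real (E ∩ ball x r) / (r ^ d * volume.real (ball (0 : Eu d) 1)) * (r ^ d / s ^ d)
    = volume.real (E ∩ ball x r) / (s ^ d * volume.real (ball (0 : Eu d) 1)) by field_simp]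
  exact div_le_div_of_nonneg_right (inter_real_le E h) (by positivity)

theorem dens_compl (E : Set (Eu d)) (hE : MeasurableSet E) (x : Eu d) {r : ℝ} (hr : 0 < r) :
    dens Eᶜ x r = 1 - dens E x r := by
  have hp := ball_real_pos x hr
  have h := measureReal_inter_add_sdiff (μ := volume) (s := ball x r) hE measure_ball_lt_top.ne
  rw [dens, dens, eq_sub_iff_add_eq, ← add_div, div_eq_one_iff_eq hp.ne', inter_comm,
    inter_comm E, add_comm, ← sdiff_eq]
  exact h

theorem indicator_lintegral (E : Set (Eu d)) (hE : MeasurableSet E) (x : Eu d) (r : ℝ) :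
    ∫⁻ y in ball x r, ‖E.indicator (1 : Eu d → ℝ) y‖ₑ = volume (E ∩ ball x r) := by
  have e : (fun y => ‖E.indicator (1 : Eu d → ℝ) y‖ₑ) = E.indicator (1 : Eu d → ℝ≥0∞) := by
    funext y
    by_cases hy : y ∈ E <;> simp [hy]
  rw [e, lintegral_indicator_one hE, Measure.restrict_apply hE]

theorem ofReal_dens (E : Set (Eu d)) (x : Eu d) {r : ℝ} (hr : 0 < r) :
    ENNReal.ofReal (dens E x r) = volume (E ∩ ball x r) / volume (ball x r) := by
  rw [dens, ENNReal.ofReal_div_of_pos (ball_real_pos x hr), measureReal_def, measureReal_def,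
    ENNReal.ofReal_toReal (ne_top_of_le_ne_top measure_ball_lt_top.ne
      (measure_mono inter_subset_right)), ENNReal.ofReal_toReal measure_ball_lt_top.ne]

theorem centredMax_indicator (E : Set (Eu d)) (hE : MeasurableSet E) (x : Eu d) :
    centredMax (E.indicator (1 : Eu d → ℝ)) x
      = (⨆ (r : ℝ) (_ : 0 < r), ENNReal.ofReal (dens E x r)).toReal := by
  refine congrArg ENNReal.toReal (iSup_congr fun r => iSup_congr fun hr => ?_)
  rw [indicator_lintegral E hE, ofReal_dens E x hr]

theorem sup_dens_le_one (E : Set (Eu d)) (x : Eu d) :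
    (⨆ (r : ℝ) (_ : 0 < r), ENNReal.ofReal (dens E x r)) ≤ 1 :=
  iSup₂_le fun r _ => by simpa using ENNReal.ofReal_le_ofReal (dens_le_one E x r)

theorem dens_le_max (E : Set (Eu d)) (hE : MeasurableSet E) (x : Eu d) {r : ℝ} (hr : 0 < r) :
    dens E x r ≤ centredMax (E.indicator (1 : Eu d → ℝ)) x := by
  rw [centredMax_indicator E hE, ← ENNReal.toReal_ofReal (dens_nonneg E x r)]
  exact ENNReal.toReal_mono (ne_top_of_le_ne_top ENNReal.one_ne_top (sup_dens_le_one E x))
    (le_iSup₂_of_le r hr le_rfl)

theorem max_le_one (E : Set (Eu d)) (hE : MeasurableSet E) (x : Eu d) :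
    centredMax (E.indicator (1 : Eu d → ℝ)) x ≤ 1 := by
  rw [centredMax_indicator E hE]
  simpa using ENNReal.toReal_mono ENNReal.one_ne_top (sup_dens_le_one E x)

theorem exists_dens_gt (E : Set (Eu d)) (hE : MeasurableSet E) (x : Eu d) {c : ℝ}
    (hc : c < centredMax (E.indicator (1 : Eu d → ℝ)) x) : ∃ r, 0 < r ∧ c < dens E x r := by
  by_contra h
  push Not at h
  refine absurd hc (not_lt.2 ?_)
  rw [centredMax_indicator E hE]
  rcases le_or_gt 0 c with h0 | h0
  · exact ENNReal.toReal_le_of_le_ofReal h0 (iSup₂_le fun r hr => ENNReal.ofReal_le_ofReal (h r hr))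
  · exact absurd (h 1 one_pos) (not_le.2 (h0.trans_le (dens_nonneg E x 1)))

/-- Almost every point of a measurable set has maximal function one. -/
theorem ae_max_eq_one (E : Set (Eu d)) (hE : MeasurableSet E) :
    ∀ᵐ x : Eu d, x ∈ E → centredMax (E.indicator (1 : Eu d → ℝ)) x = 1 := by
  refine (Besicovitch.ae_tendsto_measure_inter_div_of_measurableSet volume hE).mono fun x hx hxE => ?_
  rw [indicator_of_mem hxE, Pi.one_apply] at hx
  refine le_antisymm (max_le_one E hE x) ?_
  have h2 : Tendsto (fun r => volume.real (E ∩ closedBall x r) / volume.real (closedBall x r))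
      (𝓝[>] 0) (𝓝 1) := by
    have := (ENNReal.tendsto_toReal ENNReal.one_ne_top).comp hx
    simpa [measureReal_def, ENNReal.toReal_div, Function.comp_def] using this
  refine le_of_tendsto h2 ?_
  filter_upwards [self_mem_nhdsWithin] with r hr
  refine le_trans (le_of_eq ?_) (dens_le_max E hE x hr)
  have hs : sphere x r =ᵐ[volume] (∅ : Set (Eu d)) :=
    ae_eq_empty.2 (Measure.addHaar_sphere_of_ne_zero volume x (ne_of_gt hr))
  have hb : closedBall x r =ᵐ[volume] ball x r := by
    have := (ae_eq_refl (ball x r : Set (Eu d))).union hs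
    rwa [ball_union_sphere, union_empty] at this
  rw [dens, measureReal_congr hb, measureReal_congr ((ae_eq_refl E).inter hb)]

/-- The density at a fixed radius depends measurably on the centre. -/
theorem measurable_dens (E : Set (Eu d)) (hE : MeasurableSet E) {r : ℝ} (hr : 0 < r) :
    Measurable fun x => dens E x r := by
  have hS : MeasurableSet {p : Eu d × Eu d | p.2 ∈ E ∧ dist p.2 p.1 < r} :=
    (measurable_snd hE).inter
      (isOpen_lt (continuous_snd.dist continuous_fst) continuous_const).measurableSet
  have hm := measurable_measure_prodMk_left (ν := (volume : Measure (Eu d))) hS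
  have e : (fun x => dens E x r) = fun x =>
      (volume (Prod.mk x ⁻¹' {p : Eu d × Eu d | p.2 ∈ E ∧ dist p.2 p.1 < r})).toReal
        / (r ^ d * volume.real (ball (0 : Eu d) 1)) := by
    funext x
    rw [dens, ball_real x hr, measureReal_def (μ := volume) (s := E ∩ ball x r)]
    rfl
  rw [e]
  exact hm.ennreal_toReal.div_const _

end

end Vale.Agent.P137
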