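import Vale.Agent.P137.Spread
import Mathlib.MeasureTheory.Covering.Besicovitch
import Mathlib.MeasureTheory.Covering.BesicovitchVectorSpace
import Mathlib.MeasureTheory.Covering.DensityTheorem
import Mathlib.Analysis.LocallyConvex.Separation
import Mathlib.Analysis.InnerProductSpace.Dual

/-!
# P137: sets without midpoint defect in a ball are half-spaces there
-/

namespace Vale.Agent.P137

open MeasureTheory Set Metric Filter
open scoped ENNReal NNReal Topology RealInnerProductSpace

noncomputable section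

/-- An open midpoint convex set is convex. -/
theorem convex_of_midpoint {E : Type*} [NormedAddCommGroup E] [NormedSpace ℝ E] {S : Set E}
    (ho : IsOpen S) (h : ∀ a ∈ S, ∀ b ∈ S, (2⁻¹ : ℝ) • (a + b) ∈ S) : Convex ℝ S := by
  refine convex_iff_add_mem.2 fun a ha b hb p q hp hq hpq => ?_
  obtain ⟨δ, hδ, hSa, hSb⟩ : ∃ δ > 0, ball a δ ⊆ S ∧ ball b δ ⊆ S := by
    obtain ⟨δ₁, h₁, h₁'⟩ := Metric.isOpen_iff.1 ho a ha
    obtain ⟨δ₂, h₂, h₂'⟩ := Metric.isOpen_iff.1 ho b hb
    exact ⟨min δ₁ δ₂, lt_min h₁ h₂, (ball_subset_ball (min_le_left _ _)).trans h₁',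
      (ball_subset_ball (min_le_right _ _)).trans h₂'⟩
  have key : ∀ N k : ℕ, k ≤ 2 ^ N → ∀ u : E, ‖u‖ < δ →
      a + ((k : ℝ) / 2 ^ N) • (b - a) + u ∈ S := by
    intro N
    induction N with
    | zero =>
      intro k hk u hu
      rcases Nat.le_one_iff_eq_zero_or_eq_one.1 (by simpa using hk) with rfl | rfl
      · exact hSa (by simpa [dist_eq_norm] using hu)
      · exact hSb (by simpa [dist_eq_norm] using hu)
    | succ N ih =>
      intro k hk u hu
      have hj : k / 2 ≤ 2 ^ N := by rw [pow_succ] at hk; omega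
      have hj' : (k + 1) / 2 ≤ 2 ^ N := by rw [pow_succ] at hk; omega
      have e : ((k / 2 : ℕ) : ℝ) + ((k + 1) / 2 : ℕ) = k := by
        exact_mod_cast (by omega : k / 2 + (k + 1) / 2 = k)
      have := h _ (ih _ hj u hu) _ (ih _ hj' u hu)
      convert this using 1
      rw [← e, pow_succ]
      module
  obtain ⟨N, hN⟩ : ∃ N : ℕ, ‖b - a‖ < δ * 2 ^ N := by
    obtain ⟨N, hN⟩ := pow_unbounded_of_one_lt (‖b - a‖ / δ) (one_lt_two : (1 : ℝ) < 2)
    exact ⟨N, by rwa [div_lt_iff₀ hδ, mul_comm] at hN⟩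
  have hq1 : q ≤ 1 := by linarith
  set k := ⌊q * 2 ^ N⌋₊
  have hk : k ≤ 2 ^ N := Nat.floor_le_of_le (by
    push_cast
    exact mul_le_of_le_one_left (by positivity) hq1)
  have hk1 : (k : ℝ) ≤ q * 2 ^ N := Nat.floor_le (by positivity)
  have hk2 : q * 2 ^ N < k + 1 := Nat.lt_floor_add_one _
  have := key N k hk ((q - (k : ℝ) / 2 ^ N) • (b - a)) (by
    rw [norm_smul, Real.norm_eq_abs, abs_of_nonneg (sub_nonneg.2 ((div_le_iff₀ (by positivity)).2 hk1))]
    have h₀ : (0 : ℝ) < 2 ^ N := by positivity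
    calc (q - (k : ℝ) / 2 ^ N) * ‖b - a‖ ≤ (1 / 2 ^ N) * ‖b - a‖ := by
          refine mul_le_mul_of_nonneg_right ?_ (norm_nonneg _)
          rw [sub_le_iff_le_add, ← add_div, le_div_iff₀ h₀]
          linarith
      _ < δ := by rw [one_div, inv_mul_lt_iff₀ h₀]; linarith)
  convert this using 1
  rw [show p = 1 - q by linarith]
  module

variable {n : ℕ}

/-- The points of the ball at which `A` has density one. -/
def dens1 (A : Set (Eu (n + 1))) (R : ℝ) : Set (Eu (n + 1)) :=
  {a | ‖a‖ < R ∧ ∀ ε > (0 : ℝ), ∀ᶠ r in 𝓝[>] (0 : ℝ),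
    volume.real (closedBall a r ∩ Aᶜ) ≤ ε * volume.real (closedBall (0 : Eu (n + 1)) r)}

/-- No midpoint defect for triples inside the ball. -/
def Flat (A : Set (Eu (n + 1))) (R : ℝ) : Prop :=
  (volume.prod volume) (badPairs A ∩
    {p | ‖p.1‖ < R ∧ ‖p.2‖ < R ∧ ‖p.1 - p.2‖ < R ∧ ‖p.1 + p.2‖ < R}) = 0

variable {A : Set (Eu (n + 1))} {R : ℝ}

theorem Flat.compl (h : Flat A R) : Flat Aᶜ R := by rwa [Flat, badPairs_compl]

theorem cball_real (x : Eu (n + 1)) {r : ℝ} (hr : 0 ≤ r) :
    volume.real (closedBall x r) = r ^ (n + 1) * volume.real (ball (0 : Eu (n + 1)) 1) := by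
  rw [measureReal_def, measureReal_def, Measure.addHaar_closedBall volume x hr, ENNReal.toReal_mul,
    ENNReal.toReal_ofReal (by positivity), finrank_euclideanSpace_fin]

theorem cball_real_pos (x : Eu (n + 1)) {r : ℝ} (hr : 0 < r) :
    0 < volume.real (closedBall x r) := by
  rw [cball_real x hr.le]
  exact mul_pos (pow_pos hr _)
    (ENNReal.toReal_pos (measure_ball_pos volume 0 one_pos).ne' measure_ball_lt_top.ne)

theorem cball_inter_ne_top (x : Eu (n + 1)) (r : ℝ) (X : Set (Eu (n + 1))) :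
    volume (closedBall x r ∩ X) ≠ ⊤ :=
  ne_top_of_le_ne_top measure_closedBall_lt_top.ne (measure_mono inter_subset_left)

/-- Almost every point of the ball in `A` is a density point. -/
theorem volume_diff_dens1 (hA : MeasurableSet A) :
    volume ((A ∩ ball 0 R) \ dens1 A R) = 0 := by
  have h : ∀ᵐ x ∂volume, x ∈ A → Tendsto
      (fun r => volume (A ∩ closedBall x r) / volume (closedBall x r)) (𝓝[>] 0) (𝓝 1) :=
    (ae_restrict_iff' hA).1 (Besicovitch.ae_tendsto_measure_inter_div volume A)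
  refine measure_mono_null (fun x hx => ?_) (ae_iff.1 h)
  obtain ⟨⟨hxA, hxR⟩, hx⟩ := hx
  refine fun hlim => hx ⟨mem_ball_zero_iff.1 hxR, fun ε hε => ?_⟩
  have h' := (ENNReal.tendsto_toReal ENNReal.one_ne_top).comp (hlim hxA)
  filter_upwards [h'.eventually (eventually_ge_nhds (show 1 - ε < (1 : ℝ≥0∞).toReal by simp [hε])),
    self_mem_nhdsWithin] with r hr (hr0 : 0 < r)
  simp only [Function.comp, ENNReal.toReal_div, ← measureReal_def] at hr
  have hV := cball_real_pos x hr0
  rw [le_div_iff₀ hV] at hr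
  have hsplit := measureReal_inter_add_sdiff (μ := volume) (s := closedBall x r) hA
    measure_closedBall_lt_top.ne
  rw [inter_comm] at hr
  have e : volume.real (closedBall (0 : Eu (n + 1)) r) = volume.real (closedBall x r) := by
    rw [cball_real _ hr0.le, cball_real _ hr0.le]
  rw [e, ← sdiff_eq]
  simp only [measureReal_def] at hr hsplit ⊢
  linarith

theorem disjoint_dens1 : Disjoint (dens1 A R) (dens1 Aᶜ R) := by
  refine Set.disjoint_left.2 fun a ha ha' => ?_
  obtain ⟨r, ⟨h₁, h₂⟩, hr : (0 : ℝ) < r⟩ :=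
    (((ha.2 (1 / 3) (by norm_num)).and (ha'.2 (1 / 3) (by norm_num))).and
      self_mem_nhdsWithin).exists
  have hV := cball_real_pos (0 : Eu (n + 1)) hr
  rw [compl_compl] at h₂
  have h₃ : volume.real (closedBall a r) ≤
      volume.real (closedBall a r ∩ Aᶜ) + volume.real (closedBall a r ∩ A) := by
    refine le_trans (measureReal_mono (fun x hx => ?_) ?_) (measureReal_union_le _ _)
    · by_cases hxA : x ∈ A
      exacts [Or.inr ⟨hx, hxA⟩, Or.inl ⟨hx, hxA⟩]
    · exact measure_union_ne_top (cball_inter_ne_top _ _ _) (cball_inter_ne_top _ _ _)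
  rw [cball_real a hr.le, ← cball_real 0 hr.le] at h₃
  linarith

/-- Density points are midpoint convex. -/
theorem Flat.midpoint_mem (h : Flat A R) (hA : MeasurableSet A) {a b : Eu (n + 1)}
    (ha : a ∈ dens1 A R) (hb : b ∈ dens1 A R) : (2⁻¹ : ℝ) • (a + b) ∈ dens1 A R := by
  set m := (2⁻¹ : ℝ) • (a + b) with hm
  set w₀ := (2⁻¹ : ℝ) • (a - b) with hw₀
  have ea : m + w₀ = a := by rw [hm, hw₀]; module
  have eb : m - w₀ = b := by rw [hm, hw₀]; module
  have hmR : ‖m‖ < R := by
    rw [hm, norm_smul, norm_inv, Real.norm_two]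
    linarith [norm_add_le a b, ha.1, hb.1]
  have hwR : ‖w₀‖ < R := by
    rw [hw₀, norm_smul, norm_inv, Real.norm_two]
    linarith [norm_sub_le a b, ha.1, hb.1]
  refine ⟨hmR, fun ε hε => ?_⟩
  set σ : ℝ := min (min (R - ‖a‖) (R - ‖b‖)) (min (R - ‖m‖) (R - ‖w₀‖)) / 3 with hσ
  have hσ0 : 0 < σ := by
    refine div_pos (lt_min (lt_min ?_ ?_) (lt_min ?_ ?_)) three_pos <;>
      linarith [ha.1, hb.1]
  have h2 : Tendsto (fun r : ℝ => 2 * r) (𝓝[>] 0) (𝓝[>] 0) := by
    refine tendsto_nhdsWithin_iff.2 ⟨?_, ?_⟩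
    · simpa using ((continuous_const.mul continuous_id).tendsto (0 : ℝ)).mono_left
        (nhdsWithin_le_nhds (s := Ioi 0)) (f := fun r : ℝ => 2 * r)
    · filter_upwards [self_mem_nhdsWithin] with r (hr : 0 < r)
      exact (by positivity : (0 : ℝ) < 2 * r)
  set ε' : ℝ := ε / (2 * 2 ^ (n + 1))
  have hε' : 0 < ε' := by positivity
  filter_upwards [h2.eventually (ha.2 ε' hε'), h2.eventually (hb.2 ε' hε'), self_mem_nhdsWithin,
    nhdsWithin_le_nhds (eventually_le_nhds hσ0)] with r h₁ h₂ (hr : 0 < r) hrσ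
  set V := volume.real (closedBall (0 : Eu (n + 1)) r)
  have hV : 0 < V := cball_real_pos _ hr
  set X := closedBall a (2 * r) ∩ Aᶜ
  set Y := closedBall b (2 * r) ∩ Aᶜ
  set Wb := closedBall w₀ r
  set Sp : Set (Eu (n + 1) × Eu (n + 1)) := closedBall m r ×ˢ Wb ∩ {p | p.1 + p.2 ∈ X}
  set Sm : Set (Eu (n + 1) × Eu (n + 1)) := closedBall m r ×ˢ Wb ∩ {p | p.1 - p.2 ∈ Y}
  -- pairs over the bad middles
  have hcov : (closedBall m r ∩ Aᶜ) ×ˢ Wb ⊆ (badPairs A ∩
      {p | ‖p.1‖ < R ∧ ‖p.2‖ < R ∧ ‖p.1 - p.2‖ < R ∧ ‖p.1 + p.2‖ < R}) ∪ (Sp ∪ Sm) := by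
    rintro ⟨y, w⟩ ⟨⟨hy, hyA⟩, hw⟩
    have hy' : ‖y - m‖ ≤ r := by simpa [dist_eq_norm] using hy
    have hw' : ‖w - w₀‖ ≤ r := by simpa [Wb, dist_eq_norm] using hw
    have hp : ‖y + w - a‖ ≤ 2 * r := by
      rw [← ea, show y + w - (m + w₀) = (y - m) + (w - w₀) by abel]
      linarith [norm_add_le (y - m) (w - w₀)]
    have hq : ‖y - w - b‖ ≤ 2 * r := by
      rw [← eb, show y - w - (m - w₀) = (y - m) - (w - w₀) by abel]
      linarith [norm_sub_le (y - m) (w - w₀)]
    by_cases hpA : y + w ∈ A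
    · by_cases hqA : y - w ∈ A
      · have s₁ := min_le_left (min (R - ‖a‖) (R - ‖b‖)) (min (R - ‖m‖) (R - ‖w₀‖))
        have s₂ := min_le_right (min (R - ‖a‖) (R - ‖b‖)) (min (R - ‖m‖) (R - ‖w₀‖))
        have s₃ := min_le_left (R - ‖a‖) (R - ‖b‖)
        have s₄ := min_le_right (R - ‖a‖) (R - ‖b‖)
        have s₅ := min_le_left (R - ‖m‖) (R - ‖w₀‖)
        have s₆ := min_le_right (R - ‖m‖) (R - ‖w₀‖)
        refine Or.inl ⟨Or.inr ⟨hyA, hqA, hpA⟩, ?_, ?_, ?_, ?_⟩
        · linarith [norm_le_insert' y m]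
        · linarith [norm_le_insert' w w₀]
        · linarith [norm_le_insert' (y - w) b]
        · linarith [norm_le_insert' (y + w) a]
      · exact Or.inr (Or.inr ⟨⟨hy, hw⟩, by simpa [dist_eq_norm] using hq, hqA⟩)
    · exact Or.inr (Or.inl ⟨⟨hy, hw⟩, by simpa [dist_eq_norm] using hp, hpA⟩)
  have hXm : MeasurableSet X := measurableSet_closedBall.inter hA.compl
  have hYm : MeasurableSet Y := measurableSet_closedBall.inter hA.compl
  have hSp : (volume.prod volume) Sp ≤ volume (closedBall m r) * volume X := by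
    have hSpm : MeasurableSet Sp := (measurableSet_closedBall.prod measurableSet_closedBall).inter
      ((measurable_fst.add measurable_snd) hXm)
    rw [Measure.prod_apply hSpm]
    calc _ ≤ ∫⁻ y, (closedBall m r).indicator (fun _ => volume X) y := by
          refine lintegral_mono fun y => ?_
          by_cases hy : y ∈ closedBall m r
          · rw [indicator_of_mem hy]
            refine (measure_mono fun w hw => ?_).trans (measure_preimage_add volume y X).le
            exact hw.2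
          · rw [indicator_of_notMem hy]
            refine le_of_eq (measure_mono_null (fun w hw => ?_) measure_empty)
            exact absurd hw.1.1 hy
      _ = volume (closedBall m r) * volume X := by
          rw [lintegral_indicator measurableSet_closedBall, setLIntegral_const, mul_comm]
  have hSm : (volume.prod volume) Sm ≤ volume (closedBall m r) * volume Y := by
    have hSmm : MeasurableSet Sm := (measurableSet_closedBall.prod measurableSet_closedBall).inter
      ((measurable_fst.sub measurable_snd) hYm)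
    rw [Measure.prod_apply hSmm]
    calc _ ≤ ∫⁻ y, (closedBall m r).indicator (fun _ => volume Y) y := by
          refine lintegral_mono fun y => ?_
          by_cases hy : y ∈ closedBall m r
          · rw [indicator_of_mem hy]
            refine (measure_mono fun w hw => ?_).trans
              ((Measure.measurePreserving_sub_left volume y).measure_preimage
                hYm.nullMeasurableSet).le
            exact hw.2
          · rw [indicator_of_notMem hy]
            refine le_of_eq (measure_mono_null (fun w hw => ?_) measure_empty)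
            exact absurd hw.1.1 hy
      _ = volume (closedBall m r) * volume Y := by
          rw [lintegral_indicator measurableSet_closedBall, setLIntegral_const, mul_comm]
  have h₀ : volume (closedBall m r ∩ Aᶜ) * volume Wb ≤
      volume (closedBall m r) * volume X + volume (closedBall m r) * volume Y := by
    rw [← Measure.prod_prod]
    refine (measure_mono hcov).trans ((measure_union_le _ _).trans ?_)
    rw [h, zero_add]
    exact (measure_union_le _ _).trans (add_le_add hSp hSm)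
  have htop : volume (closedBall m r) * volume X + volume (closedBall m r) * volume Y ≠ ⊤ :=
    ENNReal.add_ne_top.2 ⟨ENNReal.mul_ne_top measure_closedBall_lt_top.ne (cball_inter_ne_top _ _ _),
      ENNReal.mul_ne_top measure_closedBall_lt_top.ne (cball_inter_ne_top _ _ _)⟩
  have h₀' := ENNReal.toReal_mono htop h₀
  rw [ENNReal.toReal_add (ENNReal.mul_ne_top measure_closedBall_lt_top.ne (cball_inter_ne_top _ _ _))
      (ENNReal.mul_ne_top measure_closedBall_lt_top.ne (cball_inter_ne_top _ _ _)),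
    ENNReal.toReal_mul, ENNReal.toReal_mul, ENNReal.toReal_mul] at h₀'
  simp only [← measureReal_def] at h₀'
  have eW : volume.real Wb = V := by simp only [Wb, V, cball_real _ hr.le]
  have em : volume.real (closedBall m r) = V := by simp only [V, cball_real _ hr.le]
  rw [eW, em, ← mul_add, mul_comm V] at h₀'
  have h3 := le_of_mul_le_mul_right h₀' hV
  have e2 : volume.real (closedBall (0 : Eu (n + 1)) (2 * r)) = 2 ^ (n + 1) * V := by
    simp only [V, cball_real _ hr.le, cball_real _ (show (0 : ℝ) ≤ 2 * r by positivity), mul_pow,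
      mul_assoc]
  rw [e2] at h₁ h₂
  calc volume.real (closedBall m r ∩ Aᶜ) ≤ ε' * (2 ^ (n + 1) * V) + ε' * (2 ^ (n + 1) * V) :=
        h3.trans (add_le_add h₁ h₂)
    _ = ε * V := by simp only [ε']; field_simp; ring

/-- The density points form an open set. -/
theorem Flat.isOpen_dens1 (h : Flat A R) (hA : MeasurableSet A) : IsOpen (dens1 A R) := by
  refine Metric.isOpen_iff.2 fun a ha => ?_
  set ε : ℝ := 1 / (4 * 2 ^ (n + 1)) with hε
  have hε0 : 0 < ε := by positivity
  obtain ⟨ρ, ⟨hρ, hρR⟩, hρ0 : (0 : ℝ) < ρ⟩ := (((ha.2 ε hε0).and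
    (nhdsWithin_le_nhds (eventually_le_nhds (show 0 < (R - ‖a‖) / 2 by linarith [ha.1])))).and
      self_mem_nhdsWithin).exists
  refine ⟨ρ / 4, by positivity, fun z hz => ?_⟩
  set S := dens1 A R
  set Bb := closedBall a (ρ / 2)
  have hz' : ‖z - a‖ < ρ / 4 := by simpa [dist_eq_norm] using hz
  set N := (A ∩ ball 0 R) \ S
  have hN : volume N = 0 := volume_diff_dens1 hA
  set X := (closedBall a ρ ∩ Aᶜ) ∪ N
  have hXe : volume X = volume (closedBall a ρ ∩ Aᶜ) :=
    le_antisymm ((measure_union_le _ _).trans (by rw [hN, add_zero])) (measure_mono subset_union_left)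
  have hin : ∀ y, ‖y - a‖ ≤ ρ → y ∉ X → y ∈ S := fun y hy hyX => by
    by_contra hyS
    have hyA : y ∈ A := by_contra fun hyA => hyX (Or.inl ⟨by simpa [dist_eq_norm] using hy, hyA⟩)
    exact hyX (Or.inr ⟨⟨hyA, mem_ball_zero_iff.2 (by linarith [norm_le_insert' y a, ha.1])⟩, hyS⟩)
  have hX : volume.real X ≤ ε * volume.real (closedBall (0 : Eu (n + 1)) ρ) := by
    rw [measureReal_def, hXe]
    exact hρ
  have hXtop : volume X ≠ ⊤ := by
    rw [hXe]; exact cball_inter_ne_top _ _ _
  set X' : Set (Eu (n + 1)) := (fun y => (2 : ℝ) • z - y) ⁻¹' toMeasurable volume X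
  have hX' : volume X' = volume X := by
    rw [(Measure.measurePreserving_sub_left volume ((2 : ℝ) • z)).measure_preimage
      (measurableSet_toMeasurable _ _).nullMeasurableSet, measure_toMeasurable]
  obtain ⟨y, hy, hyX, hyX'⟩ : ∃ y ∈ Bb, y ∉ X ∧ y ∉ X' := by
    by_contra hno
    push Not at hno
    have hsub : Bb ⊆ X ∪ X' := fun y hy => by
      by_cases hyX : y ∈ X
      exacts [Or.inl hyX, Or.inr (hno y hy hyX)]
    have h₁ := (measureReal_mono hsub (measure_union_ne_top hXtop (hX'.trans_ne hXtop))).trans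
      (measureReal_union_le X X')
    rw [measureReal_def (s := X'), hX', ← measureReal_def] at h₁
    have h₂ : volume.real (closedBall (0 : Eu (n + 1)) ρ) = 2 ^ (n + 1) * volume.real Bb := by
      simp only [Bb, cball_real _ hρ0.le, cball_real _ (show (0 : ℝ) ≤ ρ / 2 by positivity),
        ← mul_assoc, ← mul_pow]
      congr 2; ring
    rw [h₂] at hX
    have h₃ := cball_real_pos a (show 0 < ρ / 2 by positivity)
    have h₄ : ε * (2 ^ (n + 1) * volume.real Bb) = volume.real Bb / 4 := by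
      rw [hε]; field_simp
    linarith
  have hy' : ‖y - a‖ ≤ ρ / 2 := by simpa [Bb, dist_eq_norm] using hy
  have h₁ : y ∈ S := hin y (by linarith) hyX
  have h₂ : (2 : ℝ) • z - y ∈ S := hin _ (by
      rw [show (2 : ℝ) • z - y - a = (2 : ℝ) • (z - a) - (y - a) by module]
      refine (norm_sub_le _ _).trans ?_
      rw [norm_smul, Real.norm_two]
      linarith)
    fun hmem => hyX' (subset_toMeasurable _ _ hmem)
  have := h.midpoint_mem hA h₁ h₂
  simpa [smul_smul] using this

/-- A flat set is a half-space in the ball, up to a null set. -/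
theorem Flat.exists_halfspace (h : Flat A R) (hA : MeasurableSet A) :
    ∃ (ν : Eu (n + 1)) (t : ℝ), ‖ν‖ = 1 ∧
      volume ((symmDiff A {y | t < ⟪ν, y⟫}) ∩ ball 0 R) = 0 := by
  have hn₁ : volume ((A ∩ ball 0 R) \ dens1 A R) = 0 := volume_diff_dens1 hA
  have hn₂ : volume ((Aᶜ ∩ ball 0 R) \ dens1 Aᶜ R) = 0 := volume_diff_dens1 hA.compl
  suffices H : ∃ (ν : Eu (n + 1)) (t : ℝ), ‖ν‖ = 1 ∧
      (∀ a ∈ dens1 A R, t < ⟪ν, a⟫) ∧ ∀ b ∈ dens1 Aᶜ R, ⟪ν, b⟫ ≤ t by
    obtain ⟨ν, t, hν, h₁, h₂⟩ := H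
    refine ⟨ν, t, hν, measure_mono_null (fun y hy => ?_) (measure_union_null hn₁ hn₂)⟩
    rcases hy with ⟨⟨hyA, hyH⟩ | ⟨hyH, hyA⟩, hyR⟩
    · exact Or.inl ⟨⟨hyA, hyR⟩, fun hm => hyH (h₁ y hm)⟩
    · exact Or.inr ⟨⟨hyA, hyR⟩, fun hm => (h₂ y hm).not_gt hyH⟩
  set e : Eu (n + 1) := EuclideanSpace.single 0 1
  have he : ‖e‖ = 1 := by simp [e]
  have hbound : ∀ y, ‖y‖ < R → |⟪e, y⟫| < R := fun y hy => by
    refine lt_of_le_of_lt (abs_real_inner_le_norm e y) ?_
    rwa [he, one_mul]
  rcases (dens1 A R).eq_empty_or_nonempty with hA0 | ⟨a₀, ha₀⟩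
  · exact ⟨e, R, he, by simp [hA0], fun b hb => (abs_lt.1 (hbound b hb.1)).2.le⟩
  rcases (dens1 Aᶜ R).eq_empty_or_nonempty with hB0 | ⟨b₀, hb₀⟩
  · exact ⟨e, -R, he, fun a ha => (abs_lt.1 (hbound a ha.1)).1, by simp [hB0]⟩
  obtain ⟨f, u, h₁, h₂⟩ := geometric_hahn_banach_open_open
    (convex_of_midpoint (h.compl.isOpen_dens1 hA.compl)
      fun a ha b hb => h.compl.midpoint_mem hA.compl ha hb)
    (h.compl.isOpen_dens1 hA.compl)
    (convex_of_midpoint (h.isOpen_dens1 hA) fun a ha b hb => h.midpoint_mem hA ha hb)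
    (h.isOpen_dens1 hA) disjoint_dens1.symm
  set v : Eu (n + 1) := (InnerProductSpace.toDual ℝ _).symm f
  have hv : ∀ y, ⟪v, y⟫ = f y := fun y => InnerProductSpace.toDual_symm_apply
  have hv0 : v ≠ 0 := fun h0 => by
    have e₁ := hv a₀
    have e₂ := hv b₀
    simp only [h0, inner_zero_left] at e₁ e₂
    linarith [h₁ b₀ hb₀, h₂ a₀ ha₀]
  have hn : 0 < ‖v‖ := norm_pos_iff.2 hv0
  refine ⟨‖v‖⁻¹ • v, ‖v‖⁻¹ * u, norm_smul_inv_norm hv0, fun a ha => ?_, fun b hb => ?_⟩
  · rw [real_inner_smul_left, hv]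
    exact mul_lt_mul_of_pos_left (h₂ a ha) (inv_pos.2 hn)
  · rw [real_inner_smul_left, hv]
    exact mul_le_mul_of_nonneg_left (h₁ b hb).le (inv_pos.2 hn).le

end

end Vale.Agent.P137
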