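import Vale.Agent.P137.Chord
import Mathlib

/-!
# P137: a set with few two-sided exits is close to a half-space
-/

namespace Vale.Agent.P137

open MeasureTheory Set Metric Filter
open scoped ENNReal NNReal Topology RealInnerProductSpace

noncomputable section

variable {d : ℕ}

/-- Pairs `(y, v)` where both `y + v` and `y - v` lie on the other side of `E` from `y`. -/
def defectSet (E : Set (Eu d)) : Set (Eu d × Eu d) :=
  {p | (p.1 ∈ E ∧ p.1 + p.2 ∉ E ∧ p.1 - p.2 ∉ E) ∨ (p.1 ∉ E ∧ p.1 + p.2 ∈ E ∧ p.1 - p.2 ∈ E)}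

theorem measurableSet_defectSet {E : Set (Eu d)} (hE : MeasurableSet E) :
    MeasurableSet (defectSet E) := by
  have h1 : MeasurableSet {p : Eu d × Eu d | p.1 ∈ E} := measurable_fst hE
  have h2 : MeasurableSet {p : Eu d × Eu d | p.1 + p.2 ∈ E} :=
    (continuous_fst.add continuous_snd).measurable hE
  have h3 : MeasurableSet {p : Eu d × Eu d | p.1 - p.2 ∈ E} :=
    (continuous_fst.sub continuous_snd).measurable hE
  exact (h1.inter (h2.compl.inter h3.compl)).union (h1.compl.inter (h2.inter h3))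

/-- The linear map `(y, y') ↦ ((y + y')/2, (y' - y)/2)`. -/
def midMap (d : ℕ) : (Eu d × Eu d) ≃ₗ[ℝ] (Eu d × Eu d) where
  toFun p := ((2⁻¹ : ℝ) • (p.1 + p.2), (2⁻¹ : ℝ) • (p.2 - p.1))
  invFun p := (p.1 - p.2, p.1 + p.2)
  map_add' p q := by ext <;> simp <;> ring
  map_smul' c p := by ext <;> simp <;> ring
  left_inv p := by ext <;> simp <;> ring
  right_inv p := by ext <;> simp <;> ring

/-- The jump set upwards in the direction `v`, inside `B(0, R)`. -/
def upSet (E : Set (Eu d)) (v : Eu d) (R : ℝ) : Set (Eu d) :=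
  {y ∈ ball 0 R | y ∉ E ∧ y + v ∈ E}

/-- The jump set downwards in the direction `v`, inside `B(0, R)`. -/
def downSet (E : Set (Eu d)) (v : Eu d) (R : ℝ) : Set (Eu d) :=
  {y ∈ ball 0 R | y ∈ E ∧ y + v ∉ E}

theorem measurableSet_upSet {E : Set (Eu d)} (hE : MeasurableSet E) (v : Eu d) (R : ℝ) :
    MeasurableSet (upSet E v R) :=
  measurableSet_ball.inter (hE.compl.inter ((continuous_id.add continuous_const).measurable hE))

theorem measurableSet_downSet {E : Set (Eu d)} (hE : MeasurableSet E) (v : Eu d) (R : ℝ) :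
    MeasurableSet (downSet E v R) :=
  measurableSet_ball.inter (hE.inter ((continuous_id.add continuous_const).measurable hE).compl)

theorem up_down_le (d : ℕ) :
    ∃ c : ℝ, 0 ≤ c ∧ ∀ (E : Set (Eu d)) (v : Eu d) (R : ℝ), ‖v‖ ≤ R →
      volume.real (upSet E v R) * volume.real (downSet E v R)
        ≤ c * volume.real (defectSet E ∩ ball 0 (2 * R) ×ˢ ball 0 (2 * R)) := by
  set L := midMap d
  set k := |LinearMap.det (L.symm : (Eu d × Eu d) →ₗ[ℝ] (Eu d × Eu d))|
  refine ⟨2 * k, by positivity, fun E v R hv => ?_⟩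
  set S := defectSet E ∩ ball 0 (2 * R) ×ˢ ball 0 (2 * R) with hS
  set c1 : Eu d × Eu d := ((2⁻¹ : ℝ) • v, (2⁻¹ : ℝ) • v)
  set c2 : Eu d × Eu d := ((2⁻¹ : ℝ) • v, -((2⁻¹ : ℝ) • v))
  have hS2 : volume S ≠ ⊤ := by
    refine ne_top_of_le_ne_top ?_ (measure_mono inter_subset_right)
    rw [Measure.volume_eq_prod, Measure.prod_prod]
    exact ENNReal.mul_ne_top measure_ball_lt_top.ne measure_ball_lt_top.ne
  haveI : (volume : Measure (Eu d × Eu d)).IsAddHaarMeasure := by
    rw [Measure.volume_eq_prod]; exact Measure.prod.instIsAddHaarMeasure _ _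
  have hpre : ∀ c : Eu d × Eu d,
      volume (L ⁻¹' ((fun p => p + c) ⁻¹' S)) = ENNReal.ofReal k * volume S := fun c => by
    rw [Measure.addHaar_preimage_linearEquiv, measure_preimage_add_right]
  have hsub : upSet E v R ×ˢ downSet E v R
      ⊆ L ⁻¹' ((fun p => p + c1) ⁻¹' S) ∪ L ⁻¹' ((fun p => p + c2) ⁻¹' S) := by
    rintro ⟨y, y'⟩ ⟨⟨hy, hy0, hy1⟩, ⟨hy', hy'1, hy'0⟩⟩
    rw [mem_ball_zero_iff] at hy hy'
    set c := (2⁻¹ : ℝ) • (y + y') + (2⁻¹ : ℝ) • v with hc
    have hR : 0 ≤ R := (norm_nonneg v).trans hv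
    have hcn : ‖c‖ < 2 * R := by
      refine lt_of_le_of_lt (norm_add_le _ _) ?_
      rw [norm_smul, norm_smul]
      norm_num
      linarith [norm_add_le y y']
    have hwn : ∀ s : Eu d, ‖s‖ ≤ R → ‖(2⁻¹ : ℝ) • (y' - y) + (2⁻¹ : ℝ) • s‖ < 2 * R := by
      intro s hs
      refine lt_of_le_of_lt (norm_add_le _ _) ?_
      rw [norm_smul, norm_smul]
      norm_num
      linarith [norm_sub_le y' y]
    by_cases hcE : c ∈ E
    · refine Or.inl ⟨Or.inl ⟨hcE, ?_, ?_⟩, mem_ball_zero_iff.2 hcn, mem_ball_zero_iff.2 (hwn v hv)⟩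
      · convert hy'0 using 2
        simp only [c1, L, midMap, LinearEquiv.coe_mk, LinearMap.coe_mk, AddHom.coe_mk, Prod.fst_add,
          Prod.snd_add]
        module
      · convert hy0 using 2
        simp only [c1, L, midMap, LinearEquiv.coe_mk, LinearMap.coe_mk, AddHom.coe_mk, Prod.fst_add,
          Prod.snd_add]
        module
    · refine Or.inr ⟨Or.inr ⟨hcE, ?_, ?_⟩, mem_ball_zero_iff.2 hcn, mem_ball_zero_iff.2 ?_⟩
      · convert hy'1 using 1
        simp only [c2, L, midMap, LinearEquiv.coe_mk, LinearMap.coe_mk, AddHom.coe_mk, Prod.fst_add,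
          Prod.snd_add]
        module
      · convert hy1 using 1
        simp only [c2, L, midMap, LinearEquiv.coe_mk, LinearMap.coe_mk, AddHom.coe_mk, Prod.fst_add,
          Prod.snd_add]
        module
      · have := hwn (-v) (by rwa [norm_neg])
        rw [smul_neg] at this
        exact this
  have h2 := (measure_mono (μ := (volume : Measure (Eu d × Eu d))) hsub).trans (measure_union_le _ _)
  rw [Measure.volume_eq_prod, Measure.prod_prod, ← Measure.volume_eq_prod, hpre, hpre, ← two_mul]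
    at h2
  have := ENNReal.toReal_mono
    (ENNReal.mul_ne_top ENNReal.ofNat_ne_top (ENNReal.mul_ne_top ENNReal.ofReal_ne_top hS2)) h2
  simp only [ENNReal.toReal_mul, ENNReal.toReal_ofNat, ENNReal.toReal_ofReal (show (0 : ℝ) ≤ k from abs_nonneg _)] at this
  simp only [measureReal_def]
  refine this.trans (le_of_eq ?_)
  ring

/-- The weight `((1 - |z|²/1600)⁺)²`. -/
def wgt (z : Eu d) : ℝ := (max (1 - ‖z‖ ^ 2 / 1600) 0) ^ 2

theorem wgt_facts (z : Eu d) :
    0 ≤ wgt z ∧ wgt z ≤ 1 ∧ (40 ≤ ‖z‖ → wgt z = 0) ∧ (‖z‖ ≤ 16 → 1 / 2 ≤ wgt z) := by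
  refine ⟨sq_nonneg _, pow_le_one₀ (le_max_right _ _) (max_le ?_ zero_le_one), fun h => ?_,
    fun h => ?_⟩
  · have := sq_nonneg ‖z‖
    linarith
  · rw [wgt, max_eq_right (by nlinarith [pow_le_pow_left₀ (by norm_num) h 2])]
    ring
  · rw [wgt, max_eq_left (by nlinarith [pow_le_pow_left₀ (norm_nonneg z) h 2])]
    nlinarith [pow_le_pow_left₀ (norm_nonneg z) h 2, norm_nonneg z]

theorem wgt_taylor {z v : Eu d} (hv : ‖v‖ ≤ 1) :
    |wgt (z - v) - wgt z - 2 * max (1 - ‖z‖ ^ 2 / 1600) 0 * (2 * ⟪z, v⟫ / 1600)|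
      ≤ 2 * ‖v‖ ^ 2 := by
  set a := 1 - ‖z - v‖ ^ 2 / 1600
  set b := 1 - ‖z‖ ^ 2 / 1600 with hb
  have hab : a - b = (2 * ⟪z, v⟫ - ‖v‖ ^ 2) / 1600 := by
    simp only [a, b]
    rw [norm_sub_sq_real]
    ring
  have key : |max a 0 ^ 2 - max b 0 ^ 2 - 2 * max b 0 * (a - b)| ≤ (a - b) ^ 2 := by
    rcases le_total a 0 with ha | ha <;> rcases le_total b 0 with hb' | hb' <;>
      simp only [max_eq_left, max_eq_right, ha, hb'] <;> rw [abs_le] <;> constructor <;>
      nlinarith [sq_nonneg (a - b), mul_nonneg (sub_nonneg.2 ha) (sub_nonneg.2 hb')]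
  have hb0 : 0 ≤ max b 0 := le_max_right _ _
  have hb1 : max b 0 ≤ 1 := max_le (by rw [hb]; linarith [sq_nonneg ‖z‖]) zero_le_one
  have hz := abs_le.1 (abs_real_inner_le_norm z v)
  have e : max a 0 ^ 2 - max b 0 ^ 2 - 2 * max b 0 * (2 * ⟪z, v⟫ / 1600)
      = (max a 0 ^ 2 - max b 0 ^ 2 - 2 * max b 0 * (a - b))
        - 2 * max b 0 * (‖v‖ ^ 2 / 1600) := by
    rw [hab]; ring
  show |max a 0 ^ 2 - max b 0 ^ 2 - _| ≤ _
  by_cases hfar : ‖z‖ ≤ 42
  · rw [e]
    refine (abs_sub _ _).trans ?_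
    have h1 : (a - b) ^ 2 ≤ ‖v‖ ^ 2 := by
      rw [hab, div_pow, div_le_iff₀ (by norm_num)]
      have hin : |2 * ⟪z, v⟫ - ‖v‖ ^ 2| ≤ 85 * ‖v‖ := by
        rw [abs_le]
        constructor <;> nlinarith [mul_le_mul_of_nonneg_right hfar (norm_nonneg v), norm_nonneg v]
      nlinarith [sq_le_sq' (abs_le.1 hin).1 (abs_le.1 hin).2]
    rw [abs_of_nonneg (show 0 ≤ 2 * max b 0 * (‖v‖ ^ 2 / 1600) by positivity)]
    nlinarith [mul_le_mul_of_nonneg_right hb1 (sq_nonneg ‖v‖)]
  · push Not at hfar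
    have h1 : a ≤ 0 := by
      have : 40 ≤ ‖z - v‖ := by linarith [norm_sub_norm_le z v]
      simp only [a]; nlinarith
    have h2 : b ≤ 0 := by simp only [b]; nlinarith
    rw [max_eq_right h1, max_eq_right h2]
    simp

/-- Outside the two jump directions, the jumps are balanced by a linear functional. -/
theorem exists_linear {E : Set (Eu d)} (hE : MeasurableSet E) :
    ∃ V : Eu d, ∀ v : Eu d, ‖v‖ ≤ 1 →
      |(∫ y in upSet E v 40, wgt y) - (∫ y in downSet E v 40, wgt y) - ⟪V, v⟫|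
        ≤ 2 * volume.real (ball (0 : Eu d) 44) * ‖v‖ ^ 2 := by
  set g : Eu d → Eu d := fun z => (2 * max (1 - ‖z‖ ^ 2 / 1600) 0 * (2 / 1600)) • z with hg
  have hgc : Continuous g := by fun_prop
  have hgs : HasCompactSupport g := HasCompactSupport.intro (isCompact_closedBall (0 : Eu d) 40)
    fun z hz => by
      simp only [mem_closedBall_zero_iff, not_le] at hz
      simp only [hg, max_eq_right (show 1 - ‖z‖ ^ 2 / 1600 ≤ 0 by nlinarith)]
      simp
  refine ⟨∫ z in E, g z, fun v hv => ?_⟩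
  have hwc : Continuous (wgt (d := d)) := by unfold wgt; fun_prop
  have hws : HasCompactSupport (wgt (d := d)) :=
    HasCompactSupport.intro (isCompact_closedBall (0 : Eu d) 40) fun z hz => by
      simp only [mem_closedBall_zero_iff, not_le] at hz
      exact (wgt_facts z).2.2.1 hz.le
  have iw : Integrable (wgt (d := d)) := hwc.integrable_of_hasCompactSupport hws
  have iwv : Integrable fun z : Eu d => wgt (z - v) := iw.comp_sub_right v
  set T := (fun y => y + v) ⁻¹' E with hT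
  have hTm : MeasurableSet T := (continuous_id.add continuous_const).measurable hE
  have hUD : (∫ y in upSet E v 40, wgt y) - (∫ y in downSet E v 40, wgt y)
      = (∫ y in T, wgt y) - ∫ y in E, wgt y := by
    rw [← integral_indicator (measurableSet_upSet hE v 40),
      ← integral_indicator (measurableSet_downSet hE v 40), ← integral_indicator hTm,
      ← integral_indicator hE, ← integral_sub (iw.indicator (measurableSet_upSet hE v 40))
        (iw.indicator (measurableSet_downSet hE v 40)),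
      ← integral_sub (iw.indicator hTm) (iw.indicator hE)]
    refine integral_congr_ae (Eventually.of_forall fun y => ?_)
    by_cases hy : y ∈ ball (0 : Eu d) 40
    · rw [mem_ball_zero_iff] at hy
      by_cases h1 : y ∈ E <;> by_cases h2 : y + v ∈ E <;>
        simp [upSet, downSet, T, hy, h1, h2, indicator]
    · have : wgt y = 0 := (wgt_facts y).2.2.1 (by simpa using hy)
      simp [indicator, this]
  have hTE : ∫ y in T, wgt y = ∫ z in E, wgt (z - v) := by
    rw [← integral_indicator hTm, ← integral_indicator hE,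
      ← integral_add_right_eq_self (fun z => E.indicator (fun z => wgt (z - v)) z) v]
    refine integral_congr_ae (Eventually.of_forall fun y => ?_)
    by_cases h2 : y + v ∈ E <;> simp [T, h2]
  have hig : Integrable g := hgc.integrable_of_hasCompactSupport hgs
  have hV : ⟪∫ z in E, g z, v⟫ = ∫ z in E, ⟪g z, v⟫ := by
    rw [real_inner_comm, ← integral_inner hig.integrableOn v]
    exact integral_congr_ae (Eventually.of_forall fun z => real_inner_comm _ _)
  have igv : Integrable fun z => ⟪g z, v⟫ := hig.inner_const v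
  have isub : Integrable fun z : Eu d => wgt (z - v) - wgt z := iwv.sub iw
  rw [hUD, hTE, hV, ← integral_sub iwv.integrableOn iw.integrableOn,
    ← integral_sub isub.integrableOn igv.integrableOn]
  have hb : Integrable ((ball (0 : Eu d) 44).indicator fun _ => 2 * ‖v‖ ^ 2) :=
    (integrable_indicator_iff measurableSet_ball).2 (integrableOn_const measure_ball_lt_top.ne)
  refine (abs_integral_le_integral_abs.trans (setIntegral_le_integral ((iwv.sub iw).sub igv).abs
    (Eventually.of_forall fun z => abs_nonneg _))).trans ?_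
  refine (integral_mono ((iwv.sub iw).sub igv).abs hb fun z => ?_).trans (le_of_eq ?_)
  · by_cases hz : z ∈ ball (0 : Eu d) 44
    · rw [indicator_of_mem hz]
      refine le_trans (le_of_eq (congrArg abs ?_)) (wgt_taylor (z := z) hv)
      simp only [Pi.sub_apply, hg, real_inner_smul_left]
      ring
    · rw [indicator_of_notMem hz]
      rw [mem_ball_zero_iff, not_lt] at hz
      have h1 : wgt (z - v) = 0 := (wgt_facts _).2.2.1 (by linarith [norm_sub_norm_le z v])
      have h2 : wgt z = 0 := (wgt_facts _).2.2.1 (by linarith)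
      simp [h1, h2, hg, max_eq_right (show 1 - ‖z‖ ^ 2 / 1600 ≤ 0 by nlinarith)]
  · rw [integral_indicator measurableSet_ball, setIntegral_const, smul_eq_mul]
    ring

/-- Single steps: jumps against the direction and jumps across it are rare. -/
theorem step_bounds (d : ℕ) :
    ∃ K : ℝ, 0 ≤ K ∧ ∀ E : Set (Eu d), MeasurableSet E → ∃ e : Eu d, ‖e‖ ≤ 1 ∧
      (0 < d → ‖e‖ = 1) ∧ ∀ v : Eu d, ‖v‖ ≤ 1 → 0 ≤ ⟪e, v⟫ →
        volume.real (upSet E v 16)
          ≤ K * (Real.sqrt (volume.real (defectSet E ∩ ball 0 80 ×ˢ ball 0 80)) + ‖v‖ ^ 2) ∧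
        (⟪e, v⟫ = 0 → volume.real (downSet E v 16)
          ≤ K * (Real.sqrt (volume.real (defectSet E ∩ ball 0 80 ×ˢ ball 0 80)) + ‖v‖ ^ 2)) := by
  obtain ⟨c, hc0, hc⟩ := up_down_le d
  refine ⟨2 * (Real.sqrt c + 2 * volume.real (ball (0 : Eu d) 44)),
    by positivity, fun E hE => ?_⟩
  obtain ⟨V, hV⟩ := exists_linear hE
  obtain ⟨e, he1, he2, hVe⟩ : ∃ e : Eu d, ‖e‖ ≤ 1 ∧ (0 < d → ‖e‖ = 1) ∧ V = -(‖V‖ • e) := by
    by_cases h : V = 0
    · rcases Nat.eq_zero_or_pos d with hd | hd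
      · exact ⟨0, by simp, fun h' => absurd h' (by omega), by simp [h]⟩
      · exact ⟨EuclideanSpace.single ⟨0, hd⟩ 1, by simp, fun _ => by simp, by simp [h]⟩
    · have hn : ‖(-‖V‖⁻¹) • V‖ = 1 := by
        rw [norm_smul, norm_neg, norm_inv, norm_norm, inv_mul_cancel₀ (norm_ne_zero_iff.2 h)]
      refine ⟨(-‖V‖⁻¹) • V, hn.le, fun _ => hn, ?_⟩
      rw [smul_smul, mul_neg, mul_inv_cancel₀ (norm_ne_zero_iff.2 h), neg_one_smul, neg_neg]
  refine ⟨e, he1, he2, fun v hv hev => ?_⟩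
  set W := volume.real (defectSet E ∩ ball 0 80 ×ˢ ball 0 80) with hW
  set a := ∫ y in upSet E v 40, wgt y
  set b := ∫ y in downSet E v 40, wgt y
  have hwi : ∀ S : Set (Eu d), S ⊆ ball 0 40 → IntegrableOn (wgt (d := d)) S := fun S hS =>
    ((show Continuous (wgt (d := d)) by unfold wgt; fun_prop).continuousOn.integrableOn_compact
      (isCompact_closedBall (0 : Eu d) 40)).mono_set (hS.trans ball_subset_closedBall)
  have hup : ∀ S : Set (Eu d), MeasurableSet S → S ⊆ ball 0 40 →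
      0 ≤ ∫ y in S, wgt y ∧ ∫ y in S, wgt y ≤ volume.real S := fun S hSm hS => by
    refine ⟨setIntegral_nonneg hSm fun y _ => (wgt_facts y).1, ?_⟩
    have hf : volume S ≠ ⊤ := ne_top_of_le_ne_top measure_ball_lt_top.ne (measure_mono hS)
    refine (setIntegral_mono_on (hwi S hS) (integrableOn_const hf) hSm
      fun y _ => (wgt_facts y).2.1).trans (le_of_eq ?_)
    simp
  have hlow : ∀ S T : Set (Eu d), MeasurableSet T → T ⊆ S → T ⊆ ball 0 16 → S ⊆ ball 0 40 →
      MeasurableSet S → volume.real T ≤ 2 * ∫ y in S, wgt y := fun S T hTm hTS hT hS hSm => by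
    have hf : volume T ≠ ⊤ := ne_top_of_le_ne_top measure_ball_lt_top.ne (measure_mono hT)
    have h1 : ∫ _ in T, (1 / 2 : ℝ) ≤ ∫ y in T, wgt y :=
      setIntegral_mono_on (integrableOn_const hf) (hwi T (hTS.trans hS)) hTm
        fun y hy => (wgt_facts y).2.2.2 (mem_ball_zero_iff.1 (hT hy)).le
    have h2 : ∫ y in T, wgt y ≤ ∫ y in S, wgt y :=
      setIntegral_mono_set (hwi S hS) (Eventually.of_forall fun y => (wgt_facts y).1)
        (Eventually.of_forall hTS)
    rw [setIntegral_const, smul_eq_mul] at h1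
    linarith
  obtain ⟨ha0, ha1⟩ := hup _ (measurableSet_upSet hE v 40) fun y hy => hy.1
  obtain ⟨hb0, hb1⟩ := hup _ (measurableSet_downSet hE v 40) fun y hy => hy.1
  have hab : a * b ≤ c * W := by
    refine (mul_le_mul ha1 hb1 hb0 measureReal_nonneg).trans ?_
    have := hc E v 40 (by linarith)
    norm_num at this
    exact this
  have hsub : ∀ {y : Eu d}, y ∈ ball (0 : Eu d) 16 → y ∈ ball (0 : Eu d) 40 :=
    fun h => ball_subset_ball (by norm_num) h
  have hua : volume.real (upSet E v 16) ≤ 2 * a :=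
    hlow _ _ (measurableSet_upSet hE v 16) (fun y hy => ⟨hsub hy.1, hy.2⟩) (fun y hy => hy.1)
      (fun y hy => hy.1) (measurableSet_upSet hE v 40)
  have hub : volume.real (downSet E v 16) ≤ 2 * b :=
    hlow _ _ (measurableSet_downSet hE v 16) (fun y hy => ⟨hsub hy.1, hy.2⟩) (fun y hy => hy.1)
      (fun y hy => hy.1) (measurableSet_downSet hE v 40)
  have hflux := abs_le.1 (hV v hv)
  have hsign : ⟪V, v⟫ = -(‖V‖ * ⟪e, v⟫) := by
    rw [hVe, inner_neg_left, real_inner_smul_left, ← hVe]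
  have hsq : (min a b) ^ 2 ≤ c * W := le_trans (by
    rw [sq]; exact mul_le_mul (min_le_left _ _) (min_le_right _ _) (le_min ha0 hb0) ha0) hab
  have hmin : min a b ≤ Real.sqrt c * Real.sqrt W := by
    rw [← Real.sqrt_mul hc0]
    exact Real.le_sqrt_of_sq_le hsq
  have hC0 : 0 ≤ 2 * volume.real (ball (0 : Eu d) 44) := by positivity
  have hsW : 0 ≤ Real.sqrt W := Real.sqrt_nonneg _
  have hsc : 0 ≤ Real.sqrt c := Real.sqrt_nonneg _
  have hp : 0 ≤ ‖V‖ * ⟪e, v⟫ := mul_nonneg (norm_nonneg _) hev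
  have p1 := mul_nonneg hsc (sq_nonneg ‖v‖)
  have p2 := mul_nonneg hC0 hsW
  refine ⟨?_, fun h0 => ?_⟩
  · rcases le_total a b with hle | hle
    · rw [min_eq_left hle] at hmin
      nlinarith [sq_nonneg ‖v‖]
    · rw [min_eq_right hle] at hmin
      nlinarith [hflux.2]
  · rcases le_total a b with hle | hle
    · rw [min_eq_left hle] at hmin
      rw [h0, mul_zero, neg_zero] at hsign
      nlinarith [hflux.1]
    · rw [min_eq_right hle] at hmin
      nlinarith [sq_nonneg ‖v‖]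

/-- A jump over `j` steps contains a jump over one step. -/
theorem upSet_steps {E : Set (Eu d)} (hE : MeasurableSet E) (v : Eu d) (j : ℕ) {R B : ℝ}
    (hR : R + j * ‖v‖ ≤ 16) (hB : volume.real (upSet E v 16) ≤ B) :
    volume.real (upSet E ((j : ℝ) • v) R) ≤ j * B := by
  have hfin : ∀ (w : Eu d) ρ, volume (upSet E w ρ) ≠ ⊤ := fun w ρ =>
    ne_top_of_le_ne_top measure_ball_lt_top.ne (measure_mono fun y hy => hy.1)
  induction j with
  | zero =>
    have : upSet E (((0 : ℕ) : ℝ) • v) R = ∅ := by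
      ext y; simp [upSet]
    rw [this, measureReal_empty]
    simp
  | succ j ih =>
    push_cast at hR
    have hn := norm_nonneg v
    have hsub : upSet E (((j + 1 : ℕ) : ℝ) • v) R
        ⊆ upSet E ((j : ℝ) • v) R ∪ (fun y => y + (j : ℝ) • v) ⁻¹' upSet E v 16 := by
      rintro y ⟨hy, h0, h1⟩
      by_cases hj : y + (j : ℝ) • v ∈ E
      · exact Or.inl ⟨hy, h0, hj⟩
      · refine Or.inr ⟨mem_ball_zero_iff.2 ?_, hj, ?_⟩
        · refine lt_of_le_of_lt (norm_add_le _ _) ?_
          rw [norm_smul, Real.norm_natCast]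
          linarith [mem_ball_zero_iff.1 hy]
        · rwa [Nat.cast_succ, add_smul, one_smul, ← add_assoc] at h1
    refine (measureReal_mono hsub (measure_union_ne_top (hfin _ _)
      (by rw [measure_preimage_add_right]; exact hfin _ _))).trans
      ((measureReal_union_le _ _).trans ?_)
    rw [measureReal_def (s := _ ⁻¹' _), measure_preimage_add_right, ← measureReal_def]
    push_cast
    have := ih (by linarith)
    linarith

theorem downSet_eq_upSet_compl (E : Set (Eu d)) (v : Eu d) (R : ℝ) :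
    downSet E v R = upSet Eᶜ v R := by
  ext y; simp [upSet, downSet]

/-- Jumps upwards over a displacement with nonnegative component along `e` are rare. -/
theorem jump_small {E : Set (Eu d)} (hE : MeasurableSet E) {e : Eu d} (hen : ‖e‖ = 1)
    {K W ε1 : ℝ} (hK : 0 ≤ K) {L : ℕ} (hL6 : (6 : ℝ) < L)
    (hbound : (L : ℝ) * (K * (Real.sqrt W + (6 / L) ^ 2)) ≤ ε1 / 3)
    (hst : ∀ v : Eu d, ‖v‖ ≤ 1 → 0 ≤ ⟪e, v⟫ →
      volume.real (upSet E v 16) ≤ K * (Real.sqrt W + ‖v‖ ^ 2) ∧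
      (⟪e, v⟫ = 0 → volume.real (downSet E v 16) ≤ K * (Real.sqrt W + ‖v‖ ^ 2)))
    {a : Eu d} (ha : ‖a‖ ≤ 6) (hea : 0 ≤ ⟪e, a⟫) : volume.real (upSet E a 3) ≤ ε1 := by
  have hLp : (0 : ℝ) < L := by linarith
  set p := ⟪e, a⟫
  set w := a - p • e with hw
  have hew : ⟪e, w⟫ = 0 := by
    rw [hw, inner_sub_right, real_inner_smul_right, real_inner_self_eq_norm_sq, hen]
    ring
  have hp6 : p ≤ 6 := (real_inner_le_norm e a).trans (by rw [hen, one_mul]; exact ha)
  have hwn : ‖w‖ ≤ 6 := by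
    have h2 : ‖w + p • e‖ ^ 2 = ‖w‖ ^ 2 + p ^ 2 := by
      rw [norm_add_sq_real, real_inner_smul_right, real_inner_comm, hew, norm_smul,
        Real.norm_eq_abs, mul_pow, sq_abs, hen]
      ring
    rw [hw, sub_add_cancel] at h2
    nlinarith [pow_le_pow_left₀ (norm_nonneg a) ha 2, norm_nonneg w, sq_nonneg p]
  have hdiv : ∀ x : Eu d, ‖x‖ ≤ 6 → ‖(L : ℝ)⁻¹ • x‖ ≤ 6 / L := fun x hx => by
    rw [norm_smul, norm_inv, Real.norm_natCast, div_eq_inv_mul]
    exact mul_le_mul_of_nonneg_left hx (by positivity)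
  have hone : ∀ x : Eu d, ‖x‖ ≤ 6 → ‖(L : ℝ)⁻¹ • x‖ ≤ 1 := fun x hx =>
    (hdiv x hx).trans ((div_le_one hLp).2 hL6.le)
  have hback : ∀ x : Eu d, (L : ℝ) • (L : ℝ)⁻¹ • x = x := fun x => by
    rw [smul_smul, mul_inv_cancel₀ hLp.ne', one_smul]
  have hlen : ∀ x : Eu d, ‖x‖ ≤ 6 → (L : ℝ) * ‖(L : ℝ)⁻¹ • x‖ ≤ 6 := fun x hx => by
    have := mul_le_mul_of_nonneg_left (hdiv x hx) hLp.le
    rwa [mul_div_assoc', mul_div_cancel_left₀ _ hLp.ne'] at this
  have hsq : ∀ x : Eu d, ‖x‖ ≤ 6 → K * (Real.sqrt W + ‖(L : ℝ)⁻¹ • x‖ ^ 2)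
      ≤ K * (Real.sqrt W + (6 / L) ^ 2) := fun x hx =>
    mul_le_mul_of_nonneg_left (add_le_add le_rfl (pow_le_pow_left₀ (norm_nonneg _) (hdiv x hx) 2)) hK
  have hpe : ‖p • e‖ ≤ 6 := by
    rw [norm_smul, hen, mul_one, Real.norm_eq_abs, abs_of_nonneg hea]; exact hp6
  have hew' : ⟪e, (L : ℝ)⁻¹ • w⟫ = 0 := by rw [real_inner_smul_right, hew, mul_zero]
  have hs1 := hst ((L : ℝ)⁻¹ • w) (hone w hwn) hew'.ge
  have hs2 := hst ((L : ℝ)⁻¹ • (p • e)) (hone _ hpe) (by
    rw [real_inner_smul_right, real_inner_smul_right, real_inner_self_eq_norm_sq, hen]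
    positivity)
  have u1 : volume.real (upSet E w 3) ≤ ε1 / 3 := by
    have := upSet_steps hE _ L (R := 3) (by linarith [hlen w hwn]) (hs1.1.trans (hsq w hwn))
    rw [hback] at this
    exact this.trans hbound
  have u2 : volume.real (upSet E (p • e) 9) ≤ ε1 / 3 := by
    have := upSet_steps hE _ L (R := 9) (by linarith [hlen _ hpe]) (hs2.1.trans (hsq _ hpe))
    rw [hback] at this
    exact this.trans hbound
  have hsub : upSet E a 3 ⊆ upSet E w 3 ∪ (fun y => y + w) ⁻¹' upSet E (p • e) 9 := by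
    rintro y ⟨hy, h0, h1⟩
    by_cases hyw : y + w ∈ E
    · exact Or.inl ⟨hy, h0, hyw⟩
    · refine Or.inr ⟨mem_ball_zero_iff.2 ?_, hyw, ?_⟩
      · exact lt_of_le_of_lt (norm_add_le _ _) (by linarith [mem_ball_zero_iff.1 hy])
      · rwa [add_assoc, hw, sub_add_cancel]
  refine (measureReal_mono hsub (measure_union_ne_top
    (ne_top_of_le_ne_top measure_ball_lt_top.ne (measure_mono fun y hy => hy.1))
    (by rw [measure_preimage_add_right]
        exact ne_top_of_le_ne_top measure_ball_lt_top.ne (measure_mono fun y hy => hy.1)))).trans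
    ((measureReal_union_le _ _).trans ?_)
  rw [measureReal_def (s := _ ⁻¹' _), measure_preimage_add_right, ← measureReal_def]
  have hε0 : 0 ≤ ε1 / 3 := (mul_nonneg (Nat.cast_nonneg L) (mul_nonneg hK
    (add_nonneg (Real.sqrt_nonneg W) (sq_nonneg _)))).trans hbound
  linarith

/-- Pairs `q ∉ E`, `p ∈ E` with `p` above `q` are rare. -/
theorem pairs_bound {E : Set (Eu d)} {e : Eu d}
    {ε1 Vb : ℝ} (hε1p : 0 < ε1) (hVb : Vb = volume.real (ball (0 : Eu d) 6))
    (hjump : ∀ a : Eu d, ‖a‖ ≤ 6 → 0 ≤ ⟪e, a⟫ → volume.real (upSet E a 3) ≤ ε1)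
    {S T : Set (Eu d)} (hS : MeasurableSet S) (hT : MeasurableSet T) (hS' : S ⊆ Eᶜ ∩ ball 0 3)
    (hT' : T ⊆ E ∩ ball 0 3) (hord : ∀ q ∈ S, ∀ p ∈ T, ⟪e, q⟫ ≤ ⟪e, p⟫) :
    volume.real S * volume.real T ≤ ε1 * Vb := by
  have hfS : volume S ≠ ⊤ := ne_top_of_le_ne_top measure_ball_lt_top.ne
    (measure_mono fun y hy => (hS' hy).2)
  have hfT : volume T ≠ ⊤ := ne_top_of_le_ne_top measure_ball_lt_top.ne
    (measure_mono fun y hy => (hT' hy).2)
  set G : Set (Eu d × Eu d) := {z | z.1 ∈ S ∧ z.1 + z.2 ∈ T}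
  have hG : MeasurableSet G :=
    (measurable_fst hS).inter ((continuous_fst.add continuous_snd).measurable hT)
  have e1 : volume S * volume T = (volume.prod volume) G := by
    have h' : ∀ q, (volume : Measure (Eu d)) (Prod.mk q ⁻¹' G)
        = S.indicator (fun _ => volume T) q := by
      intro q
      by_cases hq : q ∈ S
      · rw [indicator_of_mem hq,
          show Prod.mk q ⁻¹' G = (fun a => q + a) ⁻¹' T by ext a; simp [G, hq],
          measure_preimage_add]
      · rw [indicator_of_notMem hq, show Prod.mk q ⁻¹' G = ∅ by ext a; simp [G, hq],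
          measure_empty]
    rw [Measure.prod_apply hG]
    simp only [h', lintegral_indicator_const hS, mul_comm]
  have e2 : (volume.prod volume) G ≤ ENNReal.ofReal ε1 * volume (ball (0 : Eu d) 6) := by
    rw [Measure.prod_apply_symm hG, ← setLIntegral_const, ← lintegral_indicator measurableSet_ball]
    refine lintegral_mono fun a => ?_
    by_cases ha : a ∈ ball (0 : Eu d) 6
    · rw [indicator_of_mem ha]
      by_cases hea : 0 ≤ ⟪e, a⟫
      · refine (measure_mono (t := upSet E a 3) fun q hq => ?_).trans ?_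
        · exact ⟨(hS' hq.1).2, (hS' hq.1).1, (hT' hq.2).1⟩
        · rw [← ENNReal.ofReal_toReal (ne_top_of_le_ne_top measure_ball_lt_top.ne
            (measure_mono fun y (hy : y ∈ upSet E a 3) => hy.1))]
          exact ENNReal.ofReal_le_ofReal (hjump a (mem_ball_zero_iff.1 ha).le hea)
      · refine le_of_eq_of_le (measure_eq_zero_iff_ae_notMem.2 (Eventually.of_forall fun q hq => ?_))
          zero_le
        have := hord q hq.1 (q + a) hq.2
        rw [inner_add_right] at this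
        linarith
    · rw [indicator_of_notMem ha]
      refine le_of_eq (measure_eq_zero_iff_ae_notMem.2 (Eventually.of_forall fun q hq => ?_))
      have h1 := mem_ball_zero_iff.1 (hS' hq.1).2
      have h2 := mem_ball_zero_iff.1 (hT' hq.2).2
      rw [mem_ball_zero_iff, not_lt] at ha
      have h3 := norm_sub_le (q + a) q
      rw [add_sub_cancel_left] at h3
      linarith
  rw [e1.symm] at e2
  have := ENNReal.toReal_mono
    (ENNReal.mul_ne_top ENNReal.ofReal_ne_top measure_ball_lt_top.ne) e2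
  simpa [ENNReal.toReal_mul, ENNReal.toReal_ofReal hε1p.le, measureReal_def, hVb] using this

/-- A central hyperplane halves the unit ball. -/
theorem half_ball {e : Eu d} (hen : ‖e‖ = 1) :
    volume.real (ball (0 : Eu d) 1 ∩ {y | ⟪e, y⟫ ≤ 0}) = volume.real (ball (0 : Eu d) 1) / 2 := by
  set B1 := ball (0 : Eu d) 1
  set ω := volume.real B1 with hω
  have hcont : Continuous fun y : Eu d => ⟪e, y⟫ := continuous_const.inner continuous_id
  have hmL : MeasurableSet {y : Eu d | ⟪e, y⟫ ≤ 0} :=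
    (isClosed_le hcont continuous_const).measurableSet
  have h0 : volume {y : Eu d | ⟪e, y⟫ = 0} = 0 := by
    have hne : (innerSL ℝ e : Eu d →L[ℝ] ℝ).toLinearMap ≠ 0 := fun h => by
      have := congrArg (fun f : Eu d →ₗ[ℝ] ℝ => f e) h
      simp [hen] at this
    exact Measure.addHaar_submodule volume (innerSL ℝ e : Eu d →L[ℝ] ℝ).toLinearMap.ker
      (fun h => hne (LinearMap.ker_eq_top.1 h))
  have hneg : volume.real (B1 ∩ {y | 0 < ⟪e, y⟫}) = volume.real (B1 ∩ {y | ⟪e, y⟫ < 0}) := by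
    rw [measureReal_def, measureReal_def,
      ← Measure.measure_preimage_neg volume (B1 ∩ {y | ⟪e, y⟫ < 0})]
    congr 2
    ext y
    simp [B1, inner_neg_right]
  have hle : volume.real (B1 ∩ {y | ⟪e, y⟫ < 0}) = volume.real (B1 ∩ {y | ⟪e, y⟫ ≤ 0}) := by
    refine measureReal_congr ((ae_eq_refl B1).inter ?_)
    refine ae_eq_set.2 ⟨?_, measure_mono_null (fun y hy => ?_) h0⟩
    · rw [sdiff_eq_bot_iff.2 (fun y (hy : ⟪e, y⟫ < 0) => hy.le)]
      exact measure_empty
    · exact le_antisymm hy.1 (not_lt.1 hy.2)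
  have hsum := measureReal_inter_add_sdiff (μ := volume) (s := B1) hmL measure_ball_lt_top.ne
  have : B1 \ {y : Eu d | ⟪e, y⟫ ≤ 0} = B1 ∩ {y | 0 < ⟪e, y⟫} := by
    ext y; simp
  rw [this, hneg, hle, ← hω] at hsum
  linarith

/-- **Few two-sided exits and density one half give a half-space.** -/
theorem half_space (d : ℕ) (hd : 0 < d) {β ε : ℝ} (hβ : 0 < β) (hβ1 : β ≤ 1) (hε : 0 < ε) :
    ∃ δ u : ℝ, 0 < δ ∧ 0 < u ∧ ∀ E : Set (Eu d), MeasurableSet E →
      volume.real (defectSet E ∩ ball 0 80 ×ˢ ball 0 80) ≤ δ →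
      |dens E 0 1 - 1 / 2| ≤ u →
      ∃ e : Eu d, ‖e‖ = 1 ∧ volume.real (E ∩ ball 0 3 ∩ {y | β < ⟪e, y⟫}) ≤ ε ∧
        volume.real (Eᶜ ∩ ball 0 3 ∩ {y | ⟪e, y⟫ < -β}) ≤ ε := by
  obtain ⟨K, hK, hsteps⟩ := step_bounds d
  set ω := volume.real (ball (0 : Eu d) 1) with hω
  have hωp : 0 < ω := unit_ball_pos d
  set Vb := volume.real (ball (0 : Eu d) 6) with hVb
  have hVbp : 0 < Vb := ball_real_pos 0 (by norm_num)
  set m := volume.real (ball (0 : Eu d) (β / 2)) with hm
  have hmp : 0 < m := ball_real_pos 0 (by linarith)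
  set ε1 := min (ε * (m / 2) / Vb) ((min 1 (m / 4)) ^ 2 / Vb) with hε1
  have hε1p : 0 < ε1 := by positivity
  obtain ⟨L, hL⟩ := exists_nat_gt (max 6 (2 * (3 * K * 36) / ε1))
  have hL6 : (6 : ℝ) < L := (le_max_left _ _).trans_lt hL
  have hLp : (0 : ℝ) < L := by linarith
  refine ⟨(ε1 / (2 * (3 * K * L + 1))) ^ 2, min 1 (m / 4) / ω, by positivity, by positivity,
    fun E hE hW hdens => ?_⟩
  obtain ⟨e, -, he1, hst⟩ := hsteps E hE
  have hen := he1 hd
  set W := volume.real (defectSet E ∩ ball 0 80 ×ˢ ball 0 80) with hWdef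
  have hsW : Real.sqrt W ≤ ε1 / (2 * (3 * K * L + 1)) :=
    (Real.sqrt_le_sqrt hW).trans (le_of_eq (Real.sqrt_sq (by positivity)))
  have hbound : (L : ℝ) * (K * (Real.sqrt W + (6 / L) ^ 2)) ≤ ε1 / 3 := by
    have h1 : (L : ℝ) * K * Real.sqrt W ≤ ε1 / 6 := by
      refine (mul_le_mul_of_nonneg_left hsW (by positivity)).trans ?_
      rw [mul_div_assoc', div_le_iff₀ (by positivity)]
      nlinarith
    have h2 : (L : ℝ) * K * (6 / L) ^ 2 ≤ ε1 / 6 := by
      have h := (le_max_right _ _).trans hL.le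
      rw [div_le_iff₀ hε1p] at h
      have e : (L : ℝ) * K * (6 / L) ^ 2 = 36 * K / L := by field_simp; ring
      rw [e, div_le_iff₀ hLp]
      linarith
    rw [show (L : ℝ) * (K * (Real.sqrt W + (6 / L) ^ 2))
      = (L : ℝ) * K * Real.sqrt W + (L : ℝ) * K * (6 / L) ^ 2 by ring]
    linarith
  have hjump : ∀ a : Eu d, ‖a‖ ≤ 6 → 0 ≤ ⟪e, a⟫ → volume.real (upSet E a 3) ≤ ε1 := fun a =>
    jump_small hE hen hK hL6 hbound hst
  have hpairs : ∀ S T : Set (Eu d), MeasurableSet S → MeasurableSet T → S ⊆ Eᶜ ∩ ball 0 3 →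
      T ⊆ E ∩ ball 0 3 → (∀ q ∈ S, ∀ p ∈ T, ⟪e, q⟫ ≤ ⟪e, p⟫) →
      volume.real S * volume.real T ≤ ε1 * Vb := fun S T =>
    pairs_bound hε1p hVb hjump
  -- the two halves of the unit ball
  have hcont : Continuous fun y : Eu d => ⟪e, y⟫ := continuous_const.inner continuous_id
  have hmU : MeasurableSet {y : Eu d | 0 < ⟪e, y⟫} :=
    (isOpen_lt continuous_const hcont).measurableSet
  have hmL : MeasurableSet {y : Eu d | ⟪e, y⟫ ≤ 0} :=
    (isClosed_le hcont continuous_const).measurableSet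
  set B1 := ball (0 : Eu d) 1
  set A := volume.real (E ∩ B1 ∩ {y | 0 < ⟪e, y⟫}) with hA
  set A' := volume.real (Eᶜ ∩ B1 ∩ {y | ⟪e, y⟫ ≤ 0}) with hA'
  have hfB : ∀ S : Set (Eu d), S ⊆ B1 → volume S ≠ ⊤ := fun S hS =>
    ne_top_of_le_ne_top measure_ball_lt_top.ne (measure_mono hS)
  have hAA : A' * A ≤ ε1 * Vb := hpairs _ _ ((hE.compl.inter measurableSet_ball).inter hmL)
    ((hE.inter measurableSet_ball).inter hmU)
    (fun y hy => ⟨hy.1.1, ball_subset_ball (by norm_num) hy.1.2⟩)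
    (fun y hy => ⟨hy.1.1, ball_subset_ball (by norm_num) hy.1.2⟩)
    fun q hq p hp => le_of_lt (lt_of_le_of_lt hq.2 hp.2)
  have hhalf : volume.real (B1 ∩ {y | ⟪e, y⟫ ≤ 0}) = ω / 2 := half_ball hen
  have hdiff : |A - A'| ≤ min 1 (m / 4) := by
    have h1 := measureReal_inter_add_sdiff (μ := volume) (s := E ∩ B1) hmL (hfB _ inter_subset_right)
    have h2 := measureReal_inter_add_sdiff (μ := volume) (s := B1 ∩ {y | ⟪e, y⟫ ≤ 0}) hE
      (hfB _ inter_subset_left)
    rw [show (E ∩ B1) \ {y | ⟪e, y⟫ ≤ 0} = E ∩ B1 ∩ {y | 0 < ⟪e, y⟫} by ext y; simp] at h1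
    rw [show B1 ∩ {y | ⟪e, y⟫ ≤ 0} ∩ E = E ∩ B1 ∩ {y | ⟪e, y⟫ ≤ 0} by ext y; simp; tauto,
      show (B1 ∩ {y | ⟪e, y⟫ ≤ 0}) \ E = Eᶜ ∩ B1 ∩ {y | ⟪e, y⟫ ≤ 0} by ext y; simp; tauto,
      hhalf] at h2
    have h3 : volume.real (E ∩ B1) = dens E 0 1 * ω := by
      rw [dens, ← hω, div_mul_cancel₀ _ hωp.ne']
    have h4 : A - A' = (dens E 0 1 - 1 / 2) * ω := by rw [hA, hA']; linarith
    rw [h4, abs_mul, abs_of_pos hωp]
    calc |dens E 0 1 - 1 / 2| * ω ≤ min 1 (m / 4) / ω * ω :=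
          mul_le_mul_of_nonneg_right hdens hωp.le
      _ = _ := div_mul_cancel₀ _ hωp.ne'
  have hq : ε1 * Vb ≤ (min 1 (m / 4)) ^ 2 := by
    have := min_le_right (ε * (m / 2) / Vb) ((min 1 (m / 4)) ^ 2 / Vb)
    rwa [← hε1, le_div_iff₀ hVbp] at this
  have hsmall : A ≤ m / 2 ∧ A' ≤ m / 2 := by
    have hA0 : 0 ≤ A := measureReal_nonneg
    have hA0' : 0 ≤ A' := measureReal_nonneg
    have hm4 : min 1 (m / 4) ≤ m / 4 := min_le_right _ _
    have hd1 := abs_le.1 hdiff
    rcases le_total A A' with hle | hle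
    · have : A ≤ min 1 (m / 4) := by nlinarith [lt_min one_pos (show 0 < m / 4 by linarith)]
      exact ⟨by linarith, by linarith⟩
    · have : A' ≤ min 1 (m / 4) := by nlinarith [lt_min one_pos (show 0 < m / 4 by linarith)]
      exact ⟨by linarith, by linarith⟩
  have hfin : ε1 * Vb ≤ ε * (m / 2) := by
    have := min_le_left (ε * (m / 2) / Vb) ((min 1 (m / 4)) ^ 2 / Vb)
    rwa [← hε1, le_div_iff₀ hVbp] at this
  have hb : ∀ s : ℝ, |s| = β / 2 → ball (s • e) (β / 2) ⊆ B1 ∧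
      ∀ y ∈ ball (s • e) (β / 2), |⟪e, y⟫ - s| < β / 2 := fun s hs => by
    refine ⟨fun y hy => ?_, fun y hy => ?_⟩
    · have := norm_le_norm_add_norm_sub' y (s • e)
      rw [norm_smul, hen, mul_one, Real.norm_eq_abs, hs] at this
      rw [mem_ball_iff_norm] at hy
      exact mem_ball_zero_iff.2 (by linarith)
    · have h1 := abs_real_inner_le_norm e (y - s • e)
      rw [inner_sub_right, real_inner_smul_right, real_inner_self_eq_norm_sq, hen, one_mul] at h1
      norm_num at h1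
      exact lt_of_le_of_lt h1 (mem_ball_iff_norm.1 hy)
  have hmball : ∀ c : Eu d, volume.real (ball c (β / 2)) = m := fun c => by
    rw [hm, measureReal_def, measureReal_def, Measure.addHaar_ball_center]
  refine ⟨e, hen, ?_, ?_⟩
  · obtain ⟨hsubB, hin⟩ := hb (β / 2) (abs_of_pos (by linarith))
    set Z := Eᶜ ∩ ball ((β / 2) • e) (β / 2) with hZ
    have h1 : m / 2 ≤ volume.real Z := by
      have := measureReal_inter_add_sdiff (μ := volume) (s := ball ((β / 2) • e) (β / 2)) hE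
        measure_ball_lt_top.ne
      rw [hmball, show ball ((β / 2) • e) (β / 2) \ E = Z by ext y; simp [Z, and_comm]] at this
      have h' : volume.real (ball ((β / 2) • e) (β / 2) ∩ E) ≤ A := by
        refine measureReal_mono (fun y hy => ⟨⟨hy.2, hsubB hy.1⟩, ?_⟩)
          (hfB _ fun y hy => hy.1.2)
        have := abs_lt.1 (hin y hy.1)
        show 0 < ⟪e, y⟫
        linarith
      linarith [hsmall.1]
    have h2 := hpairs Z (E ∩ ball 0 3 ∩ {y | β < ⟪e, y⟫}) (hE.compl.inter measurableSet_ball)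
      ((hE.inter measurableSet_ball).inter (isOpen_lt continuous_const hcont).measurableSet)
      (fun y hy => ⟨hy.1, ball_subset_ball (by norm_num) (hsubB hy.2)⟩) inter_subset_left
      (fun q hq p hp => by
        have := abs_lt.1 (hin q hq.2)
        have : β < ⟪e, p⟫ := hp.2
        linarith)
    have h3 := mul_le_mul_of_nonneg_right h1
      (measureReal_nonneg (μ := volume) (s := E ∩ ball 0 3 ∩ {y | β < ⟪e, y⟫}))
    have h4 : 0 < m / 2 := by linarith
    exact le_of_mul_le_mul_left (by linarith : m / 2 * _ ≤ m / 2 * ε) h4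
  · obtain ⟨hsubB, hin⟩ := hb (-(β / 2)) (by rw [abs_neg, abs_of_pos (by linarith)])
    set Z := E ∩ ball ((-(β / 2)) • e) (β / 2) with hZ
    have h1 : m / 2 ≤ volume.real Z := by
      have := measureReal_inter_add_sdiff (μ := volume) (s := ball ((-(β / 2)) • e) (β / 2)) hE
        measure_ball_lt_top.ne
      rw [hmball, inter_comm, ← hZ] at this
      have h' : volume.real (ball ((-(β / 2)) • e) (β / 2) \ E) ≤ A' := by
        refine measureReal_mono (fun y hy => ⟨⟨hy.2, hsubB hy.1⟩, ?_⟩)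
          (hfB _ fun y hy => hy.1.2)
        have := abs_lt.1 (hin y hy.1)
        show ⟪e, y⟫ ≤ 0
        linarith
      linarith [hsmall.2]
    have h2 := hpairs (Eᶜ ∩ ball 0 3 ∩ {y | ⟪e, y⟫ < -β}) Z
      ((hE.compl.inter measurableSet_ball).inter (isOpen_lt hcont continuous_const).measurableSet)
      (hE.inter measurableSet_ball) inter_subset_left
      (fun y hy => ⟨hy.1, ball_subset_ball (by norm_num) (hsubB hy.2)⟩)
      (fun q hq p hp => by
        have := abs_lt.1 (hin p hp.2)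
        have : ⟪e, q⟫ < -β := hq.2
        linarith)
    have h3 := mul_le_mul_of_nonneg_left h1
      (measureReal_nonneg (μ := volume) (s := Eᶜ ∩ ball 0 3 ∩ {y | ⟪e, y⟫ < -β}))
    have h4 : 0 < m / 2 := by linarith
    exact le_of_mul_le_mul_right (by linarith : _ * (m / 2) ≤ ε * (m / 2)) h4

end

end Vale.Agent.P137
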