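import Vale.Agent.P137.Chord
import Mathlib.Analysis.SpecialFunctions.JapaneseBracket

/-!
# P137: the potential that dominates the increments of the clipped maximal function
-/

namespace Vale.Agent.P137

open MeasureTheory Set Metric Filter
open scoped ENNReal NNReal Topology

noncomputable section

variable {d : ℕ}

/-- The kernel at distance `z` and inverse scale `G`. -/
def kern (G : ℝ≥0∞) (z : Eu d) : ℝ≥0∞ := ((‖z‖ₑ + G⁻¹) ^ (d + 1))⁻¹

/-- The integral of the kernel at unit scale. -/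
def kernMass (d : ℕ) : ℝ≥0∞ :=
  ∫⁻ z : Eu d, ENNReal.ofReal ((1 + ‖z‖) ^ (-((d : ℝ) + 1)))

theorem kernMass_ne_top (d : ℕ) : kernMass d ≠ ⊤ :=
  (finite_integral_one_add_norm (μ := volume) (E := Eu d)
    (by rw [finrank_euclideanSpace_fin]; linarith)).ne

theorem kernMass_ne_zero (d : ℕ) : kernMass d ≠ 0 := by
  refine (lintegral_pos_iff_support ?_).2 ?_ |>.ne'
  · fun_prop
  · have : Function.support (fun z : Eu d => ENNReal.ofReal ((1 + ‖z‖) ^ (-((d : ℝ) + 1)))) = univ := by
      ext z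
      simp only [Function.mem_support, ne_eq, ENNReal.ofReal_eq_zero, not_le, mem_univ, iff_true]
      positivity
    rw [this]
    exact Measure.measure_univ_pos.2 (NeZero.ne volume)

theorem lintegral_kern_le (G : ℝ≥0∞) : ∫⁻ z : Eu d, kern G z ≤ kernMass d * G := by
  rcases eq_or_ne G ⊤ with rfl | hG
  · rw [ENNReal.mul_top (kernMass_ne_zero d)]; exact le_top
  rcases eq_or_ne G 0 with rfl | hG0
  · simp [kern]
  obtain ⟨s, hs, rfl⟩ : ∃ s : ℝ, 0 < s ∧ G = (ENNReal.ofReal s)⁻¹ := by
    refine ⟨(G⁻¹).toReal, ENNReal.toReal_pos (ENNReal.inv_ne_zero.2 hG) (ENNReal.inv_ne_top.2 hG0), ?_⟩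
    rw [ENNReal.ofReal_toReal (ENNReal.inv_ne_top.2 hG0), inv_inv]
  have hk : ∀ z : Eu d, kern (ENNReal.ofReal s)⁻¹ z = ENNReal.ofReal ((s ^ (d + 1))⁻¹)
      * ENNReal.ofReal ((1 + ‖s⁻¹ • z‖) ^ (-((d : ℝ) + 1))) := by
    intro z
    rw [kern, inv_inv, ← ofReal_norm, ← ENNReal.ofReal_add (norm_nonneg z) hs.le,
      ← ENNReal.ofReal_pow (by positivity), ← ENNReal.ofReal_inv_of_pos (by positivity),
      ← ENNReal.ofReal_mul (by positivity)]
    congr 1
    rw [Real.rpow_neg (by positivity), show ((d : ℝ) + 1) = ((d + 1 : ℕ) : ℝ) by push_cast; ring,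
      Real.rpow_natCast, ← mul_inv, ← mul_pow, norm_smul, norm_inv, Real.norm_eq_abs, abs_of_pos hs]
    congr 2
    field_simp
    ring
  simp only [hk]
  rw [lintegral_const_mul _ (by fun_prop)]
  have hmap := lintegral_map (μ := (volume : Measure (Eu d)))
    (f := fun z : Eu d => ENNReal.ofReal ((1 + ‖z‖) ^ (-((d : ℝ) + 1))))
    (g := fun z : Eu d => s⁻¹ • z) (by fun_prop) (by fun_prop)
  rw [← hmap, Measure.map_addHaar_smul volume (inv_ne_zero hs.ne'), lintegral_smul_measure,
    finrank_euclideanSpace_fin, smul_eq_mul, ← mul_assoc, ← ENNReal.ofReal_mul (by positivity),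
    kernMass, mul_comm _ (ENNReal.ofReal s)⁻¹, ← ENNReal.ofReal_inv_of_pos hs]
  refine le_of_eq (congrArg (fun c => ENNReal.ofReal c * _) ?_)
  rw [inv_pow, inv_inv, abs_of_pos (pow_pos hs d), pow_succ]
  field_simp

/-- The potential of `E`. -/
def pot (E : Set (Eu d)) (η : ℝ) (x : Eu d) : ℝ≥0∞ :=
  ∫⁻ y in E, kern (invScale E η y) (x - y)

theorem measurable_potKernel {E : Set (Eu d)} (hE : MeasurableSet E) (η : ℝ) :
    Measurable fun p : Eu d × Eu d => kern (invScale E η p.2) (p.1 - p.2) :=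
  ((((measurable_fst.sub measurable_snd).enorm).add
    ((measurable_invScale hE η).comp measurable_snd).inv).pow_const _).inv

theorem measurable_pot {E : Set (Eu d)} (hE : MeasurableSet E) (η : ℝ) :
    Measurable (pot E η) :=
  (measurable_potKernel hE η).lintegral_prod_right'

theorem lintegral_pot_le {E : Set (Eu d)} (hE : MeasurableSet E) {P : ℝ≥0∞}
    (hP : TranslationBound E P) {η : ℝ} (hη : η < 1 / 2) :
    ∫⁻ x, pot E η x ≤ kernMass d * (ENNReal.ofReal (2 / (1 - 2 * η)) * P) := by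
  simp only [pot]
  rw [lintegral_lintegral_swap (f := fun x y => kern (invScale E η y) (x - y))
    (measurable_potKernel hE η).aemeasurable]
  refine le_trans (lintegral_mono fun y => ?_) ?_ (b := ∫⁻ y in E, kernMass d * invScale E η y)
  · rw [lintegral_sub_right_eq_self (fun z => kern (invScale E η y) z) y]
    exact lintegral_kern_le _
  · rw [lintegral_const_mul _ (measurable_invScale hE η)]
    exact mul_le_mul' le_rfl (invScale_integral hE hP hη)

/-- Points with a low-density radius comparable to `r` feed the potential. -/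
theorem mass_le_pot {E : Set (Eu d)} (hE : MeasurableSet E) {η c : ℝ} {x : Eu d} {r ρ : ℝ}
    (hr : 0 < r) (hc : 0 < c)
    (hy : ∀ y ∈ ball x ρ, ∃ N n : ℕ, 1 ≤ n ∧ dens E y (n * step N) ≤ η ∧
      ‖x - y‖ + n * step N ≤ c * r) :
    ENNReal.ofReal (volume.real (E ∩ ball x ρ) / (c * r) ^ (d + 1)) ≤ pot E η x := by
  have hp : 0 < c * r := mul_pos hc hr
  calc ENNReal.ofReal (volume.real (E ∩ ball x ρ) / (c * r) ^ (d + 1))
      = ∫⁻ _ in E ∩ ball x ρ, ((ENNReal.ofReal (c * r)) ^ (d + 1))⁻¹ := by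
        rw [setLIntegral_const, ENNReal.ofReal_div_of_pos (pow_pos hp _), measureReal_def,
          ENNReal.ofReal_toReal (ne_top_of_le_ne_top measure_ball_lt_top.ne
            (measure_mono inter_subset_right)), ENNReal.ofReal_pow hp.le, ENNReal.div_eq_inv_mul]
    _ ≤ ∫⁻ y in E ∩ ball x ρ, kern (invScale E η y) (x - y) := by
        refine setLIntegral_mono' (hE.inter measurableSet_ball) fun y hy' => ?_
        obtain ⟨N, n, hn, hd, hle⟩ := hy y hy'.2
        refine ENNReal.inv_le_inv.2 (pow_le_pow_left' ?_ _)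
        refine le_trans (add_le_add le_rfl (ENNReal.inv_le_inv.2 (le_invScale N n hn hd))) ?_
        rw [inv_inv, ← ofReal_norm, ← ENNReal.ofReal_add (norm_nonneg _)
          (mul_nonneg (Nat.cast_nonneg n) (step_pos N).le)]
        exact ENNReal.ofReal_le_ofReal hle
    _ ≤ pot E η x := lintegral_mono_set inter_subset_left

end

end Vale.Agent.P137
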