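import Mathlib

/-!
# P137: absolute continuity of a function that is Lipschitz off the contact set
-/

namespace Vale.Agent.P137

open MeasureTheory Set Filter
open scoped ENNReal NNReal Topology

noncomputable section

/-- `v` with the endpoints `s` and `t` added. -/
def withEnds (s t : ℝ) (v : ℕ → ℝ) (n k : ℕ) : ℝ :=
  if k = 0 then s else if k ≤ n + 1 then v (k - 1) else t

theorem withEnds_spec {s t : ℝ} {v : ℕ → ℝ} {n : ℕ} (hst : s ≤ t) (hv : Monotone v)
    (hm : ∀ k, v k ∈ Icc s t) :
    Monotone (withEnds s t v n) ∧ (∀ k, withEnds s t v n k ∈ Icc s t) ∧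
      withEnds s t v n 0 = s ∧ withEnds s t v n (n + 2) = t := by
  have hmem : ∀ k, withEnds s t v n k ∈ Icc s t := fun k => by
    unfold withEnds
    split_ifs
    exacts [left_mem_Icc.2 hst, hm _, right_mem_Icc.2 hst]
  refine ⟨monotone_nat_of_le_succ fun k => ?_, hmem, by simp [withEnds], by simp [withEnds]⟩
  rcases k with _ | k
  · simpa [withEnds] using (hmem 1).1
  · by_cases h : k + 1 + 1 ≤ n + 1
    · simp [withEnds, h, (by omega : k + 1 ≤ n + 1)]
      exact hv (Nat.le_succ k)
    · have : withEnds s t v n (k + 1 + 1) = t := by simp [withEnds, h]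
      rw [this]
      exact (hmem _).2

theorem sum_le_withEnds (s t : ℝ) (v : ℕ → ℝ) (n : ℕ) (f : ℝ → ℝ) :
    ∑ k ∈ Finset.range n, edist (f (v (k + 1))) (f (v k)) ≤
      ∑ k ∈ Finset.range (n + 2),
        edist (f (withEnds s t v n (k + 1))) (f (withEnds s t v n k)) := by
  have e : ∀ k ∈ Finset.range n, edist (f (v (k + 1))) (f (v k)) =
      edist (f (withEnds s t v n (k + 1 + 1))) (f (withEnds s t v n (k + 1))) := fun k hk => by
    have := Finset.mem_range.1 hk
    simp [withEnds, (by omega : k + 1 + 1 ≤ n + 1), (by omega : k + 1 ≤ n + 1)]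
  rw [Finset.sum_congr rfl e, Finset.sum_range_succ', Finset.sum_range_succ]
  exact le_add_of_le_of_nonneg (le_add_of_nonneg_right zero_le) zero_le

/-- The part of `h` below the level `η`. -/
def below (η : ℝ) (h : ℝ → ℝ) (t : ℝ) : ℝ := min (h t) η

/-- The part of `h` above the level `η`. -/
def above (η : ℝ) (h : ℝ → ℝ) (t : ℝ) : ℝ := max (h t - η) 0

theorem below_add_above (η : ℝ) (h : ℝ → ℝ) (t : ℝ) : below η h t + above η h t = h t := by
  rcases le_total (h t) η with e | e
  · simp [below, above, e]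
  · simp [below, above, e]

theorem edist_split (η : ℝ) (h : ℝ → ℝ) (x y : ℝ) :
    edist (below η h x) (below η h y) + edist (above η h x) (above η h y)
      = edist (h x) (h y) := by
  simp only [edist_dist, Real.dist_eq]
  rw [← ENNReal.ofReal_add (abs_nonneg _) (abs_nonneg _)]
  congr 1
  wlog hxy : h y ≤ h x generalizing x y
  · rw [abs_sub_comm (below η h x), abs_sub_comm (above η h x), abs_sub_comm (h x)]
    exact this y x (le_of_not_ge hxy)
  rw [abs_of_nonneg, abs_of_nonneg, abs_of_nonneg (sub_nonneg.2 hxy)]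
  · linarith [below_add_above η h x, below_add_above η h y]
  · exact sub_nonneg.2 (max_le_max (by linarith) le_rfl)
  · exact sub_nonneg.2 (min_le_min hxy le_rfl)

/-- Variation below a level plus oscillation above it. -/
theorem variation_below_add (η : ℝ) (h : ℝ → ℝ) {s t : ℝ} (hst : s ≤ t) :
    eVariationOn (below η h) (Icc s t) + edist (above η h s) (above η h t)
      ≤ eVariationOn h (Icc s t) := by
  have : Nonempty {u : ℕ → ℝ // Monotone u ∧ ∀ i, u i ∈ Icc s t} :=
    ⟨⟨fun _ => s, monotone_const, fun _ => left_mem_Icc.2 hst⟩⟩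
  rw [eVariationOn, ENNReal.iSup_add]
  refine iSup_le fun ⟨m, v, hv, hm⟩ => ?_
  obtain ⟨w1, w2, w3, w4⟩ := withEnds_spec (n := m) hst hv hm
  set w := withEnds s t v m with hw
  have hA : edist (above η h s) (above η h t)
      ≤ ∑ k ∈ Finset.range (m + 2), edist (above η h (w k)) (above η h (w (k + 1))) := by
    rw [← w3, ← w4]
    exact edist_le_range_sum_edist (fun k => above η h (w k)) (m + 2)
  refine le_trans (add_le_add (sum_le_withEnds s t v m (below η h)) hA) ?_
  refine le_trans ?_ (eVariationOn.sum_le (f := h) (n := m + 2) w1 w2)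
  rw [← Finset.sum_add_distrib]
  refine le_of_eq (Finset.sum_congr rfl fun k _ => ?_)
  rw [edist_comm (above η h (w k))]
  exact edist_split _ _ _ _

/-- The variation of a nonnegative function below a small level is small. -/
theorem exists_level {h : ℝ → ℝ} {a b : ℝ} (hab : a ≤ b)
    (hbv : eVariationOn h (Icc a b) ≠ ⊤) (h0 : ∀ t ∈ Icc a b, 0 ≤ h t) {ε : ℝ} (hε : 0 < ε) :
    ∃ η, 0 < η ∧ eVariationOn (below η h) (Icc a b) ≤ ENNReal.ofReal ε := by
  have : Nonempty {u : ℕ → ℝ // Monotone u ∧ ∀ i, u i ∈ Icc a b} :=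
    ⟨⟨fun _ => a, monotone_const, fun _ => left_mem_Icc.2 hab⟩⟩
  obtain ⟨⟨m, v, hv, hm⟩, hsum⟩ : ∃ p : ℕ × {u : ℕ → ℝ // Monotone u ∧ ∀ i, u i ∈ Icc a b},
      eVariationOn h (Icc a b) ≤ (∑ i ∈ Finset.range p.1,
        edist (h ((p.2 : ℕ → ℝ) (i + 1))) (h ((p.2 : ℕ → ℝ) i))) + ENNReal.ofReal (ε / 2) := by
    by_contra hcon
    push Not at hcon
    have h1 : eVariationOn h (Icc a b) + ENNReal.ofReal (ε / 2) ≤ eVariationOn h (Icc a b) := by
      rw [eVariationOn, ENNReal.iSup_add]
      exact iSup_le fun p => (hcon p).le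
    exact absurd h1 (not_le.2 (ENNReal.lt_add_right hbv (by simpa using hε)))
  dsimp only at hsum
  obtain ⟨w1, w2, w3, w4⟩ := withEnds_spec (n := m) hab hv hm
  set w := withEnds a b v m
  set η := ε / 2 / (2 * (m + 2)) with hη
  have hη0 : 0 < η := by positivity
  refine ⟨η, hη0, ?_⟩
  set A := ∑ k ∈ Finset.range (m + 2), edist (above η h (w k)) (above η h (w (k + 1))) with hA
  have h1 : eVariationOn (below η h) (Icc a b) + A ≤ eVariationOn h (Icc a b) := by
    have e1 := eVariationOn.sum' (below η h) w1 (n := m + 2)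
    have e2 := eVariationOn.sum' h w1 (n := m + 2)
    rw [w3, w4] at e1 e2
    rw [← e1, ← e2, hA, ← Finset.sum_add_distrib]
    exact Finset.sum_le_sum fun k _ => variation_below_add η h (w1 k.le_succ)
  have hd : ∀ x ∈ Icc a b, |above η h x - h x| ≤ η := fun x hx => by
    have := h0 x hx
    rw [abs_le]
    refine ⟨?_, sub_le_iff_le_add.2 (max_le (by linarith) (by linarith))⟩
    linarith [le_max_left (h x - η) 0, show above η h x = max (h x - η) 0 from rfl]
  have h2 : eVariationOn h (Icc a b) ≤ A + ENNReal.ofReal ε := by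
    refine hsum.trans ((add_le_add (sum_le_withEnds a b v m h) le_rfl).trans ?_)
    refine le_trans (add_le_add (le_trans (Finset.sum_le_sum fun k _ => ?_)
      (le_of_eq Finset.sum_add_distrib)) le_rfl)
      (le_of_eq (?_ : A + ∑ _k ∈ Finset.range (m + 2), ENNReal.ofReal (2 * η)
        + ENNReal.ofReal (ε / 2) = _))
    · simp only [edist_dist, Real.dist_eq]
      rw [← ENNReal.ofReal_add (abs_nonneg _) (by positivity)]
      refine ENNReal.ofReal_le_ofReal ?_
      have e1 := abs_le.1 (hd (w k) (w2 k))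
      have e2 := abs_le.1 (hd (w (k + 1)) (w2 (k + 1)))
      rw [abs_sub_comm (above η h (w k))]
      exact abs_le.2 ⟨by linarith [neg_abs_le (above η h (w (k + 1)) - above η h (w k))],
        by linarith [le_abs_self (above η h (w (k + 1)) - above η h (w k))]⟩
    · rw [Finset.sum_const, Finset.card_range, ← ENNReal.ofReal_nsmul, add_assoc,
        ← ENNReal.ofReal_add (by positivity) (by positivity), nsmul_eq_mul, hη]
      congr 2
      push_cast
      field_simp
      norm_num
  have hAt : A ≠ ⊤ := by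
    refine ne_top_of_le_ne_top hbv (le_trans ?_ h1)
    exact le_add_self
  exact ENNReal.le_of_add_le_add_right hAt ((h1.trans h2).trans_eq (add_comm _ _))

/-- Disjoint intervals see at most the variation. -/
theorem sum_dist_le_variation {p : ℝ → ℝ} {a b : ℝ} (hab : a ≤ b)
    (hbv : BoundedVariationOn p univ) {E : ℕ × (ℕ → ℝ × ℝ)}
    (hE : E ∈ AbsolutelyContinuousOnInterval.disjWithin a b) :
    ∑ i ∈ Finset.range E.1, dist (p (E.2 i).1) (p (E.2 i).2)
      ≤ (eVariationOn p (Icc a b)).toReal := by
  obtain ⟨hmem, hdisj⟩ := hE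
  have hl := hbv.locallyBoundedVariationOn
  set V := variationOnFromTo p univ a with hV
  have hmono : Monotone V := monotoneOn_univ.1 (variationOnFromTo.monotoneOn hl (mem_univ a))
  have hstep : ∀ x y, dist (p x) (p y) ≤ |V y - V x| := by
    intro x y
    wlog hxy : x ≤ y generalizing x y
    · rw [dist_comm, abs_sub_comm]; exact this y x (le_of_not_ge hxy)
    have hadd := variationOnFromTo.add hl (mem_univ a) (mem_univ x) (mem_univ y)
    rw [hV, ← hadd, add_sub_cancel_left, variationOnFromTo.eq_of_le _ _ hxy, univ_inter,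
      abs_of_nonneg ENNReal.toReal_nonneg, dist_edist]
    exact ENNReal.toReal_mono (ne_top_of_le_ne_top hbv (eVariationOn.mono p (subset_univ _)))
      (eVariationOn.edist_le p (left_mem_Icc.2 hxy) (right_mem_Icc.2 hxy))
  have hVb : V b - V a = (eVariationOn p (Icc a b)).toReal := by
    rw [hV, variationOnFromTo.self, sub_zero, variationOnFromTo.eq_of_le _ _ hab, univ_inter]
  refine (Finset.sum_le_sum fun i _ => hstep _ _).trans (hVb ▸ ?_)
  have hd : Set.PairwiseDisjoint (↑(Finset.range E.1) : Set ℕ)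
      fun i => uIoc (V (E.2 i).1) (V (E.2 i).2) := by
    intro i hi j hj hij
    have hd0 : Disjoint (uIoc (E.2 i).1 (E.2 i).2) (uIoc (E.2 j).1 (E.2 j).2) := hdisj hi hj hij
    simp only [Function.onFun, uIoc, ← hmono.map_min, ← hmono.map_max]
    rw [uIoc, uIoc, Ioc_disjoint_Ioc] at hd0
    rw [Ioc_disjoint_Ioc, ← hmono.map_min, ← hmono.map_max]
    exact hmono hd0
  have hsub : (⋃ i ∈ Finset.range E.1, uIoc (V (E.2 i).1) (V (E.2 i).2)) ⊆ Ioc (V a) (V b) := by
    refine iUnion₂_subset fun i hi => ?_
    obtain ⟨h1, h2⟩ := hmem i hi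
    rw [uIcc_of_le hab] at h1 h2
    exact Ioc_subset_Ioc (le_min (hmono h1.1) (hmono h2.1)) (max_le (hmono h1.2) (hmono h2.2))
  have hle := measure_mono (μ := volume) hsub
  rw [measure_biUnion_finset hd fun i _ => measurableSet_uIoc, Real.volume_Ioc] at hle
  simp only [Real.volume_uIoc] at hle
  rw [← ENNReal.ofReal_sum_of_nonneg fun i _ => abs_nonneg _] at hle
  exact (ENNReal.ofReal_le_ofReal_iff (sub_nonneg.2 (hmono hab))).1 hle

/-- A function above an absolutely continuous one, Lipschitz from every point where it exceeds it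
by a fixed amount, is absolutely continuous. -/
theorem absolutelyContinuous_of_levels {f g : ℝ → ℝ} {a b : ℝ} (hab : a ≤ b)
    (hf : AbsolutelyContinuousOnInterval f a b) (hfv : BoundedVariationOn f univ)
    (hgv : BoundedVariationOn g univ) (hle : ∀ t ∈ Icc a b, f t ≤ g t)
    (hlip : ∀ η, 0 < η → ∃ L, 0 ≤ L ∧ ∀ t ∈ Icc a b, ∀ t' ∈ Icc a b, f t + η ≤ g t →
      g t - g t' ≤ L * |t - t'|) :
    AbsolutelyContinuousOnInterval g a b := by
  set h := fun t => g t - f t with hh
  have hhv : BoundedVariationOn h univ := by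
    refine ne_top_of_le_ne_top (ENNReal.add_ne_top.2 ⟨hgv, hfv⟩) (iSup_le fun ⟨m, u, hu, hm⟩ => ?_)
    refine le_trans ?_ (add_le_add (eVariationOn.sum_le (f := g) (n := m) hu hm)
      (eVariationOn.sum_le (f := f) (n := m) hu hm))
    rw [← Finset.sum_add_distrib]
    refine Finset.sum_le_sum fun k _ => ?_
    simp only [edist_dist, h, Real.dist_eq]
    rw [← ENNReal.ofReal_add (abs_nonneg _) (abs_nonneg _)]
    refine ENNReal.ofReal_le_ofReal (le_trans (le_of_eq ?_) (abs_sub _ _))
    congr 1
    ring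
  rw [absolutelyContinuousOnInterval_iff] at hf ⊢
  intro ε hε
  obtain ⟨η, hη, hvar⟩ := exists_level hab
    (ne_top_of_le_ne_top hhv (eVariationOn.mono h (subset_univ _)))
    (fun t ht => sub_nonneg.2 (hle t ht)) (show (0 : ℝ) < ε / 4 by positivity)
  obtain ⟨L, hL0, hL⟩ := hlip η hη
  obtain ⟨δ₁, hδ₁, hfδ⟩ := hf (ε / 8) (by positivity)
  refine ⟨min δ₁ (ε / (4 * (L + 1))), lt_min hδ₁ (by positivity), fun E hE hlen => ?_⟩
  have habove : ∀ s ∈ Icc a b, ∀ t ∈ Icc a b,
      above η h t - above η h s ≤ L * |t - s| + |f t - f s| := by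
    intro s hs t ht
    rcases le_total (h t) η with e | e
    · have : above η h t = 0 := max_eq_right (by linarith)
      rw [this]
      linarith [le_max_right (h s - η) 0, show above η h s = max (h s - η) 0 from rfl,
        mul_nonneg hL0 (abs_nonneg (t - s)), abs_nonneg (f t - f s)]
    · have : above η h t = h t - η := max_eq_left (by linarith)
      rw [this]
      have e' : f t + η ≤ g t := by simp only [h] at e; linarith
      have := hL t ht s hs e'
      linarith [le_max_left (h s - η) 0, show above η h s = max (h s - η) 0 from rfl,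
        neg_abs_le (f t - f s), show h t = g t - f t from rfl, show h s = g s - f s from rfl]
  have hlipb : LipschitzWith 1 fun x : ℝ => min x η := LipschitzWith.id.min_const η
  have hbelow : BoundedVariationOn (below η h) univ := hlipb.comp_boundedVariationOn hhv
  have hstep : ∀ i ∈ Finset.range E.1, dist (g (E.2 i).1) (g (E.2 i).2)
      ≤ L * dist (E.2 i).1 (E.2 i).2 + 2 * dist (f (E.2 i).1) (f (E.2 i).2)
        + dist (below η h (E.2 i).1) (below η h (E.2 i).2) := by
    intro i hi
    obtain ⟨h1, h2⟩ := hE.1 i hi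
    rw [uIcc_of_le hab] at h1 h2
    simp only [Real.dist_eq]
    set s := (E.2 i).1
    set t := (E.2 i).2
    have eg : ∀ x, g x = f x + (below η h x + above η h x) := fun x => by
      rw [below_add_above]; simp [h]
    rw [eg s, eg t]
    have p1 := habove s h1 t h2
    have p2 := habove t h2 s h1
    rw [abs_sub_comm t s, abs_sub_comm (f t) (f s)] at p1
    rw [abs_le]
    constructor <;>
      linarith [le_abs_self (f s - f t), neg_abs_le (f s - f t),
        le_abs_self (below η h s - below η h t), neg_abs_le (below η h s - below η h t)]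
  refine lt_of_le_of_lt (Finset.sum_le_sum hstep) ?_
  rw [Finset.sum_add_distrib, Finset.sum_add_distrib, ← Finset.mul_sum, ← Finset.mul_sum]
  have q1 := hfδ E hE (hlen.trans_le (min_le_left _ _))
  have q2 : L * ∑ i ∈ Finset.range E.1, dist (E.2 i).1 (E.2 i).2 ≤ ε / 4 := by
    refine (mul_le_mul_of_nonneg_left (hlen.trans_le (min_le_right _ _)).le hL0).trans ?_
    rw [mul_div_assoc', div_le_div_iff₀ (by positivity) (by norm_num)]
    nlinarith
  have q3 := (sum_dist_le_variation hab hbelow hE).trans
    (ENNReal.toReal_le_of_le_ofReal (by positivity) hvar)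
  linarith

end

end Vale.Agent.P137
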