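import Vale.Agent.P137.Clip

/-!
# P137: variation of the centred maximal function of an indicator away from the level one half
-/

namespace Vale.Agent.P137

open MeasureTheory Set Metric Filter
open scoped ENNReal NNReal Topology

noncomputable section

variable {d : ℕ}

theorem edist_one_indicator (E : Set (Eu d)) {x y : Eu d}
    (h : (x ∈ E ∧ y ∉ E) ∨ (x ∉ E ∧ y ∈ E)) :
    ‖E.indicator (1 : Eu d → ℝ) x - E.indicator (1 : Eu d → ℝ) y‖ₑ = 1 := by
  rcases h with ⟨hx, hy⟩ | ⟨hx, hy⟩ <;> simp [hx, hy]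

theorem translationBound_compl {E : Set (Eu d)} {P : ℝ≥0∞} (hP : TranslationBound E P) :
    TranslationBound Eᶜ P := by
  intro h
  refine le_trans (le_of_eq (lintegral_congr fun x => ?_)) (hP h)
  by_cases h1 : x + h ∈ E <;> by_cases h2 : x ∈ E <;> simp [h1, h2]

theorem high_translation {E : Set (Eu d)} (hE : MeasurableSet E) {P : ℝ≥0∞}
    (hP : TranslationBound E P) {a η θ : ℝ} (ha : 0 ≤ a) (hη2 : η < 1 / 2)
    (hθ : 1 / 2 ≤ θ) (hθ1 : θ < 1) (haθ : a ≤ η * θ ^ d) (h : Eu d) :
    ∫⁻ x, ‖max (maxInd E (x + h)) (1 - a) - max (maxInd E x) (1 - a)‖ₑ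
      ≤ (1 + 2 * (2 * ENNReal.ofReal (2 / (1 - 2 * η))
          + ENNReal.ofReal (2 ^ d * 2 * ((2 / (1 - θ)) ^ d / volume.real (ball (0 : Eu d) 1)))
            * kernMass d * ENNReal.ofReal (2 / (1 - 2 * η)))) * (P * ‖h‖ₑ) := by
  set cK := ENNReal.ofReal (2 ^ d * 2 * ((2 / (1 - θ)) ^ d / volume.real (ball (0 : Eu d) 1)))
    with hcK
  set cη := ENNReal.ofReal (2 / (1 - 2 * η)) with hcη
  set F : Eu d → ℝ≥0∞ := fun x =>
    2 * ‖h‖ₑ * Eᶜ.indicator (invScale Eᶜ η) x + cK * ‖h‖ₑ * pot Eᶜ η x with hF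
  have hFm : Measurable F :=
    (measurable_const.mul ((measurable_invScale hE.compl η).indicator hE.compl)).add
      (measurable_const.mul (measurable_pot hE.compl η))
  have hone : ∀ᵐ x : Eu d, x ∈ E → maxInd E x = 1 := ae_max_eq_one E hE
  have hone' : ∀ᵐ x : Eu d, x + h ∈ E → maxInd E (x + h) = 1 :=
    (measurePreserving_add_right volume h).quasiMeasurePreserving.ae hone
  have hrange : ∀ x, max (maxInd E x) (1 - a) ∈ Icc (0 : ℝ) 1 := fun x =>
    ⟨le_max_of_le_left ENNReal.toReal_nonneg, max_le (max_le_one E hE x) (by linarith)⟩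
  have hbd : ∀ x y : Eu d, (x ∈ E → maxInd E x = 1) → ‖y - x‖ₑ = ‖h‖ₑ →
      ENNReal.ofReal (max (maxInd E y) (1 - a) - max (maxInd E x) (1 - a))
        ≤ ‖E.indicator (1 : Eu d → ℝ) y - E.indicator (1 : Eu d → ℝ) x‖ₑ + F y := by
    intro x y hx hn
    by_cases hxE : x ∈ E
    · refine le_of_le_of_eq ?_ rfl
      rw [ENNReal.ofReal_of_nonpos]
      · exact zero_le
      · rw [hx hxE, max_eq_left (by linarith : 1 - a ≤ (1 : ℝ))]
        linarith [(hrange y).2]
    by_cases hyE : y ∈ E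
    · rw [edist_one_indicator E (Or.inl ⟨hyE, hxE⟩)]
      exact le_trans (ENNReal.ofReal_le_one.2 (by linarith [(hrange y).2, (hrange x).1])) le_self_add
    refine le_trans ?_ le_add_self
    refine (high_increment hE (η := η) hθ hθ1 haθ x y).trans (le_of_eq ?_)
    rw [hF]
    simp only [indicator_of_mem (show y ∈ Eᶜ from hyE)]
    rw [show 2 ^ d * (2 * ‖y - x‖) * ((2 / (1 - θ)) ^ d / volume.real (ball (0 : Eu d) 1))
        = 2 ^ d * 2 * ((2 / (1 - θ)) ^ d / volume.real (ball (0 : Eu d) 1)) * ‖y - x‖ by ring,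
      ENNReal.ofReal_mul zero_le_two, ENNReal.ofReal_mul (mul_nonneg (by positivity)
        (div_nonneg (pow_nonneg (div_nonneg zero_le_two (by linarith)) _) measureReal_nonneg)),
      ofReal_norm, hn, ENNReal.ofReal_ofNat]
  have hpt : ∀ᵐ x : Eu d, ‖max (maxInd E (x + h)) (1 - a) - max (maxInd E x) (1 - a)‖ₑ
      ≤ ‖E.indicator (1 : Eu d → ℝ) (x + h) - E.indicator (1 : Eu d → ℝ) x‖ₑ
        + (F x + F (x + h)) := by
    filter_upwards [hone, hone'] with x hx hx'
    rw [Real.enorm_eq_ofReal_abs]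
    rcases le_total (max (maxInd E x) (1 - a)) (max (maxInd E (x + h)) (1 - a)) with hle | hle
    · rw [abs_of_nonneg (by linarith)]
      exact (hbd x (x + h) hx (by rw [add_sub_cancel_left])).trans
        (add_le_add le_rfl le_add_self)
    · rw [abs_of_nonpos (by linarith), neg_sub]
      refine (hbd (x + h) x hx' (by rw [sub_add_cancel_left, enorm_neg])).trans
        (add_le_add (le_of_eq ?_) le_self_add)
      rw [← enorm_neg, neg_sub]
  have hI : ∫⁻ x, F x ≤ (2 * cη + cK * kernMass d * cη) * (P * ‖h‖ₑ) := by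
    have hm1 : Measurable fun x => 2 * ‖h‖ₑ * Eᶜ.indicator (invScale Eᶜ η) x :=
      measurable_const.mul ((measurable_invScale hE.compl η).indicator hE.compl)
    simp only [hF]
    rw [lintegral_add_left hm1,
      lintegral_const_mul _ ((measurable_invScale hE.compl η).indicator hE.compl),
      lintegral_const_mul _ (measurable_pot hE.compl η), lintegral_indicator hE.compl]
    refine le_trans (add_le_add
      (mul_le_mul' le_rfl (invScale_integral hE.compl (translationBound_compl hP) hη2))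
      (mul_le_mul' le_rfl (lintegral_pot_le hE.compl (translationBound_compl hP) hη2))) (le_of_eq ?_)
    rw [← hcη]
    ring
  refine (lintegral_mono_ae hpt).trans ?_
  rw [lintegral_add_right _ (g := fun x => F x + F (x + h))
      (hFm.add (hFm.comp (measurable_add_const h))),
    lintegral_add_left hFm, lintegral_add_right_eq_self F h]
  refine (add_le_add (hP h) (add_le_add hI hI)).trans (le_of_eq ?_)
  ring

theorem off_half (d : ℕ) (a : ℝ) (ha : 0 ≤ a) (ha2 : a < 1 / 2) :
    ∃ C : ℝ≥0∞, C ≠ ⊤ ∧ ∀ (E : Set (Eu d)) (P : ℝ≥0∞), MeasurableSet E →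
      TranslationBound E P →
      (∃ Ψ : Eu d → ℝ≥0∞, Measurable Ψ ∧ ∫⁻ x, Ψ x ≤ C * P ∧ ∀ x y,
        ‖min (maxInd E x) a - min (maxInd E y) a‖ₑ ≤ ‖x - y‖ₑ * (Ψ x + Ψ y)) ∧
      ∀ h : Eu d, ∫⁻ x, ‖max (maxInd E (x + h)) (1 - a) - max (maxInd E x) (1 - a)‖ₑ
        ≤ C * P * ‖h‖ₑ := by
  obtain ⟨η, haη, hη2⟩ := exists_between ha2
  obtain ⟨θ, hθ, hθ1, haθ⟩ := exists_theta d haη
  set c := (d : ℝ) * ((θ / (1 - θ) + 2) ^ (d + 1) / volume.real (ball (0 : Eu d) 1)) with hc
  set cη := ENNReal.ofReal (2 / (1 - 2 * η))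
  set cK := ENNReal.ofReal (2 ^ d * 2 * ((2 / (1 - θ)) ^ d / volume.real (ball (0 : Eu d) 1)))
  have h1θ : 0 < 1 - θ := by linarith
  have hc0 : 0 ≤ c := by positivity
  refine ⟨ENNReal.ofReal c * kernMass d * cη + (1 + 2 * (2 * cη + cK * kernMass d * cη)),
    by finiteness [kernMass_ne_top d], fun E P hE hP => ⟨?_, fun h => ?_⟩⟩
  · refine ⟨fun x => ENNReal.ofReal c * pot E η x, measurable_const.mul (measurable_pot hE η), ?_,
      fun x y => ?_⟩
    · rw [lintegral_const_mul _ (measurable_pot hE η), add_mul]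
      refine le_trans (mul_le_mul' le_rfl (lintegral_pot_le hE hP hη2)) ?_
      rw [← mul_assoc, ← mul_assoc]
      exact le_self_add
    · have key : ∀ x y : Eu d, ENNReal.ofReal (min (maxInd E x) a - min (maxInd E y) a)
          ≤ ‖x - y‖ₑ * (ENNReal.ofReal c * pot E η x) := fun x y => by
        refine (low_increment hE ha (η := η) hθ hθ1 haθ y x).trans (le_of_eq ?_)
        rw [← mul_assoc, ← ofReal_norm, ← ENNReal.ofReal_mul (norm_nonneg _), hc]
        congr 2
        ring
      rw [Real.enorm_eq_ofReal_abs, mul_add]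
      rcases le_total (min (maxInd E y) a) (min (maxInd E x) a) with hle | hle
      · rw [abs_of_nonneg (by linarith)]
        exact (key x y).trans le_self_add
      · rw [abs_of_nonpos (by linarith), neg_sub]
        refine (key y x).trans ?_
        rw [← enorm_neg (y - x), neg_sub]
        exact le_add_self
  · exact ((high_translation hE hP ha hη2 hθ hθ1 haθ h).trans
      (mul_le_mul' le_add_self le_rfl)).trans (le_of_eq (mul_assoc _ _ _).symm)

end

end Vale.Agent.P137
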