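import Mathlib
import Vale.Agent.P137.Lines
import Vale.Agent.P137.Continuity

/-!
# P137: local integrability and absolute continuity on lines of the centred maximal function
-/

namespace Vale.Agent.P137

open MeasureTheory Set Metric Filter
open scoped ENNReal NNReal Topology

noncomputable section

variable {n : ℕ}

/-- Fubini along the `i`-th axis, for integrals. -/
theorem lintegral_eq_lines (i : Fin (n + 1)) {F : Eu (n + 1) → ℝ≥0∞} (hF : Measurable F) :
    ∫⁻ x, F x = ∫⁻ y : Fin n → ℝ, ∫⁻ t, F (onLine i y t) := by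
  have h1 := PiLp.volume_preserving_toLp (Fin (n + 1))
  have h2 := (volume_preserving_piFinSuccAbove (fun _ : Fin (n + 1) => ℝ) i).symm
  have hm : Measurable fun p => F (WithLp.toLp 2 p) := hF.comp h1.measurable
  rw [← h1.lintegral_comp hF, ← h2.lintegral_comp hm, Measure.volume_eq_prod]
  refine (lintegral_prod_symm (μ := (volume : Measure ℝ)) (ν := (volume : Measure (Fin n → ℝ)))
      _ (hm.comp h2.measurable).aemeasurable).trans ?_
  simp [onLine, MeasurableEquiv.piFinSuccAbove_symm_apply, Fin.insertNthEquiv]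

/-- The centred maximal averages are lower semicontinuous. -/
theorem measurable_maxF_centred (f : Eu (n + 1) → ℝ) :
    Measurable (maxF (fun x c r => 0 < r ∧ c = x) f) := by
  refine LowerSemicontinuous.measurable (lowerSemicontinuous_iff_isOpen_preimage.2 fun a => ?_)
  refine Metric.isOpen_iff.2 fun x hx => ?_
  simp only [mem_preimage, mem_Ioi, maxF, lt_iSup_iff] at hx
  obtain ⟨c, r, ⟨hr, hcx⟩, hlt⟩ := hx
  subst hcx
  set A := (∫⁻ z in ball c r, ‖f z‖ₑ) / volume (ball c r) with hA
  have ht : Tendsto (fun δ : ℝ => ENNReal.ofReal ((1 + δ / r) ^ (n + 1)) * a) (𝓝 0) (𝓝 a) := by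
    have h1 : Tendsto (fun δ : ℝ => ENNReal.ofReal ((1 + δ / r) ^ (n + 1))) (𝓝 0) (𝓝 1) := by
      have h := ((ENNReal.continuous_ofReal.comp (by fun_prop :
        Continuous fun δ : ℝ => (1 + δ / r) ^ (n + 1))).tendsto 0)
      simpa [Function.comp_def] using h
    simpa using ENNReal.Tendsto.mul_const h1 (Or.inr hlt.ne_top)
  obtain ⟨δ, hδ, hδA⟩ := Metric.eventually_nhds_iff.1 (ht.eventually (gt_mem_nhds hlt))
  refine ⟨δ / 2, by positivity, fun x' hx' => ?_⟩
  show a < maxF (fun x c r => 0 < r ∧ c = x) f x'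
  by_contra hcon
  rw [not_lt] at hcon
  have h2 := hδA (show dist (δ / 2) 0 < δ by
    rw [Real.dist_eq, sub_zero, abs_of_pos (half_pos hδ)]; linarith)
  have h3 := (setLIntegral_le_maxF (f := f) (δ := δ / 2) c x' hr
    (by rw [dist_comm]; exact (mem_ball.1 hx').le)).trans (mul_le_mul_right hcon _)
  exact absurd h2 (not_lt.2 h3)

/-- The centred maximal function of a block-decreasing function of finite variation is locally
integrable. -/
theorem locallyIntegrable_centred {f : Eu (n + 1) → ℝ}
    (hP : Admissible fun (x c : Eu (n + 1)) (r : ℝ) => 0 < r ∧ c = x) (hf : Measurable f)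
    (h0 : ∀ x, 0 ≤ f x) (hbd : BlockDec f)
    (hfin : ∀ ε : ℝ, 0 < ε → volume {x | ε < f x} ≠ ⊤) (hV : axialVariation f ≠ ⊤) :
    LocallyIntegrable (fun x => (maxF (fun x c r => 0 < r ∧ c = x) f x).toReal) volume := by
  obtain ⟨H, hHm, hHle, hint⟩ := exists_centre_bound hP hf h0 hbd hfin (0 : Fin (n + 1))
  have hHt : ∫⁻ y, H y ≠ ⊤ := ne_top_of_le_ne_top (ENNReal.mul_ne_top (ENNReal.mul_ne_top
    (ENNReal.mul_ne_top ENNReal.ofNat_ne_top (lineConst_ne_top n))
    (ENNReal.pow_ne_top ENNReal.ofNat_ne_top)) hV) hint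
  refine locallyIntegrable_iff.2 fun K hK => ?_
  refine ⟨(measurable_maxF_centred f).ennreal_toReal.aestronglyMeasurable, ?_⟩
  obtain ⟨R, hR⟩ := hK.isBounded.subset_closedBall (0 : Eu (n + 1))
  set π : Eu (n + 1) → Fin n → ℝ := fun z l => z ((0 : Fin (n + 1)).succAbove l) with hπ
  have hπm : Measurable π := (continuous_pi fun l =>
    (continuous_apply _).comp (PiLp.continuous_ofLp 2 _)).measurable
  have hrep : ∀ z : Eu (n + 1), onLine 0 (π z) (z 0) = z := fun z => by
    ext j
    exact Fin.succAboveCases 0 (by simp [onLine]) (fun l => by simp [onLine, π]) j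
  have him : Measurable fun z : Eu (n + 1) => z 0 :=
    ((continuous_apply (0 : Fin (n + 1))).comp (PiLp.continuous_ofLp 2 _)).measurable
  set F : Eu (n + 1) → ℝ≥0∞ :=
    fun z => (Icc (-R) R).indicator (1 : ℝ → ℝ≥0∞) (z 0) * H (π z) with hF
  have hFm : Measurable F :=
    ((measurable_one.indicator measurableSet_Icc).comp him).mul (hHm.comp hπm)
  refine lt_of_le_of_lt (b := ∫⁻ z in K, F z) (setLIntegral_mono hFm fun z hz => ?_) ?_
  · have hz0 : |z 0| ≤ R := by
      have := (PiLp.norm_apply_le z 0).trans (mem_closedBall_zero_iff.1 (hR hz))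
      rwa [Real.norm_eq_abs] at this
    have hin : z 0 ∈ Icc (-R) R := abs_le.1 hz0
    simp only [F, indicator_of_mem hin, Pi.one_apply, one_mul]
    rw [Real.enorm_eq_ofReal ENNReal.toReal_nonneg]
    refine ENNReal.ofReal_toReal_le.trans ?_
    conv_lhs => rw [← hrep z]
    exact (maxF_line_mono lineMono_centred hbd h0 0 (π z)
      (show |(0 : ℝ)| ≤ |z 0| by simp)).trans (hHle _)
  · refine (setLIntegral_le_lintegral _ _).trans_lt ?_
    rw [lintegral_eq_lines 0 hFm]
    have e : ∀ (y : Fin n → ℝ) (t : ℝ),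
        F (onLine 0 y t) = (Icc (-R) R).indicator 1 t * H y := fun y t => by
      have : π (onLine 0 y t) = y := by ext l; simp [π, onLine]
      simp only [F, this]
      simp [onLine]
    simp only [e, lintegral_mul_const _ (measurable_one.indicator measurableSet_Icc),
      lintegral_indicator_one measurableSet_Icc, Real.volume_Icc]
    rw [lintegral_const_mul _ hHm]
    exact ENNReal.mul_lt_top ENNReal.ofReal_lt_top hHt.lt_top

/-- The centred maximal function of a block-decreasing function of finite variation that is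
absolutely continuous on almost every line has the same property. -/
theorem ae_absolutelyContinuous_centred {f : Eu (n + 1) → ℝ}
    (hP : Admissible fun (x c : Eu (n + 1)) (r : ℝ) => 0 < r ∧ c = x) (hf : Measurable f)
    (h0 : ∀ x, 0 ≤ f x) (hbd : BlockDec f)
    (hfin : ∀ ε : ℝ, 0 < ε → volume {x | ε < f x} ≠ ⊤) (hV : axialVariation f ≠ ⊤)
    (i : Fin (n + 1))
    (hac : ∀ᵐ y : Fin n → ℝ, ∀ a b : ℝ,
      AbsolutelyContinuousOnInterval (fun t => f (onLine i y t)) a b) :
    ∀ᵐ y : Fin n → ℝ, ∀ a b : ℝ, AbsolutelyContinuousOnInterval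
      (fun t => (maxF (fun x c r => 0 < r ∧ c = x) f (onLine i y t)).toReal) a b := by
  obtain ⟨H, hHm, hHle, hint⟩ := exists_centre_bound hP hf h0 hbd hfin i
  have hHt : ∫⁻ y, H y ≠ ⊤ := ne_top_of_le_ne_top (ENNReal.mul_ne_top (ENNReal.mul_ne_top
    (ENNReal.mul_ne_top ENNReal.ofNat_ne_top (lineConst_ne_top n))
    (ENNReal.pow_ne_top ENNReal.ofNat_ne_top)) hV) hint
  have hcont : ∀ᵐ y : Fin n → ℝ, Continuous fun t => f (onLine i y t) := by
    filter_upwards [hac] with y hy
    refine continuous_iff_continuousAt.2 fun t => (hy (t - 1) (t + 1)).continuousOn.continuousAt ?_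
    rw [uIcc_of_le (by linarith)]
    exact Icc_mem_nhds (by linarith) (by linarith)
  filter_upwards [hac, ae_continuousAt_line hbd i hcont, ae_lt_top hHm hHt] with y hy hc hy'
  set G := (H y).toReal with hG
  have hle : ∀ t, maxF (fun x c r => 0 < r ∧ c = x) f (onLine i y t) ≤ ENNReal.ofReal G := fun t => by
    rw [hG, ENNReal.ofReal_toReal hy'.ne]
    exact (maxF_line_mono lineMono_centred hbd h0 i y
      (show |(0 : ℝ)| ≤ |t| by simp)).trans (hHle y)
  have hfin' : ∀ t, maxF (fun x c r => 0 < r ∧ c = x) f (onLine i y t) ≠ ⊤ := fun t =>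
    ne_top_of_le_ne_top ENNReal.ofReal_ne_top (hle t)
  have hgv : BoundedVariationOn
      (fun t => (maxF (fun x c r => 0 < r ∧ c = x) f (onLine i y t)).toReal) univ :=
    ne_top_of_le_ne_top (ENNReal.mul_ne_top ENNReal.ofNat_ne_top (hfin' 0))
      (variation_maxF_le lineMono_centred hbd h0 i y (hfin' 0))
  have hline : ∀ s t : ℝ, |s| ≤ |t| → f (onLine i y t) ≤ f (onLine i y s) := fun s t h =>
    hbd _ _ fun j => Fin.succAboveCases i (by simpa [onLine] using h)
      (fun l => by simp [onLine]) j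
  have hfv : BoundedVariationOn (fun t => f (onLine i y t)) univ := by
    refine ne_top_of_le_ne_top (ENNReal.mul_ne_top ENNReal.ofNat_ne_top ENNReal.ofReal_ne_top)
      (eVariationOn_le_two (P := f (onLine i y 0)) (fun t => h0 _)
        (fun t => hline 0 t (by simp)) fun a b c hab hbc => ?_)
    rcases le_total 0 b with hb | hb
    · exact (min_le_right _ _).trans
        (hline b c (by rw [abs_of_nonneg hb, abs_of_nonneg (hb.trans hbc)]; exact hbc))
    · exact (min_le_left _ _).trans
        (hline b a (by rw [abs_of_nonpos hb, abs_of_nonpos (hab.trans hb)]; linarith))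
  intro a b
  wlog hab : a ≤ b generalizing a b
  · exact (this b a (le_of_not_ge hab)).symm
  refine absolutelyContinuous_of_levels hab (hy a b) hfv hgv (fun t _ => ?_) fun η hη =>
    lipschitz_off_contact h0 i y hc hle ENNReal.toReal_nonneg a b hη
  exact (ENNReal.ofReal_le_iff_le_toReal (hfin' t)).1 (ofReal_le_maxF (hc t))

end

end Vale.Agent.P137
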