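import Vale.Agent.P137.Basic

/-!
# P137: lines parallel to the axes, projections and thickened projections
-/

namespace Vale.Agent.P137

open MeasureTheory Set Metric Filter Bornology
open scoped ENNReal NNReal Topology

noncomputable section

variable {n : ℕ}

theorem onLine_affine (i : Fin (n + 1)) (y : Fin n → ℝ) {a b : ℝ} (h : a + b = 1) (s t : ℝ) :
    a • onLine i y s + b • onLine i y t = onLine i y (a * s + b * t) := by
  ext j
  refine Fin.succAboveCases i ?_ (fun l => ?_) j
  · simp [onLine]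
  · simp only [onLine, PiLp.add_apply, PiLp.smul_apply, Fin.insertNth_apply_succAbove, smul_eq_mul]
    rw [← add_mul, h, one_mul]

theorem onLine_shift (i : Fin (n + 1)) (y : Fin n → ℝ) (t s : ℝ) :
    onLine i y t + s • EuclideanSpace.single i (1 : ℝ) = onLine i y (t + s) := by
  ext j
  refine Fin.succAboveCases i ?_ (fun l => ?_) j
  · simp [onLine]
  · simp [onLine, Fin.succAbove_ne]

theorem abs_le_norm_onLine (i : Fin (n + 1)) (y : Fin n → ℝ) (t : ℝ) : |t| ≤ ‖onLine i y t‖ := by
  have := PiLp.norm_apply_le (onLine i y t) i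
  simpa [onLine, Real.norm_eq_abs] using this

theorem abs_sub_le_dist (i : Fin (n + 1)) (y : Fin n → ℝ) (t : ℝ) (z : Eu (n + 1)) (l : Fin n) :
    |y l - z (i.succAbove l)| ≤ dist (onLine i y t) z := by
  have := PiLp.norm_apply_le (onLine i y t - z) (i.succAbove l)
  simpa [onLine, Real.norm_eq_abs, dist_eq_norm] using this

theorem continuous_onLine_left (i : Fin (n + 1)) (t : ℝ) :
    Continuous fun y : Fin n → ℝ => onLine i y t :=
  (PiLp.continuous_toLp 2 _).comp (continuous_const.finInsertNth i continuous_id)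

/-- The thickened projection of a set along the `i`-th axis. -/
def thickProj (i : Fin (n + 1)) (O : Set (Eu (n + 1))) (R : ℝ) : Set (Fin n → ℝ) :=
  ⋃ t : ℝ, (fun y => onLine i y t) ⁻¹' thickening R O

theorem isOpen_thickProj (i : Fin (n + 1)) (O : Set (Eu (n + 1))) (R : ℝ) :
    IsOpen (thickProj i O R) :=
  isOpen_iUnion fun t => isOpen_thickening.preimage (continuous_onLine_left i t)

theorem thickProj_mono (i : Fin (n + 1)) (O : Set (Eu (n + 1))) {R R' : ℝ} (h : R ≤ R') :
    thickProj i O R ⊆ thickProj i O R' :=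
  iUnion_mono fun _ => preimage_mono (thickening_mono h O)

/-- The projection of a set along the `i`-th axis. -/
def proj (i : Fin (n + 1)) (O : Set (Eu (n + 1))) : Set (Fin n → ℝ) :=
  ⋃ t : ℝ, (fun y => onLine i y t) ⁻¹' O

theorem isOpen_proj (i : Fin (n + 1)) {O : Set (Eu (n + 1))} (hO : IsOpen O) :
    IsOpen (proj i O) :=
  isOpen_iUnion fun t => hO.preimage (continuous_onLine_left i t)

/-- Fubini along the `i`-th axis. -/
theorem volume_eq_lintegral (i : Fin (n + 1)) {E : Set (Eu (n + 1))} (hE : MeasurableSet E) :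
    volume E = ∫⁻ y : Fin n → ℝ, volume {t | onLine i y t ∈ E} := by
  have h1 := PiLp.volume_preserving_toLp (Fin (n + 1))
  have h2 := (volume_preserving_piFinSuccAbove (fun _ : Fin (n + 1) => ℝ) i).symm
  have hm : MeasurableSet (WithLp.toLp 2 ⁻¹' E) := hE.preimage h1.measurable
  rw [← h1.measure_preimage hE.nullMeasurableSet, ← h2.measure_preimage hm.nullMeasurableSet,
    Measure.volume_eq_prod, Measure.prod_apply_symm (hm.preimage h2.measurable)]
  exact lintegral_congr fun y => congrArg volume (ext fun t => by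
    simp [onLine, MeasurableEquiv.piFinSuccAbove_symm_apply, Fin.insertNthEquiv])

/-- The part of an open convex set that a shift pushes out is thin. -/
theorem volume_shift_le (i : Fin (n + 1)) {O : Set (Eu (n + 1))} (hO : IsOpen O)
    (hc : Convex ℝ O) (ρ : ℝ) :
    volume {x ∈ O | x + ρ • EuclideanSpace.single i (1 : ℝ) ∉ O}
      ≤ ENNReal.ofReal |ρ| * volume (proj i O) := by
  have hE : MeasurableSet {x ∈ O | x + ρ • EuclideanSpace.single i (1 : ℝ) ∉ O} :=
    hO.measurableSet.inter (hO.preimage (continuous_id.add continuous_const)).measurableSet.compl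
  rw [volume_eq_lintegral i hE, ← setLIntegral_const, ← lintegral_indicator
    (isOpen_proj i hO).measurableSet]
  refine lintegral_mono fun y => ?_
  by_cases hy : y ∈ proj i O
  · rw [indicator_of_mem hy]
    refine (Real.volume_le_diam _).trans (Metric.ediam_le fun s hs t ht => ?_)
    rw [edist_dist, Real.dist_eq]
    refine ENNReal.ofReal_le_ofReal ?_
    simp only [mem_ofPred_eq, onLine_shift] at hs ht
    by_contra hcon
    push Not at hcon
    wlog hst : s ≤ t generalizing s t
    · exact this t s ht hs (by rwa [abs_sub_comm]) (le_of_not_ge hst)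
    rw [abs_sub_comm, abs_of_nonneg (sub_nonneg.2 hst)] at hcon
    have key : ∀ p, s ≤ p → p ≤ t → onLine i y p ∈ O := fun p h1 h2 => by
      obtain ⟨a, b, ha, hb, hab, rfl⟩ := Convex.mem_Icc (hst) |>.1 ⟨h1, h2⟩
      rw [← onLine_affine i y hab]
      exact hc hs.1 ht.1 ha hb hab
    rcases le_total 0 ρ with h | h
    · exact hs.2 (key _ (by linarith) (by linarith [abs_of_nonneg h]))
    · exact ht.2 (key _ (by linarith [abs_of_nonpos h]) (by linarith))
  · rw [indicator_of_notMem hy]
    have : {t | onLine i y t ∈ {x ∈ O | x + ρ • EuclideanSpace.single i (1 : ℝ) ∉ O}} = ∅ :=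
      eq_empty_of_forall_notMem fun t ht => hy (mem_iUnion.2 ⟨t, ht.1⟩)
    rw [this]; simp

theorem proj_subset_box (i : Fin (n + 1)) {O : Set (Eu (n + 1))} {R : ℝ}
    (h : O ⊆ closedBall 0 R) : proj i O ⊆ closedBall (0 : Fin n → ℝ) R := by
  intro y hy
  obtain ⟨t, ht⟩ := mem_iUnion.1 hy
  have hd := mem_closedBall.1 (h ht)
  refine mem_closedBall.2 ((dist_pi_le_iff (dist_nonneg.trans hd)).2 fun l => ?_)
  have := (abs_sub_le_dist i y t 0 l).trans hd
  simpa [Real.dist_eq] using this

theorem volume_proj_ne_top (i : Fin (n + 1)) {O : Set (Eu (n + 1))} (h : IsBounded O) :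
    volume (proj i O) ≠ ⊤ := by
  obtain ⟨R, hR⟩ := h.subset_closedBall (0 : Eu (n + 1))
  exact ((isBounded_closedBall.subset (proj_subset_box i hR)).measure_lt_top).ne

/-- A bounded open convex set contains a ball of radius comparable to volume over projections. -/
theorem exists_ball_subset {O : Set (Eu (n + 1))} (hO : IsOpen O) (hc : Convex ℝ O)
    (hb : IsBounded O) (hne : O.Nonempty) :
    ∃ x r, 0 < r ∧ ball x r ⊆ O ∧
      volume O ≤ ENNReal.ofReal r * (4 * (n + 1) * ∑ i, volume (proj i O)) := by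
  set S := ∑ i, volume (proj i O) with hS
  have hSt : S ≠ ⊤ := ENNReal.sum_ne_top.2 fun i _ => volume_proj_ne_top i hb
  have hS0 : S ≠ 0 := by
    refine ne_of_gt (lt_of_lt_of_le ?_ (Finset.single_le_sum (f := fun i => volume (proj i O))
      (fun _ _ => zero_le) (Finset.mem_univ 0)))
    obtain ⟨x, hx⟩ := hne
    refine (isOpen_proj 0 hO).measure_pos volume ⟨fun l => x ((0 : Fin (n + 1)).succAbove l),
      mem_iUnion.2 ⟨x 0, ?_⟩⟩
    show onLine 0 _ (x 0) ∈ O
    convert hx
    ext j
    refine Fin.succAboveCases 0 ?_ (fun l => ?_) j <;> simp [onLine]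
  have hVt : volume O ≠ ⊤ := hb.measure_lt_top.ne
  have hV0 : 0 < (volume O).toReal := ENNReal.toReal_pos (hO.measure_pos volume hne).ne' hVt
  have hSp : 0 < S.toReal := ENNReal.toReal_pos hS0 hSt
  set ρ := (volume O).toReal / (4 * S.toReal) with hρ
  have hρ0 : 0 < ρ := by positivity
  have hbad : volume (⋃ i : Fin (n + 1),
      {x ∈ O | x + ρ • EuclideanSpace.single i (1 : ℝ) ∉ O} ∪
      {x ∈ O | x + (-ρ) • EuclideanSpace.single i (1 : ℝ) ∉ O}) < volume O := by
    refine lt_of_le_of_lt ((measure_iUnion_fintype_le _ _).trans (Finset.sum_le_sum fun i _ =>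
      (measure_union_le _ _).trans (add_le_add (volume_shift_le i hO hc ρ)
        (volume_shift_le i hO hc (-ρ))))) ?_
    rw [abs_neg, abs_of_pos hρ0]
    simp only [← two_mul]
    rw [← Finset.mul_sum, ← Finset.mul_sum, ← hS, ← ENNReal.toReal_lt_toReal
      (ENNReal.mul_ne_top ENNReal.ofNat_ne_top (ENNReal.mul_ne_top ENNReal.ofReal_ne_top hSt)) hVt,
      ENNReal.toReal_mul, ENNReal.toReal_mul, ENNReal.toReal_ofReal hρ0.le, ENNReal.toReal_ofNat]
    rw [hρ]
    field_simp
    linarith
  obtain ⟨x, hxO, hx⟩ : ∃ x ∈ O, ∀ i : Fin (n + 1),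
      x + ρ • EuclideanSpace.single i (1 : ℝ) ∈ O ∧
      x + (-ρ) • EuclideanSpace.single i (1 : ℝ) ∈ O := by
    by_contra hcon
    push Not at hcon
    refine hbad.not_ge (measure_mono fun x hx => ?_)
    obtain ⟨i, hi⟩ := hcon x hx
    refine mem_iUnion.2 ⟨i, ?_⟩
    by_cases h1 : x + ρ • EuclideanSpace.single i (1 : ℝ) ∈ O
    · exact Or.inr ⟨hx, hi h1⟩
    · exact Or.inl ⟨hx, h1⟩
  refine ⟨x, ρ / (n + 1), by positivity, fun z hz => ?_, ?_⟩
  · have hd : ∀ i, |(z - x) i| * (n + 1) ≤ ρ := fun i => by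
      have h1 := (PiLp.norm_apply_le (z - x) i).trans (mem_ball_iff_norm.1 hz).le
      rw [Real.norm_eq_abs] at h1
      exact (le_div_iff₀ (by positivity)).1 h1
    have hq : ∀ i, x + ((z - x) i * (n + 1)) • EuclideanSpace.single i (1 : ℝ) ∈ O := fun i => by
      have h1 : |(z - x) i * (n + 1)| ≤ ρ := by
        rw [abs_mul, abs_of_pos (by positivity : (0 : ℝ) < n + 1)]; exact hd i
      obtain ⟨a, b, ha, hb', hab, he⟩ := Convex.mem_Icc (by linarith : -ρ ≤ ρ) |>.1 (abs_le.1 h1)
      have := hc (hx i).2 (hx i).1 ha hb' hab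
      rw [smul_add, smul_add, add_add_add_comm, ← add_smul, hab, one_smul, smul_smul, smul_smul,
        ← add_smul, he] at this
      exact this
    have hm := hc.sum_mem (t := Finset.univ) (w := fun _ : Fin (n + 1) => ((n : ℝ) + 1)⁻¹)
      (fun _ _ => by positivity) (by simp; field_simp) (fun i _ => hq i)
    convert hm using 1
    rw [← Finset.smul_sum, Finset.sum_add_distrib, smul_add, Finset.sum_const, Finset.card_univ,
      Fintype.card_fin, ← Nat.cast_smul_eq_nsmul ℝ, smul_smul, Nat.cast_succ,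
      inv_mul_cancel₀ (by positivity), one_smul, Finset.smul_sum]
    simp only [smul_smul]
    ext j
    simp only [PiLp.add_apply, WithLp.ofLp_sum, Finset.sum_apply, PiLp.smul_apply,
      EuclideanSpace.single_apply, smul_eq_mul, mul_ite, mul_one, mul_zero, Finset.sum_ite_eq,
      Finset.mem_univ, if_true, PiLp.sub_apply]
    field_simp
    ring
  · rw [← ENNReal.ofReal_toReal hVt, ← ENNReal.ofReal_toReal hSt,
      show (4 : ℝ≥0∞) * (n + 1) = ENNReal.ofReal (4 * (n + 1)) by
        rw [ENNReal.ofReal_mul (by norm_num)]; simp [ENNReal.ofReal_add],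
      ← ENNReal.ofReal_mul (by positivity), ← ENNReal.ofReal_mul (by positivity)]
    refine ENNReal.ofReal_le_ofReal (le_of_eq ?_)
    rw [hρ]
    field_simp

end

end Vale.Agent.P137
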