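import Vale.Agent.P137.Basic
import Mathlib.MeasureTheory.Measure.Haar.Unique

/-!
# P137: the midpoint defect of a set, and the spreading lemma
-/

namespace Vale.Agent.P137

open MeasureTheory Set Metric
open scoped ENNReal NNReal

noncomputable section

variable {d : ℕ}

/-- The pairs `(y, w)` at which `E` is not monotone along the triple `y - w, y, y + w`. -/
def badPairs (E : Set (Eu d)) : Set (Eu d × Eu d) :=
  {p | (p.1 ∈ E ∧ p.1 - p.2 ∉ E ∧ p.1 + p.2 ∉ E) ∨
    (p.1 ∉ E ∧ p.1 - p.2 ∈ E ∧ p.1 + p.2 ∈ E)}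

/-- The midpoint defect of `E` with middles in `B(c, r)` and steps shorter than `ρ`. -/
def midDefect (E : Set (Eu d)) (c : Eu d) (r ρ : ℝ) : ℝ≥0∞ :=
  (volume.prod volume) (badPairs E ∩ ball c r ×ˢ ball 0 ρ)

theorem badPairs_compl (E : Set (Eu d)) : badPairs Eᶜ = badPairs E := by
  ext p
  simp only [badPairs, mem_compl_iff, mem_ofPred_eq, not_not]
  tauto

theorem midDefect_compl (E : Set (Eu d)) (c : Eu d) (r ρ : ℝ) :
    midDefect Eᶜ c r ρ = midDefect E c r ρ := by
  rw [midDefect, badPairs_compl, midDefect]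

theorem midDefect_mono (E : Set (Eu d)) {c c' : Eu d} {r r' ρ ρ' : ℝ}
    (h : ball c r ⊆ ball c' r') (hρ : ρ ≤ ρ') : midDefect E c r ρ ≤ midDefect E c' r' ρ' :=
  measure_mono (inter_subset_inter_right _ (prod_mono h (ball_subset_ball hρ)))

theorem measurableSet_badPairs {E : Set (Eu d)} (hE : MeasurableSet E) :
    MeasurableSet (badPairs E) := by
  have h₁ : MeasurableSet ((fun p : Eu d × Eu d => p.1 - p.2) ⁻¹' E) :=
    (measurable_fst.sub measurable_snd) hE
  have h₂ : MeasurableSet ((fun p : Eu d × Eu d => p.1 + p.2) ⁻¹' E) :=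
    (measurable_fst.add measurable_snd) hE
  have h₀ : MeasurableSet (Prod.fst ⁻¹' E : Set (Eu d × Eu d)) := measurable_fst hE
  exact (h₀.inter (h₁.compl.inter h₂.compl)).union (h₀.compl.inter (h₁.inter h₂))

/-- A set that is sparse in the enlarged ball is, in the ball, controlled by its defect. -/
theorem spread {E : Set (Eu d)} (hE : MeasurableSet E) (c : Eu d) {r ρ : ℝ}
    (h : 4 * volume (E ∩ ball c (r + ρ)) ≤ volume (ball (0 : Eu d) ρ)) :
    volume (E ∩ ball c r) * volume (ball (0 : Eu d) ρ) ≤ 2 * midDefect E c r ρ := by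
  set V := volume (ball (0 : Eu d) ρ)
  have hV : V ≠ ⊤ := measure_ball_lt_top.ne
  have hm : MeasurableSet (badPairs E ∩ ball c r ×ˢ ball 0 ρ) :=
    (measurableSet_badPairs hE).inter (measurableSet_ball.prod measurableSet_ball)
  -- the steps at a point of `E`
  have key : ∀ y ∈ E ∩ ball c r,
      V ≤ 2 * volume (Prod.mk y ⁻¹' (badPairs E ∩ ball c r ×ˢ ball 0 ρ)) := by
    intro y hy
    have hyc := mem_ball.1 hy.2
    set Wp := {w | y + w ∈ E} ∩ ball (0 : Eu d) ρ
    set Wm := {w | y - w ∈ E} ∩ ball (0 : Eu d) ρ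
    have hp : volume Wp ≤ volume (E ∩ ball c (r + ρ)) := by
      rw [← measure_preimage_add volume y (E ∩ ball c (r + ρ))]
      refine measure_mono fun w hw => ⟨hw.1, mem_ball.2 ?_⟩
      have h₁ := mem_ball_zero_iff.1 hw.2
      have h₂ : dist (y + w) y = ‖w‖ := by simp [dist_eq_norm]
      linarith [dist_triangle (y + w) y c]
    have hmm : volume Wm ≤ volume (E ∩ ball c (r + ρ)) := by
      have hE' : MeasurableSet (E ∩ ball c (r + ρ)) := hE.inter measurableSet_ball
      rw [← (Measure.measurePreserving_sub_left volume y).measure_preimage hE'.nullMeasurableSet]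
      refine measure_mono fun w hw => ⟨hw.1, mem_ball.2 ?_⟩
      have h₁ := mem_ball_zero_iff.1 hw.2
      have h₂ : dist (y - w) y = ‖w‖ := by simp [dist_eq_norm]
      linarith [dist_triangle (y - w) y c]
    have hsub : ball (0 : Eu d) ρ ⊆
        Prod.mk y ⁻¹' (badPairs E ∩ ball c r ×ˢ ball 0 ρ) ∪ (Wp ∪ Wm) := by
      intro w hw
      by_cases h₁ : y + w ∈ E
      · exact Or.inr (Or.inl ⟨h₁, hw⟩)
      by_cases h₂ : y - w ∈ E
      · exact Or.inr (Or.inr ⟨h₂, hw⟩)
      exact Or.inl ⟨Or.inl ⟨hy.1, h₂, h₁⟩, hy.2, hw⟩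
    set S := volume (Prod.mk y ⁻¹' (badPairs E ∩ ball c r ×ˢ ball 0 ρ))
    set X := volume (E ∩ ball c (r + ρ))
    have h₀ : V ≤ S + (X + X) :=
      (measure_mono hsub).trans ((measure_union_le _ _).trans
        (add_le_add le_rfl ((measure_union_le _ _).trans (add_le_add hp hmm))))
    have h₁ : V + V ≤ 2 * S + V := by
      calc V + V ≤ S + (X + X) + (S + (X + X)) := add_le_add h₀ h₀
        _ = 2 * S + 4 * X := by ring
        _ ≤ 2 * S + V := add_le_add le_rfl h
    exact (ENNReal.add_le_add_iff_right hV).1 h₁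
  rw [midDefect, Measure.prod_apply hm, ← lintegral_const_mul _ (measurable_measure_prodMk_left hm)]
  calc volume (E ∩ ball c r) * V = ∫⁻ _y in E ∩ ball c r, V := by
        rw [lintegral_const, Measure.restrict_apply_univ, mul_comm]
    _ ≤ ∫⁻ y in E ∩ ball c r,
          2 * volume (Prod.mk y ⁻¹' (badPairs E ∩ ball c r ×ˢ ball 0 ρ)) :=
        setLIntegral_mono' (hE.inter measurableSet_ball) key
    _ ≤ _ := setLIntegral_le_lintegral _ _

/-- The same for a set that is nearly full in the enlarged ball. -/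
theorem spread_compl {E : Set (Eu d)} (hE : MeasurableSet E) (c : Eu d) {r ρ : ℝ}
    (h : 4 * volume (Eᶜ ∩ ball c (r + ρ)) ≤ volume (ball (0 : Eu d) ρ)) :
    volume (Eᶜ ∩ ball c r) * volume (ball (0 : Eu d) ρ) ≤ 2 * midDefect E c r ρ := by
  simpa [midDefect_compl] using spread hE.compl c h

end

end Vale.Agent.P137
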