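import Mathlib.MeasureTheory.Function.L2Space
import Mathlib.MeasureTheory.Measure.SeparableMeasure
import Mathlib.MeasureTheory.Function.AEEqOfIntegral
import Mathlib.Analysis.Normed.Module.WeakDual
import Mathlib.Analysis.InnerProductSpace.Dual
import Mathlib.MeasureTheory.Integral.DominatedConvergence
import Mathlib.MeasureTheory.Integral.Prod

/-!
# P137: weak limits of sequences of sets, and quadratic forms along them
-/

namespace Vale.Agent.P137

open MeasureTheory Set Filter
open scoped ENNReal NNReal Topology RealInnerProductSpace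

noncomputable section

variable {X : Type*} [MeasurableSpace X] [MeasurableSpace.CountablyGenerated X]
  (μ : Measure X) [IsFiniteMeasure μ]

/-- A sequence of sets has a subsequence whose indicators converge weakly to a function with values
in `[0, 1]`. -/
theorem exists_weak_limit (s : ℕ → Set X) (hs : ∀ n, MeasurableSet (s n)) :
    ∃ (φ : X → ℝ) (ψ : ℕ → ℕ), Measurable φ ∧ (∀ x, φ x ∈ Icc (0 : ℝ) 1) ∧ StrictMono ψ ∧
      ∀ g : X → ℝ, Measurable g → ∀ C : ℝ, (∀ x, |g x| ≤ C) →
        Tendsto (fun k => ∫ x in s (ψ k), g x ∂μ) atTop (𝓝 (∫ x, φ x * g x ∂μ)) := by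
  let H := Lp ℝ 2 μ
  have : Fact ((2 : ℝ≥0∞) ≠ ⊤) := ⟨by norm_num⟩
  have : SecondCountableTopology H := inferInstance
  set one : ℕ → H := fun n => indicatorConstLp 2 (hs n) (measure_ne_top μ _) 1
  have hnorm : ∀ n, ‖one n‖ ≤ μ.real univ ^ (1 / (2 : ℝ)) := fun n => by
    refine (norm_indicatorConstLp_le (μ := μ) (p := 2)).trans ?_
    rw [norm_one, one_mul, ENNReal.toReal_ofNat]
    exact Real.rpow_le_rpow measureReal_nonneg (measureReal_mono (subset_univ _)) (by norm_num)
  set r : ℝ := μ.real univ ^ (1 / (2 : ℝ))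
  set seq : ℕ → WeakDual ℝ H := fun n => StrongDual.toWeakDual (InnerProductSpace.toDual ℝ H (one n))
  obtain ⟨ℓ, -, ψ, hψ, hlim⟩ :=
    (WeakDual.isSeqCompact_closedBall ℝ H (0 : StrongDual ℝ H) r) (x := seq) fun n => by
      simp only [mem_preimage, seq, Metric.mem_closedBall, dist_zero_right]
      exact ((InnerProductSpace.toDual ℝ H).norm_map (one n)).trans_le (hnorm n)
  set h : H := (InnerProductSpace.toDual ℝ H).symm (WeakDual.toStrongDual ℓ)
  have heval : ∀ f : H, ⟪h, f⟫ = ℓ f := fun f => InnerProductSpace.toDual_symm_apply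
  -- convergence against square integrable functions
  have hweak : ∀ f : H, Tendsto (fun k => ∫ x in s (ψ k), f x ∂μ) atTop
      (𝓝 (∫ x, h x * f x ∂μ)) := fun f => by
    have h₁ : Tendsto (fun k => seq (ψ k) f) atTop (𝓝 (ℓ f)) :=
      ((WeakDual.eval_continuous f).tendsto ℓ).comp hlim
    have h₂ : ∀ n, seq n f = ∫ x in s n, f x ∂μ := fun n =>
      L2.inner_indicatorConstLp_one (hs n) (measure_ne_top μ _) f
    simp only [h₂] at h₁
    rw [← heval, L2.inner_def] at h₁
    simpa [mul_comm] using h₁
  have hbdd : ∀ g : X → ℝ, Measurable g → ∀ C : ℝ, (∀ x, |g x| ≤ C) →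
      Tendsto (fun k => ∫ x in s (ψ k), g x ∂μ) atTop (𝓝 (∫ x, h x * g x ∂μ)) := by
    intro g hg C hC
    have hgL : MemLp g 2 μ := MemLp.of_bound hg.aestronglyMeasurable C
      (Eventually.of_forall fun x => (Real.norm_eq_abs _).trans_le (hC x))
    have hcf := hgL.coeFn_toLp
    convert hweak hgL.toLp using 2
    · exact integral_congr_ae (ae_restrict_of_ae (hcf.mono fun x hx => hx.symm))
    · exact integral_congr_ae (hcf.mono fun x hx => by simp only [hx])
  -- the limit has values in the unit interval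
  have hint : Integrable (h : X → ℝ) μ := (Lp.memLp h).integrable one_le_two
  have hset : ∀ t, MeasurableSet t →
      Tendsto (fun k => μ.real (t ∩ s (ψ k))) atTop (𝓝 (∫ x in t, h x ∂μ)) := fun t ht => by
    have h₁ := hbdd (t.indicator fun _ => 1) (measurable_const.indicator ht) 1 fun x => by
      by_cases hx : x ∈ t <;> simp [hx]
    have e₁ : ∀ k, ∫ x in s (ψ k), t.indicator (fun _ => (1 : ℝ)) x ∂μ = μ.real (t ∩ s (ψ k)) :=
      fun k => by
        rw [integral_indicator ht, Measure.restrict_restrict ht]; simp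
    have e₂ : ∫ x, (h : X → ℝ) x * t.indicator (fun _ => (1 : ℝ)) x ∂μ = ∫ x in t, h x ∂μ := by
      rw [← integral_indicator ht]
      exact integral_congr_ae (Eventually.of_forall fun x => by by_cases hx : x ∈ t <;> simp [hx])
    simpa only [e₁, e₂] using h₁
  have h0 : 0 ≤ᵐ[μ] (h : X → ℝ) := ae_nonneg_of_forall_setIntegral_nonneg hint fun t ht _ =>
    ge_of_tendsto (hset t ht) (Eventually.of_forall fun k => measureReal_nonneg)
  have h1 : 0 ≤ᵐ[μ] fun x => 1 - h x :=
    ae_nonneg_of_forall_setIntegral_nonneg ((integrable_const 1).sub hint) fun t ht _ => by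
      rw [integral_sub (integrable_const 1).integrableOn hint.integrableOn, sub_nonneg]
      refine le_of_tendsto (hset t ht) (Eventually.of_forall fun k => ?_)
      simp only [integral_const, smul_eq_mul, mul_one, measureReal_restrict_apply_univ]
      exact measureReal_mono inter_subset_left
  refine ⟨fun x => max 0 (min 1 (h x)), ψ,
    measurable_const.max (measurable_const.min (Lp.stronglyMeasurable h).measurable),
    fun x => ⟨le_max_left _ _, max_le zero_le_one (min_le_left _ _)⟩, hψ, fun g hg C hC => ?_⟩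
  have e : ∫ x, max 0 (min 1 (h x)) * g x ∂μ = ∫ x, h x * g x ∂μ := by
    refine integral_congr_ae ?_
    filter_upwards [h0, h1] with x hx hx'
    simp only [Pi.zero_apply, sub_nonneg] at hx hx'
    rw [min_eq_right hx', max_eq_right hx]
  rw [e]
  exact hbdd g hg C hC

variable {μ}

omit [MeasurableSpace.CountablyGenerated X] in
/-- Quadratic forms with bounded kernels pass to the weak limit. -/
theorem tendsto_quadratic {s : ℕ → Set X} {φ : X → ℝ}
    (hφm : Measurable φ) (hφ : ∀ x, φ x ∈ Icc (0 : ℝ) 1)
    (hlim : ∀ g : X → ℝ, Measurable g → ∀ C : ℝ, (∀ x, |g x| ≤ C) →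
      Tendsto (fun k => ∫ x in s k, g x ∂μ) atTop (𝓝 (∫ x, φ x * g x ∂μ)))
    {k : X → X → ℝ} (hk : Measurable (Function.uncurry k)) (hk0 : ∀ a b, |k a b| ≤ 1) :
    Tendsto (fun n => ∫ a in s n, ∫ b in s n, k a b ∂μ ∂μ) atTop
      (𝓝 (∫ a, φ a * ∫ b, φ b * k a b ∂μ ∂μ)) := by
  set g : X → ℝ := fun a => ∫ b, φ b * k a b ∂μ
  set gn : ℕ → X → ℝ := fun n a => ∫ b in s n, k a b ∂μ
  have hgm : Measurable g :=
    ((hφm.comp measurable_snd).mul hk).stronglyMeasurable.integral_prod_right'.measurable
  have hgnm : ∀ n, Measurable (gn n) := fun n =>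
    (hk.stronglyMeasurable.integral_prod_right' (ν := μ.restrict (s n))).measurable
  have hgb : ∀ a, |g a| ≤ μ.real univ := fun a => by
    have := norm_integral_le_of_norm_le_const (μ := μ) (f := fun b => φ b * k a b) (C := 1)
      (Eventually.of_forall fun b => by
        rw [Real.norm_eq_abs, abs_mul, abs_of_nonneg (hφ b).1]
        exact mul_le_one₀ (hφ b).2 (abs_nonneg _) (hk0 a b))
    simpa [Real.norm_eq_abs] using this
  have hgnb : ∀ n a, |gn n a| ≤ μ.real univ := fun n a => by
    have := norm_setIntegral_le_of_norm_le_const (μ := μ) (s := s n) (f := fun b => k a b) (C := 1)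
      (measure_lt_top μ _) fun b _ => (Real.norm_eq_abs _).trans_le (hk0 a b)
    rw [one_mul, Real.norm_eq_abs] at this
    exact this.trans (measureReal_mono (subset_univ _))
  have hptw : ∀ a, Tendsto (fun n => gn n a) atTop (𝓝 (g a)) := fun a =>
    hlim (fun b => k a b) (hk.comp (measurable_const.prodMk measurable_id)) 1 (hk0 a)
  have hdom : Tendsto (fun n => ∫ a, |gn n a - g a| ∂μ) atTop (𝓝 0) := by
    rw [show (0 : ℝ) = ∫ _a : X, (0 : ℝ) ∂μ by simp]
    refine tendsto_integral_of_dominated_convergence (fun _ => 2 * μ.real univ)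
      (fun n => (continuous_abs.measurable.comp ((hgnm n).sub hgm)).aestronglyMeasurable) (integrable_const _)
      (fun n => Eventually.of_forall fun a => ?_) (Eventually.of_forall fun a => ?_)
    · rw [Real.norm_eq_abs, abs_abs]
      linarith [abs_sub (gn n a) (g a), hgnb n a, hgb a]
    · simpa using ((hptw a).sub_const (g a)).abs
  have hbound : ∀ n, ‖(∫ a in s n, gn n a ∂μ) - ∫ a in s n, g a ∂μ‖ ≤ ∫ a, |gn n a - g a| ∂μ := by
    intro n
    have i₁ : Integrable (gn n) μ := Integrable.of_bound (hgnm n).aestronglyMeasurable _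
      (Eventually.of_forall fun a => (Real.norm_eq_abs _).trans_le (hgnb n a))
    have i₂ : Integrable g μ := Integrable.of_bound hgm.aestronglyMeasurable _
      (Eventually.of_forall fun a => (Real.norm_eq_abs _).trans_le (hgb a))
    rw [← integral_sub i₁.integrableOn i₂.integrableOn]
    refine (norm_integral_le_integral_norm _).trans ?_
    simpa only [Real.norm_eq_abs, Pi.sub_apply] using
      setIntegral_le_integral (i₁.sub i₂).abs (Eventually.of_forall fun a => abs_nonneg _)
  have := (squeeze_zero_norm hbound hdom).add (hlim g hgm _ hgb)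
  simpa [gn] using this

end

end Vale.Agent.P137
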