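import Vale.Agent.P137.Flat
import Vale.Agent.P137.WeakLimit
import Mathlib.MeasureTheory.Measure.Lebesgue.EqHaar
import Mathlib.MeasureTheory.Group.Prod

/-!
# P137: half-space stability for small midpoint defect
-/

namespace Vale.Agent.P137

open MeasureTheory Set Metric Filter
open scoped ENNReal NNReal Topology RealInnerProductSpace

noncomputable section

variable {n : ℕ}

/-- The triples contained in the unit ball, as pairs (middle, step). -/
def unitTriples (n : ℕ) : Set (Eu (n + 1) × Eu (n + 1)) :=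
  {p | ‖p.1‖ < 1 ∧ ‖p.2‖ < 1 ∧ ‖p.1 - p.2‖ < 1 ∧ ‖p.1 + p.2‖ < 1}

/-- The quadratic extension of the defect indicator to functions. -/
def defectFn (φ : Eu (n + 1) → ℝ) (p : Eu (n + 1) × Eu (n + 1)) : ℝ :=
  φ p.1 - φ (p.1 - p.2) * φ p.1 - φ p.1 * φ (p.1 + p.2) + φ (p.1 - p.2) * φ (p.1 + p.2)

theorem defectFn_indicator (E : Set (Eu (n + 1))) (p : Eu (n + 1) × Eu (n + 1)) :
    defectFn (E.indicator 1) p = (badPairs E).indicator 1 p := by
  classical
  by_cases h₁ : p.1 ∈ E <;> by_cases h₂ : p.1 - p.2 ∈ E <;> by_cases h₃ : p.1 + p.2 ∈ E <;>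
    simp [defectFn, badPairs, indicator, h₁, h₂, h₃]

theorem defectFn_eq (φ : Eu (n + 1) → ℝ) (p : Eu (n + 1) × Eu (n + 1)) : defectFn φ p =
    φ p.1 * ((1 - φ (p.1 - p.2)) * (1 - φ (p.1 + p.2)))
      + (1 - φ p.1) * (φ (p.1 - p.2) * φ (p.1 + p.2)) := by
  rw [defectFn]; ring

theorem isOpen_unitTriples : IsOpen (unitTriples n) := by
  have h : ∀ f : Eu (n + 1) × Eu (n + 1) → Eu (n + 1), Continuous f →
      IsOpen {p | ‖f p‖ < 1} := fun f hf => isOpen_lt hf.norm continuous_const
  exact (h _ continuous_fst).inter ((h _ continuous_snd).inter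
    ((h _ (continuous_fst.sub continuous_snd)).inter (h _ (continuous_fst.add continuous_snd))))

theorem unitTriples_subset : unitTriples n ⊆ ball 0 1 ×ˢ ball 0 1 := fun _ hp =>
  ⟨mem_ball_zero_iff.2 hp.1, mem_ball_zero_iff.2 hp.2.1⟩

theorem finite_ball_sq :
    (volume.prod volume) (ball (0 : Eu (n + 1)) 1 ×ˢ ball (0 : Eu (n + 1)) 1) ≠ ⊤ := by
  rw [Measure.prod_prod]
  exact ENNReal.mul_ne_top measure_ball_lt_top.ne measure_ball_lt_top.ne

theorem finite_unitTriples : (volume.prod volume) (unitTriples n) ≠ ⊤ :=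
  ne_top_of_le_ne_top finite_ball_sq (measure_mono unitTriples_subset)

theorem integral_ind_mul {α : Type*} [MeasurableSpace α] {μ : Measure α} {s : Set α}
    (hs : MeasurableSet s) (F : α → ℝ) :
    ∫ a, s.indicator 1 a * F a ∂μ = ∫ a in s, F a ∂μ := by
  rw [← integral_indicator hs]
  refine integral_congr_ae (Eventually.of_forall fun a => ?_)
  by_cases h : a ∈ s <;> simp [h]

instance : IsFiniteMeasure (volume.restrict (ball (0 : Eu (n + 1)) 1)) :=
  isFiniteMeasure_restrict.2 measure_ball_lt_top.ne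

section limits

variable {s : ℕ → Set (Eu (n + 1))} (hs : ∀ m, MeasurableSet (s m)) {φ : Eu (n + 1) → ℝ}
  (hφm : Measurable φ) (hφ : ∀ x, φ x ∈ Icc (0 : ℝ) 1)
  (hlim : ∀ g : Eu (n + 1) → ℝ, Measurable g → ∀ C : ℝ, (∀ x, |g x| ≤ C) →
    Tendsto (fun k => ∫ x in s k, g x ∂volume.restrict (ball 0 1)) atTop
      (𝓝 (∫ x, φ x * g x ∂volume.restrict (ball 0 1))))

include hs hφm hφ hlim

/-- A bilinear term passes to the limit. -/
theorem tendsto_pair (Q : (Eu (n + 1) × Eu (n + 1)) ≃ₗ[ℝ] (Eu (n + 1) × Eu (n + 1)))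
    (hQ : ∀ p ∈ unitTriples n, (Q p).1 ∈ ball 0 1 ∧ (Q p).2 ∈ ball 0 1) :
    Tendsto (fun m => ∫ p in unitTriples n,
        (s m).indicator (1 : Eu (n + 1) → ℝ) (Q p).1 * (s m).indicator 1 (Q p).2
          ∂volume.prod volume) atTop
      (𝓝 (∫ p in unitTriples n, φ (Q p).1 * φ (Q p).2 ∂volume.prod volume)) := by
  set μ := volume.restrict (ball (0 : Eu (n + 1)) 1)
  set K : Eu (n + 1) × Eu (n + 1) → ℝ := fun q => (unitTriples n).indicator 1 (Q.symm q)
  have hQm : Measurable Q := Q.toLinearMap.continuous_of_finiteDimensional.measurable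
  have hKm : Measurable K := (measurable_one.indicator isOpen_unitTriples.measurableSet).comp
    Q.symm.toLinearMap.continuous_of_finiteDimensional.measurable
  have hK : ∀ q, |K q| ≤ 1 := fun q => by
    by_cases h : Q.symm q ∈ unitTriples n <;> simp [K, h]
  obtain ⟨κ, hκ⟩ : ∃ κ : ℝ≥0∞, (volume.prod volume).map Q = κ • volume.prod volume :=
    ⟨_, Measure.map_linearMap_addHaar_eq_smul_addHaar (volume.prod volume)
      (f := Q.toLinearMap) Q.isUnit_det'.ne_zero⟩
  have key : ∀ f : Eu (n + 1) → ℝ, Measurable f → (∀ x, |f x| ≤ 1) →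
      ∫ p in unitTriples n, f (Q p).1 * f (Q p).2 ∂volume.prod volume
        = κ.toReal * ∫ a, f a * ∫ b, f b * Function.curry K a b ∂μ ∂μ := by
    intro f hf hf1
    set H : Eu (n + 1) × Eu (n + 1) → ℝ := fun q => f q.1 * (f q.2 * K q)
    have hHm : Measurable H := (hf.comp measurable_fst).mul ((hf.comp measurable_snd).mul hKm)
    have e₁ : ∫ p in unitTriples n, f (Q p).1 * f (Q p).2 ∂volume.prod volume
        = ∫ p, H (Q p) ∂volume.prod volume := by
      rw [← integral_indicator isOpen_unitTriples.measurableSet]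
      refine integral_congr_ae (Eventually.of_forall fun p => ?_)
      by_cases h : p ∈ unitTriples n <;> simp [H, K, h]
    have e₂ : ∫ q, H q ∂volume.prod volume = ∫ q, H q ∂μ.prod μ := by
      rw [Measure.prod_restrict]
      refine (setIntegral_eq_integral_of_forall_compl_eq_zero fun q hq => ?_).symm
      have : Q.symm q ∉ unitTriples n := fun h => hq (by simpa using hQ _ h)
      simp [H, K, this]
    have hHi : Integrable H (μ.prod μ) := Integrable.of_bound hHm.aestronglyMeasurable 1
      (Eventually.of_forall fun q => by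
        rw [Real.norm_eq_abs, abs_mul, abs_mul]
        exact mul_le_one₀ (hf1 _) (by positivity)
          (mul_le_one₀ (hf1 _) (abs_nonneg _) (hK q)))
    rw [e₁, ← integral_map hQm.aemeasurable hHm.aestronglyMeasurable, hκ, integral_smul_measure,
      smul_eq_mul, e₂, integral_prod _ hHi]
    simp only [H, integral_const_mul, Function.curry]
  have hind : ∀ (m : ℕ) (x : Eu (n + 1)), |(s m).indicator (1 : Eu (n + 1) → ℝ) x| ≤ 1 :=
    fun m x => by by_cases h : x ∈ s m <;> simp [h]
  have hφ1 : ∀ x, |φ x| ≤ 1 := fun x => abs_le.2 ⟨by linarith [(hφ x).1], (hφ x).2⟩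
  rw [key φ hφm hφ1]
  simp only [key _ (measurable_one.indicator (hs _)) (hind _)]
  refine (tendsto_quadratic hφm hφ hlim (k := Function.curry K)
    (by simpa using hKm) fun a b => hK (a, b)).const_mul κ.toReal |>.congr fun m => ?_
  congr 1
  simp only [integral_ind_mul (hs m)]

/-- The linear term passes to the limit. -/
theorem tendsto_middle :
    Tendsto (fun m => ∫ p in unitTriples n, (s m).indicator (1 : Eu (n + 1) → ℝ) p.1
          ∂volume.prod volume) atTop
      (𝓝 (∫ p in unitTriples n, φ p.1 ∂volume.prod volume)) := by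
  set μ := volume.restrict (ball (0 : Eu (n + 1)) 1)
  set g : Eu (n + 1) → ℝ := fun y => volume.real (Prod.mk y ⁻¹' unitTriples n)
  have hgm : Measurable g :=
    (measurable_measure_prodMk_left isOpen_unitTriples.measurableSet).ennreal_toReal
  have hg : ∀ y, |g y| ≤ volume.real (ball (0 : Eu (n + 1)) 1) := fun y => by
    rw [abs_of_nonneg measureReal_nonneg]
    exact measureReal_mono (fun w hw => (unitTriples_subset hw).2) measure_ball_lt_top.ne
  have key : ∀ f : Eu (n + 1) → ℝ, Measurable f → (∀ x, |f x| ≤ 1) →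
      ∫ p in unitTriples n, f p.1 ∂volume.prod volume = ∫ y, f y * g y ∂μ := by
    intro f hf hf1
    have hi : Integrable (fun p => (unitTriples n).indicator (fun p => f p.1) p)
        (volume.prod volume) :=
      (integrable_indicator_iff isOpen_unitTriples.measurableSet).2
        (IntegrableOn.of_bound finite_unitTriples.lt_top
          (hf.comp measurable_fst).aestronglyMeasurable 1
          (Eventually.of_forall fun p => (Real.norm_eq_abs _).trans_le (hf1 _)))
    rw [← integral_indicator isOpen_unitTriples.measurableSet, integral_prod _ hi,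
      setIntegral_eq_integral_of_forall_compl_eq_zero (fun y hy => ?_)]
    · refine integral_congr_ae (Eventually.of_forall fun y => ?_)
      have hm : MeasurableSet (Prod.mk y ⁻¹' unitTriples n) :=
        measurable_prodMk_left isOpen_unitTriples.measurableSet
      calc ∫ w, (unitTriples n).indicator (fun p => f p.1) (y, w)
          = ∫ w, (Prod.mk y ⁻¹' unitTriples n).indicator (fun _ => f y) w :=
            integral_congr_ae (Eventually.of_forall fun w => by
              by_cases h : (y, w) ∈ unitTriples n <;> simp [h])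
        _ = f y * g y := by
            rw [integral_indicator hm, setIntegral_const, smul_eq_mul, mul_comm]
    · have : Prod.mk y ⁻¹' unitTriples n = ∅ :=
        eq_empty_of_forall_notMem fun w hw => hy (unitTriples_subset hw).1
      simp [g, this]
  have hind : ∀ (m : ℕ) (x : Eu (n + 1)), |(s m).indicator (1 : Eu (n + 1) → ℝ) x| ≤ 1 :=
    fun m x => by by_cases h : x ∈ s m <;> simp [h]
  rw [key φ hφm fun x => abs_le.2 ⟨by linarith [(hφ x).1], (hφ x).2⟩]
  simp only [key _ (measurable_one.indicator (hs _)) (hind _)]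
  refine (hlim g hgm _ hg).congr fun m => ?_
  simp only [integral_ind_mul (hs m)]

/-- The limit of a sequence of sets with vanishing defect has no defect. -/
theorem defectFn_ae_zero
    (hdef : Tendsto (fun m => midDefect (s m) 0 1 1) atTop (𝓝 0)) :
    ∀ᵐ p ∂(volume.prod volume).restrict (unitTriples n), defectFn φ p = 0 := by
  set ν := (volume.prod volume).restrict (unitTriples n) with hν
  have : IsFiniteMeasure ν := isFiniteMeasure_restrict.2 finite_unitTriples
  have hint : ∀ F : Eu (n + 1) × Eu (n + 1) → ℝ, Measurable F → (∀ p, |F p| ≤ 1) →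
      Integrable F ν := fun F hF h => Integrable.of_bound hF.aestronglyMeasurable 1
        (Eventually.of_forall fun p => (Real.norm_eq_abs _).trans_le (h p))
  let Qab : (Eu (n + 1) × Eu (n + 1)) ≃ₗ[ℝ] (Eu (n + 1) × Eu (n + 1)) :=
    { toFun := fun p => (p.1 - p.2, p.1)
      invFun := fun q => (q.2, q.2 - q.1)
      map_add' := fun p q => by ext1 <;> simp <;> abel
      map_smul' := fun c p => by ext1 <;> simp [smul_sub]
      left_inv := fun p => by simp
      right_inv := fun q => by simp }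
  let Qbc : (Eu (n + 1) × Eu (n + 1)) ≃ₗ[ℝ] (Eu (n + 1) × Eu (n + 1)) :=
    { toFun := fun p => (p.1, p.1 + p.2)
      invFun := fun q => (q.1, q.2 - q.1)
      map_add' := fun p q => by ext1 <;> simp <;> abel
      map_smul' := fun c p => by ext1 <;> simp [smul_add]
      left_inv := fun p => by simp
      right_inv := fun q => by simp }
  let Qac : (Eu (n + 1) × Eu (n + 1)) ≃ₗ[ℝ] (Eu (n + 1) × Eu (n + 1)) :=
    { toFun := fun p => (p.1 - p.2, p.1 + p.2)
      invFun := fun q => ((2⁻¹ : ℝ) • (q.1 + q.2), (2⁻¹ : ℝ) • (q.2 - q.1))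
      map_add' := fun p q => by ext1 <;> simp <;> abel
      map_smul' := fun c p => by ext1 <;> simp [smul_add, smul_sub]
      left_inv := fun p => by ext1 <;> simp <;> module
      right_inv := fun q => by ext1 <;> simp <;> module }
  have hdec : ∀ f : Eu (n + 1) → ℝ, Measurable f → (∀ x, |f x| ≤ 1) →
      ∫ p, defectFn f p ∂ν = (∫ p, f p.1 ∂ν) - (∫ p, f (Qab p).1 * f (Qab p).2 ∂ν)
        - (∫ p, f (Qbc p).1 * f (Qbc p).2 ∂ν) + ∫ p, f (Qac p).1 * f (Qac p).2 ∂ν := by
    intro f hf hf1
    have hb : ∀ x y : Eu (n + 1), |f x * f y| ≤ 1 := fun x y => by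
      rw [abs_mul]; exact mul_le_one₀ (hf1 x) (abs_nonneg _) (hf1 y)
    have h₁ := hint (fun p => f p.1) (hf.comp measurable_fst) fun p => hf1 _
    have h₂ := hint (fun p => f (p.1 - p.2) * f p.1)
      ((hf.comp (measurable_fst.sub measurable_snd)).mul (hf.comp measurable_fst)) fun p => hb _ _
    have h₃ := hint (fun p => f p.1 * f (p.1 + p.2))
      ((hf.comp measurable_fst).mul (hf.comp (measurable_fst.add measurable_snd))) fun p => hb _ _
    have h₄ := hint (fun p => f (p.1 - p.2) * f (p.1 + p.2))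
      ((hf.comp (measurable_fst.sub measurable_snd)).mul
        (hf.comp (measurable_fst.add measurable_snd))) fun p => hb _ _
    simp only [defectFn, Qab, Qbc, Qac, LinearEquiv.coe_mk, LinearMap.coe_mk, AddHom.coe_mk]
    rw [integral_add ((h₁.sub' h₂).sub' h₃) h₄, integral_sub (h₁.sub' h₂) h₃, integral_sub h₁ h₂]
  have hφ1 : ∀ x, |φ x| ≤ 1 := fun x => abs_le.2 ⟨by linarith [(hφ x).1], (hφ x).2⟩
  have hlimD : Tendsto (fun m => ∫ p, defectFn ((s m).indicator 1) p ∂ν) atTop
      (𝓝 (∫ p, defectFn φ p ∂ν)) := by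
    rw [hdec φ hφm hφ1]
    refine Tendsto.congr (fun m => (hdec _ (measurable_one.indicator (hs m)) fun x => by
      by_cases h : x ∈ s m <;> simp [h]).symm) ?_
    refine (((tendsto_middle hs hφm hφ hlim).sub (tendsto_pair hs hφm hφ hlim Qab fun p hp => ?_)).sub
      (tendsto_pair hs hφm hφ hlim Qbc fun p hp => ?_)).add
      (tendsto_pair hs hφm hφ hlim Qac fun p hp => ?_)
    all_goals
      constructor <;> rw [mem_ball_zero_iff]
    exacts [hp.2.2.1, hp.1, hp.1, hp.2.2.2, hp.2.2.1, hp.2.2.2]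
  have hzero : Tendsto (fun m => ∫ p, defectFn ((s m).indicator 1) p ∂ν) atTop (𝓝 0) := by
    refine squeeze_zero (fun m => ?_) (fun m => ?_)
      (by simpa using (ENNReal.tendsto_toReal ENNReal.zero_ne_top).comp hdef)
    · simp only [defectFn_indicator]
      exact integral_nonneg fun p => indicator_nonneg (fun _ _ => zero_le_one) p
    · simp only [defectFn_indicator, Function.comp, integral_indicator_one
        (measurableSet_badPairs (hs m)), hν, measureReal_restrict_apply (measurableSet_badPairs (hs m))]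
      exact ENNReal.toReal_mono (ne_top_of_le_ne_top finite_ball_sq
          (measure_mono inter_subset_right))
        (measure_mono (inter_subset_inter_right _ unitTriples_subset))
  have hnn : ∀ p, 0 ≤ defectFn φ p := fun p => by
    have h₁ := hφ p.1
    have h₂ := hφ (p.1 - p.2)
    have h₃ := hφ (p.1 + p.2)
    rw [defectFn_eq]
    exact add_nonneg (mul_nonneg h₁.1 (mul_nonneg (sub_nonneg.2 h₂.2) (sub_nonneg.2 h₃.2)))
      (mul_nonneg (sub_nonneg.2 h₁.2) (mul_nonneg h₂.1 h₃.1))
  have hm : Measurable (defectFn φ) := by unfold defectFn; fun_prop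
  have hi : Integrable (defectFn φ) ν :=
    Integrable.of_bound hm.aestronglyMeasurable 4 (Eventually.of_forall fun p => by
      rw [Real.norm_eq_abs, abs_of_nonneg (hnn p), defectFn]
      nlinarith [hφ p.1, hφ (p.1 - p.2), hφ (p.1 + p.2), (hφ (p.1 - p.2)).1, (hφ p.1).1,
        (hφ (p.1 + p.2)).1, (hφ p.1).2, (hφ (p.1 - p.2)).2, (hφ (p.1 + p.2)).2])
  exact (integral_eq_zero_iff_of_nonneg hnn hi).1 (tendsto_nhds_unique hlimD hzero)

/-- A weak limit of sets with vanishing defect is the indicator of a half-space. -/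
theorem exists_halfspace_limit
    (hdef : Tendsto (fun m => midDefect (s m) 0 1 1) atTop (𝓝 0)) :
    ∃ (ν : Eu (n + 1)) (t : ℝ), ‖ν‖ = 1 ∧ Tendsto (fun m =>
      volume.real ((symmDiff (s m) {y | t < ⟪ν, y⟫}) ∩ ball 0 1)) atTop (𝓝 0) := by
  set μ := volume.restrict (ball (0 : Eu (n + 1)) 1) with hμ
  have h₀ := defectFn_ae_zero hs hφm hφ hlim hdef
  rw [ae_restrict_iff' isOpen_unitTriples.measurableSet, ae_iff] at h₀
  push Not at h₀
  set A : Set (Eu (n + 1)) := φ ⁻¹' {1}
  have hA : MeasurableSet A := hφm (measurableSet_singleton 1)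
  have hflat : Flat A 1 := by
    refine measure_mono_null (fun p hp => ?_) h₀
    refine ⟨hp.2, ?_⟩
    have h₁ := hφ p.1
    have h₂ := hφ (p.1 - p.2)
    have h₃ := hφ (p.1 + p.2)
    rw [defectFn_eq]
    rcases hp.1 with ⟨e₁, e₂, e₃⟩ | ⟨e₁, e₂, e₃⟩ <;>
      simp only [A, mem_preimage, mem_singleton_iff] at e₁ e₂ e₃
    · have := mul_pos (sub_pos.2 (lt_of_le_of_ne h₂.2 e₂)) (sub_pos.2 (lt_of_le_of_ne h₃.2 e₃))
      rw [e₁]
      linarith
    · rw [e₂, e₃]
      linarith [lt_of_le_of_ne h₁.2 e₁]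
  -- the limit is an indicator
  set P : Set (Eu (n + 1)) := {y | ‖y‖ < 1 ∧ 0 < φ y ∧ φ y < 1}
  have hP : volume P = 0 := by
    refine measure_null_of_locally_null P fun x hx => ?_
    set σ := (1 - ‖x‖) / 3 with hσ
    have hσ0 : 0 < σ := div_pos (sub_pos.2 hx.1) three_pos
    refine ⟨P ∩ ball x σ, inter_mem_nhdsWithin P (ball_mem_nhds x hσ0), ?_⟩
    have hPm : MeasurableSet (P ∩ ball x σ) :=
      ((measurableSet_lt measurable_norm measurable_const).inter
        ((measurableSet_lt measurable_const hφm).inter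
          (measurableSet_lt hφm measurable_const))).inter measurableSet_ball
    have h := (measurePreserving_prod_add (volume : Measure (Eu (n + 1))) volume).measure_preimage
      (hPm.prod hPm).nullMeasurableSet
    rw [measure_mono_null (fun p hp => ?_) h₀, Measure.prod_prod, eq_comm, mul_self_eq_zero] at h
    · exact h
    obtain ⟨⟨⟨-, hp₁, hp₁'⟩, hy⟩, ⟨-, hp₂, hp₂'⟩, hz⟩ := hp
    simp only [mem_ball, dist_eq_norm] at hy hz
    refine ⟨⟨?_, ?_, ?_, ?_⟩, ?_⟩
    · linarith [norm_le_insert' p.1 x]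
    · have : p.2 = (p.1 + p.2 - x) - (p.1 - x) := by abel
      rw [this]
      linarith [norm_sub_le (p.1 + p.2 - x) (p.1 - x), norm_nonneg x]
    · have : p.1 - p.2 - x = (2 : ℝ) • (p.1 - x) - (p.1 + p.2 - x) := by module
      have h' := norm_sub_le ((2 : ℝ) • (p.1 - x)) (p.1 + p.2 - x)
      rw [← this, norm_smul, Real.norm_two] at h'
      linarith [norm_le_insert' (p.1 - p.2) x]
    · linarith [norm_le_insert' (p.1 + p.2) x]
    · have h₂ := hφ (p.1 - p.2)
      rw [defectFn_eq]
      rcases h₂.2.lt_or_eq with h' | h'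
      · have := mul_pos hp₁ (mul_pos (sub_pos.2 h') (sub_pos.2 hp₂'))
        have := mul_nonneg (sub_nonneg.2 hp₁'.le) (mul_nonneg h₂.1 hp₂.le)
        linarith
      · have := mul_pos (sub_pos.2 hp₁') hp₂
        rw [h']
        linarith
  obtain ⟨ν, t, hν, hnull⟩ := hflat.exists_halfspace hA
  set H : Set (Eu (n + 1)) := {y | t < ⟪ν, y⟫}
  have hH : MeasurableSet H :=
    (isOpen_lt continuous_const (continuous_const.inner continuous_id)).measurableSet
  refine ⟨ν, t, hν, ?_⟩
  set g : Eu (n + 1) → ℝ := fun y => 1 - 2 * H.indicator 1 y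
  have hg : ∀ y, |g y| ≤ 1 := fun y => by by_cases h : y ∈ H <;> norm_num [g, h]
  have hgm : Measurable g := measurable_const.sub ((measurable_one.indicator hH).const_mul 2)
  have hae : ∀ᵐ y ∂μ, φ y = H.indicator 1 y := by
    rw [hμ, ae_restrict_iff' measurableSet_ball, ae_iff]
    refine measure_mono_null (fun y hy => ?_) (measure_union_null hnull hP)
    simp only [Classical.not_imp] at hy
    obtain ⟨hy₁, hy₂⟩ := hy
    by_cases hyA : φ y = 1
    · by_cases hyH : y ∈ H
      · simp [hyH, hyA] at hy₂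
      · exact Or.inl ⟨Or.inl ⟨hyA, hyH⟩, hy₁⟩
    · rcases (hφ y).1.lt_or_eq with h0 | h0
      · exact Or.inr ⟨mem_ball_zero_iff.1 hy₁, h0, lt_of_le_of_ne (hφ y).2 hyA⟩
      · by_cases hyH : y ∈ H
        · exact Or.inl ⟨Or.inr ⟨hyH, hyA⟩, hy₁⟩
        · simp [hyH, ← h0] at hy₂
  have hval : ∀ m, volume.real ((symmDiff (s m) H) ∩ ball 0 1)
      = (∫ y in s m, g y ∂μ) + ∫ y, H.indicator 1 y ∂μ := fun m => by
    have hgi : Integrable ((s m).indicator g) μ :=
      (Integrable.of_bound hgm.aestronglyMeasurable 1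
        (Eventually.of_forall fun y => (Real.norm_eq_abs _).trans_le (hg y))).indicator (hs m)
    have hHi : Integrable (H.indicator (1 : Eu (n + 1) → ℝ)) μ :=
      (integrable_const (1 : ℝ)).indicator hH
    rw [← integral_indicator (hs m), ← integral_add hgi hHi,
      ← measureReal_restrict_apply ((hs m).symmDiff hH), ← hμ,
      ← integral_indicator_one ((hs m).symmDiff hH)]
    refine integral_congr_ae (Eventually.of_forall fun y => ?_)
    by_cases h₁ : y ∈ s m <;> by_cases h₂ : y ∈ H <;>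
      simp [g, h₁, h₂, Set.mem_symmDiff] <;> norm_num
  have hfin : (∫ y, φ y * g y ∂μ) + ∫ y, H.indicator 1 y ∂μ = 0 := by
    rw [integral_congr_ae (g := fun y => -H.indicator 1 y) ?_, integral_neg, neg_add_cancel]
    filter_upwards [hae] with y hy
    by_cases h : y ∈ H <;> norm_num [g, hy, h]
  have hlim' := (hlim g hgm 1 hg).add_const (∫ y, H.indicator 1 y ∂μ)
  rw [hfin] at hlim'
  exact hlim'.congr fun m => (hval m).symm

end limits

/-- Small defect forces closeness to a half-space, in the unit ball. -/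
theorem halfspace_stability_unit {ε : ℝ} (hε : 0 < ε) : ∃ η : ℝ, 0 < η ∧
    ∀ E : Set (Eu (n + 1)), MeasurableSet E → midDefect E 0 1 1 ≤ ENNReal.ofReal η →
      ∃ (ν : Eu (n + 1)) (t : ℝ), ‖ν‖ = 1 ∧
        volume.real ((symmDiff E {y | t < ⟪ν, y⟫}) ∩ ball 0 1) ≤ ε := by
  by_contra hno
  push Not at hno
  choose E hEm hE hfar using fun m : ℕ => hno (1 / (m + 1)) (by positivity)
  obtain ⟨φ, ψ, hφm, hφ, hψ, hlim⟩ := exists_weak_limit (volume.restrict (ball 0 1)) E hEm
  have hdef : Tendsto (fun m => midDefect (E (ψ m)) 0 1 1) atTop (𝓝 0) := by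
    have h : Tendsto (fun m : ℕ => ENNReal.ofReal (1 / (m + 1))) atTop (𝓝 0) := by
      simpa using ENNReal.tendsto_ofReal tendsto_one_div_add_atTop_nhds_zero_nat
    exact tendsto_of_tendsto_of_tendsto_of_le_of_le tendsto_const_nhds
      (h.comp hψ.tendsto_atTop) (fun m => zero_le) fun m => hE (ψ m)
  obtain ⟨ν, t, hν, hlim'⟩ := exists_halfspace_limit (fun m => hEm (ψ m)) hφm hφ hlim hdef
  obtain ⟨m, hm⟩ := (hlim'.eventually (eventually_lt_nhds hε)).exists
  exact (hfar (ψ m) ν t hν).not_gt hm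

/-- Small defect forces closeness to a half-space, at every place and scale. -/
theorem halfspace_stability {ε : ℝ} (hε : 0 < ε) : ∃ η : ℝ, 0 < η ∧
    ∀ E : Set (Eu (n + 1)), MeasurableSet E → ∀ (c : Eu (n + 1)) (R : ℝ), 0 < R →
      midDefect E c R R ≤ ENNReal.ofReal (η * (R ^ (n + 1)) ^ 2) →
      ∃ (ν : Eu (n + 1)) (t : ℝ), ‖ν‖ = 1 ∧
        volume.real ((symmDiff E {y | t < ⟪ν, y⟫}) ∩ ball c R) ≤ ε * R ^ (n + 1) := by
  obtain ⟨η, hη, h⟩ := halfspace_stability_unit (n := n) hε
  refine ⟨η, hη, fun E hE c R hR hdef => ?_⟩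
  set κ : ℝ := R ^ (n + 1) with hκ
  have hκ0 : 0 < κ := pow_pos hR _
  set T : Eu (n + 1) → Eu (n + 1) := fun x => c + R • x
  set L : Eu (n + 1) → Eu (n + 1) := fun x => R • x
  have hLm : Measurable L := (continuous_const_smul R).measurable
  have hTm : Measurable T := (measurable_const_add c).comp hLm
  have hL : Measure.map L volume = ENNReal.ofReal κ⁻¹ • volume := by
    rw [Measure.map_addHaar_smul volume hR.ne', finrank_euclideanSpace_fin, abs_inv,
      abs_of_pos hκ0]
  have hT : Measure.map T volume = ENNReal.ofReal κ⁻¹ • volume := by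
    rw [show T = (fun x => c + x) ∘ L from rfl, ← Measure.map_map (measurable_const_add c) hLm, hL,
      Measure.map_smul, map_add_left_eq_self]
  have hball : ∀ x, T x ∈ ball c R ↔ x ∈ ball (0 : Eu (n + 1)) 1 := fun x => by
    simp [T, norm_smul, abs_of_pos hR, hR]
  have hLball : ∀ x, L x ∈ ball (0 : Eu (n + 1)) R ↔ x ∈ ball (0 : Eu (n + 1)) 1 := fun x => by
    simp [L, norm_smul, abs_of_pos hR, hR]
  have hTadd : ∀ y w, T (y + w) = T y + L w := fun y w => by simp [T, L, smul_add, add_assoc]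
  have hTsub : ∀ y w, T (y - w) = T y - L w := fun y w => by simp [T, L, smul_sub, add_sub_assoc]
  have hmd : midDefect (T ⁻¹' E) 0 1 1 ≤ ENNReal.ofReal η := by
    have e : badPairs (T ⁻¹' E) ∩ ball 0 1 ×ˢ ball 0 1
        = Prod.map T L ⁻¹' (badPairs E ∩ ball c R ×ˢ ball 0 R) := by
      ext ⟨y, w⟩
      simp only [badPairs, mem_inter_iff, mem_prod, mem_preimage, Prod.map, mem_ofPred_eq, hball,
        hLball, hTadd, hTsub]
    rw [midDefect, e, ← Measure.map_apply (hTm.prodMap hLm) ((measurableSet_badPairs hE).inter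
        (measurableSet_ball.prod measurableSet_ball)),
      ← Measure.map_prod_map volume volume hTm hLm, hT, hL, Measure.prod_smul_left,
      Measure.prod_smul_right, smul_smul, Measure.smul_apply, smul_eq_mul]
    refine (mul_le_mul' le_rfl hdef).trans_eq ?_
    rw [← ENNReal.ofReal_mul (by positivity), ← ENNReal.ofReal_mul (by positivity)]
    congr 1
    field_simp
  obtain ⟨ν, t, hν, hfar⟩ := h _ (hTm hE) hmd
  refine ⟨ν, R * t + ⟪ν, c⟫, hν, ?_⟩
  have e : symmDiff (T ⁻¹' E) {y | t < ⟪ν, y⟫} ∩ ball 0 1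
      = T ⁻¹' (symmDiff E {y | R * t + ⟪ν, c⟫ < ⟪ν, y⟫} ∩ ball c R) := by
    ext x
    have hx : ⟪ν, T x⟫ = ⟪ν, c⟫ + R * ⟪ν, x⟫ := by
      simp [T, inner_add_right, real_inner_smul_right]
    simp only [mem_inter_iff, mem_preimage, hball, Set.mem_symmDiff, mem_ofPred_eq, hx]
    rw [add_comm (R * t), add_lt_add_iff_left, mul_lt_mul_iff_right₀ hR]
  have hm : MeasurableSet (symmDiff E {y | R * t + ⟪ν, c⟫ < ⟪ν, y⟫} ∩ ball c R) :=
    (hE.symmDiff (isOpen_lt continuous_const
      (continuous_const.inner continuous_id)).measurableSet).inter measurableSet_ball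
  rw [e, measureReal_def, ← Measure.map_apply hTm hm, hT, Measure.smul_apply, smul_eq_mul,
    ENNReal.toReal_mul, ENNReal.toReal_ofReal (by positivity), ← measureReal_def,
    inv_mul_le_iff₀ hκ0] at hfar
  linarith

end

end Vale.Agent.P137
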